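import Vale.Agent.P319.Cv.Triv

/-!
P319: Hilbert 90 for divisors, invariant divisors, the kernel of `1 - τ` on classes.
-/

open Polynomial Finset

namespace Vale.Agent.P319

namespace Cv

variable {k : Type} [Field k] {C : Cv k}

theorem nD_indep {z z' : C.Mu} (hz : IsPrimitiveRoot z.val C.r) (hz' : IsPrimitiveRoot z'.val C.r)
    (D : C.Div) : C.nD z D = C.nD z' D := by
  ext P
  rw [nD_apply (Mu.ne_one_of_prim hz), nD_apply (Mu.ne_one_of_prim hz')]

theorem h90 (z : C.Mu) {E : C.Div} (hE : C.nD z E = 0) :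
    ∃ Xh : C.Div, 0 ≤ Xh ∧ (∀ P : C.Pt, P.IsRam → Xh P = 0) ∧
      (∀ l, C.sD z E l = Xh - C.tD (z ^ l) Xh) ∧ (∀ l < C.r, C.sD z E l ≤ Xh) ∧
      ∀ Y, (∀ l < C.r, C.sD z E l ≤ Y) → Xh ≤ Y := by
  have hne : (range C.r).Nonempty := ⟨0, mem_range.2 C.r_pos⟩
  set Xh : C.Div := (range C.r).sup' hne (C.sD z E) with hX
  have h1 : ∀ l < C.r, C.sD z E l ≤ Xh := fun l hl => le_sup' (C.sD z E) (mem_range.2 hl)
  have h2 : ∀ P, ∃ l < C.r, Xh P = C.sD z E l P := fun P => by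
    refine sup'_induction hne (C.sD z E) (p := fun Y : C.Div => ∃ l < C.r, Y P = C.sD z E l P)
      ?_ fun l hl => ⟨l, mem_range.1 hl, rfl⟩
    intro a ha b hb
    rw [Finsupp.sup_apply]
    rcases le_total (a P) (b P) with h | h
    · rwa [sup_eq_right.2 h]
    · rwa [sup_eq_left.2 h]
  have h0 : 0 ≤ Xh := by simpa [sD_zero] using h1 0 C.r_pos
  have h3 : ∀ l ≤ C.r, C.sD z E l ≤ Xh := fun l hl => by
    rcases hl.eq_or_lt with rfl | hl
    · exact hE.le.trans h0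
    · exact h1 l hl
  have h4 : E = Xh - C.tD z Xh := by
    ext P
    rw [Finsupp.sub_apply, tD_apply]
    apply le_antisymm
    · obtain ⟨l, hl, e⟩ := h2 (z • P)
      have := h3 (l + 1) hl P
      rw [sD_succ', Finsupp.add_apply, tD_apply, ← e] at this
      omega
    · obtain ⟨l, hl, e⟩ := h2 P
      have key : ∃ j < C.r, C.sD z E l = C.sD z E (j + 1) := by
        rcases l with _ | l
        · refine ⟨C.r - 1, by omega, ?_⟩
          rw [sD_zero, Nat.sub_add_cancel C.r_pos]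
          exact hE.symm
        · exact ⟨l, by omega, rfl⟩
      obtain ⟨j, hj, e'⟩ := key
      have := h1 j hj (z • P)
      rw [e', sD_succ', Finsupp.add_apply, tD_apply] at e
      omega
  refine ⟨Xh, h0, fun P hP => ?_, fun l => ?_, h1, fun Y hY =>
    sup'_le hne _ fun l hl => hY l (mem_range.1 hl)⟩
  · obtain ⟨l, -, e⟩ := h2 P
    have : E P = 0 := by rw [h4, Finsupp.sub_apply, tD_apply, hP.smul_eq, sub_self]
    rw [e, sD_ram z E l hP, this, mul_zero]
  · conv_lhs => rw [h4]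
    exact sD_cob z Xh l

theorem count_unram {P Q : C.Pt} (hQ : ¬ Q.IsRam) (h : ∃ w : C.Mu, w • Q = P) :
    (open Classical in ∑ w : C.Mu, if w • Q = P then (1 : ℤ) else 0) = 1 := by
  obtain ⟨w, rfl⟩ := h
  rw [sum_eq_single w (fun u _ hu => if_neg fun e => hu (smul_inj hQ e)) (by simp), if_pos rfl]

variable [IsAlgClosed k]

theorem div_pp (z : C.Mu) {g : C.K} (hg : g ≠ 0) (l : ℕ) :
    C.div (C.pp z g l) = C.sD z (C.div g) l := div_pp' z hg l

theorem triv_nD {z : C.Mu} (hz : IsPrimitiveRoot z.val C.r) (D : C.Div) :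
    C.Triv (C.nD z D) := by
  have hz1 := Mu.ne_one_of_prim hz
  induction D using Finsupp.induction_linear with
  | zero => simpa [nD, sD] using Triv.zero
  | add D D' h h' => rw [nD, sD_add]; exact h.add h'
  | single P m =>
    rw [← mul_one m, ← smul_eq_mul, ← Finsupp.smul_single, nD, sD_zsmul]
    refine Triv.zsmul ?_ m
    change C.Triv (C.nD z _)
    by_cases hP : P.IsInf
    · rw [← H_eq_nD hz1 hP]
      exact triv_H
    · exact ((triv_div (C.pol_ne (X_sub_C_ne_zero P.x0))).add triv_H).congr (by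
        rw [div_X_sub hz1 hP, sub_add_cancel])

omit [IsAlgClosed k] in
theorem inv_smul {z : C.Mu} (hz : z ≠ 1) {D : C.Div} (h : C.tD z D = D) (w : C.Mu) (P : C.Pt) :
    D (w • P) = D P := by
  obtain ⟨l, -, rfl⟩ := Mu.exists_pow hz w
  induction l with
  | zero => rw [pow_zero, one_smul]
  | succ l ih => rw [pow_succ', mul_smul, ← tD_apply, h, ih]

/-- an invariant divisor without ramified points is trivial -/
theorem triv_of_inv {z : C.Mu} (hz : IsPrimitiveRoot z.val C.r) {D : C.Div} (h : C.tD z D = D)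
    (h0 : ∀ P : C.Pt, P.IsRam → D P = 0) : C.Triv D := by
  classical
  have hz1 := Mu.ne_one_of_prim hz
  let rep : C.Pt → C.Pt := fun P => (Quotient.mk (MulAction.orbitRel C.Mu C.Pt) P).out
  have r1 : ∀ P, ∃ w : C.Mu, w • P = rep P := fun P =>
    Quotient.mk_out (s := MulAction.orbitRel C.Mu C.Pt) P
  have r2 : ∀ (w : C.Mu) P, rep (w • P) = rep P := fun w P =>
    congrArg Quotient.out (Quotient.sound (s := MulAction.orbitRel C.Mu C.Pt) ⟨w, rfl⟩)
  refine (triv_nD hz (D.filter fun P => P = rep P)).congr ?_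
  ext P
  rw [nD_apply hz1]
  simp only [Finsupp.filter_apply, r2, inv_smul hz1 h]
  by_cases hP : P.IsRam
  · simp [h0 P hP]
  · have := count_unram hP (r1 P)
    rw [← mul_one (D P)]
    conv_rhs => rw [← this, mul_sum]
    exact sum_congr rfl fun w _ => by split_ifs <;> simp

/-- the norm of a function with divisor `W - τ W` is a constant -/
theorem nm_const (z : C.Mu) {W : C.Div} {h : C.K} (h0 : h ≠ 0)
    (hd : C.div h = W - C.tD z W) : ∃ κ : k, κ ≠ 0 ∧ C.nm z h = C.cst κ := by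
  exact exists_cst_of_div (nm_ne z h0) (by rw [div_nm z h0, hd, nD_cob])

theorem inv_of_cob {z : C.Mu} {W : C.Div} {h s : C.K} {κ : k} (hκ : κ ≠ 0) (h0 : h ≠ 0)
    (hd : C.div h = W - C.tD z W) (hs : s ≠ 0) (e : h / C.cst κ * C.tau z s = s) :
    C.tD z (W - C.div s) = W - C.div s := by
  have hc : C.cst κ ≠ 0 := (_root_.map_ne_zero C.cst).2 hκ
  have := congrArg C.div e
  rw [div_mul (div_ne_zero h0 hc) (tau_ne z hs), div_eq_mul_inv, div_mul h0 (inv_ne_zero hc),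
    div_inv, div_cst, neg_zero, add_zero, hd, div_tau] at this
  rw [map_sub]
  conv_rhs => rw [← this]
  abel

/-- the kernel of `1 - τ` on classes is generated by the ramified points -/
theorem ker_pi {z : C.Mu} (hz : IsPrimitiveRoot z.val C.r) {W : C.Div}
    (hW : C.Triv (W - C.tD z W)) :
    ∃ c : C.Div, (∀ P : C.Pt, ¬ P.IsRam → c P = 0) ∧ C.Triv (W - c) := by
  classical
  obtain ⟨h, h0, hd⟩ := hW.exists_div (by rw [map_sub, deg_tD, sub_self])
  obtain ⟨κ', hκ', hn⟩ := nm_const z h0 hd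
  obtain ⟨κ, rfl⟩ := IsAlgClosed.exists_pow_nat_eq κ' C.r_pos
  have hκ : κ ≠ 0 := by rintro rfl; exact hκ' (zero_pow C.hr.ne_zero)
  obtain ⟨s, hs, e⟩ := hilbert90 (Mu.ne_one_of_prim hz) (θ := h / C.cst κ) (by
    rw [nm_div, hn, nm_cst, div_self ((_root_.map_ne_zero C.cst).2 hκ')])
  have hi := inv_of_cob hκ h0 hd hs e
  refine ⟨(W - C.div s).filter Pt.IsRam, fun P hP => Finsupp.filter_apply_neg _ _ hP, ?_⟩
  have h1 : C.Triv (W - C.div s - (W - C.div s).filter Pt.IsRam) := by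
    refine triv_of_inv hz ?_ fun P hP => ?_
    · rw [map_sub, hi]
      congr 1
      ext P
      rw [tD_apply, Finsupp.filter_apply, Finsupp.filter_apply, isRam_smul, ← tD_apply, hi]
    · rw [Finsupp.sub_apply, Finsupp.filter_apply_pos _ _ hP, sub_self]
  exact (h1.add (triv_div hs)).congr (by abel)

variable (C) in
theorem exists_ram : ∃ P : C.Pt, P.IsRam := by
  obtain ⟨a, ha⟩ := IsAlgClosed.exists_root C.F (by
    rw [degree_eq_natDegree C.F_ne, C.hdeg]
    exact_mod_cast C.n_pos.ne')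
  exact ⟨ram a ha, isRam_ram a ha⟩

theorem final_vals {z : C.Mu} (hz : IsPrimitiveRoot z.val C.r) {W : C.Div} {e0 : ℤ}
    (hW : ∀ P : C.Pt, P.IsRam → W P = e0) (hnt : ¬ C.Triv W) {h : C.K} (h0 : h ≠ 0)
    (hd : C.div h = W - C.tD z W) :
    (∃ κ : k, κ ≠ 0 ∧ ∀ P : C.Pt, P.IsRam → P.lc 0 h ^ C.r = κ) ∧
      ∃ P P' : C.Pt, P.IsRam ∧ P'.IsRam ∧ P.lc 0 h ≠ P'.lc 0 h := by
  obtain ⟨κ', hκ', hn⟩ := nm_const z h0 hd
  have hm : ∀ P : C.Pt, P.IsRam → h ∈ P.V 0 := fun P hP => by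
    rw [Pt.mem_V_iff_le h0, ← div_apply, hd, Finsupp.sub_apply, tD_apply, hP.smul_eq, sub_self]
  have hv : ∀ P : C.Pt, P.IsRam → P.lc 0 h ^ C.r = κ' := fun P hP => by
    rw [← (pp_mem_ram z hP (hm P hP) C.r).2, ← nm, hn, Pt.lc_cst]
  refine ⟨⟨κ', hκ', hv⟩, ?_⟩
  by_contra hcon
  obtain ⟨P0, hP0⟩ := exists_ram C
  have hall : ∀ P : C.Pt, P.IsRam → P.lc 0 h = P0.lc 0 h := fun P hP => by
    by_contra e
    exact hcon ⟨P, P0, hP, hP0, e⟩
  set κ := P0.lc 0 h with hκ0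
  have hκr : κ ^ C.r = κ' := hv P0 hP0
  have hκ : κ ≠ 0 := by rintro e; exact hκ' (by rw [← hκr, e, zero_pow C.hr.ne_zero])
  have e := mul_tau_resolvent z (h / C.cst κ) 1
  rw [nm_div, hn, nm_cst, hκr, div_self ((_root_.map_ne_zero C.cst).2 hκ'), sub_self, zero_mul,
    add_zero] at e
  set s := ∑ l ∈ range C.r, C.pp z (h / C.cst κ) l * C.tau (z ^ l) 1 with hs
  have hs1 : ∀ P : C.Pt, P.IsRam → s ∈ P.V 0 ∧ P.lc 0 s ≠ 0 := fun P hP => by
    obtain ⟨t1, t2⟩ := Pt.div_mem_lc (hm P hP) (Pt.cst_mem κ) (by rwa [Pt.lc_cst])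
    rw [sub_zero] at t1 t2
    rw [Pt.lc_cst, hall P hP, div_self hκ] at t2
    simp only [hs, map_one, mul_one]
    refine ⟨Submodule.sum_mem _ fun l _ => (pp_mem_ram z hP t1 l).1, ?_⟩
    rw [map_sum, sum_congr rfl fun l _ => (pp_mem_ram z hP t1 l).2]
    simpa [t2] using C.hrk
  have hs0 : s ≠ 0 := Pt.ne_zero_of_lc (hs1 P0 hP0).2
  have hi := inv_of_cob hκ h0 hd hs0 e
  have h1 : C.Triv (W - C.div s - e0 • C.R) := by
    refine triv_of_inv hz ?_ fun P hP => ?_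
    · rw [map_sub, hi, map_zsmul, tD_R]
    · rw [Finsupp.sub_apply, Finsupp.sub_apply, hW P hP, div_apply,
        Pt.ord_eq_of_lc (hs1 P hP).1 (hs1 P hP).2, Finsupp.smul_apply, R_apply, if_pos hP]
      simp
  exact hnt (((h1.add (triv_div hs0)).add (triv_R.zsmul e0)).congr (by abel))

end Cv

end Vale.Agent.P319
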