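import Vale.Agent.P319.Cv.Defs
import Mathlib.FieldTheory.KummerExtension
import Mathlib.LinearAlgebra.FiniteDimensional.Lemmas

/-!
P319, NORM1: every polynomial in `x` is a norm from the function field of the curve.
-/

open Polynomial Finset

namespace Vale.Agent.P319.Norm1

theorem semiconj_aeval {E A : Type} [Field E] [Ring A] [Algebra E A] {Z Y Y' : A}
    (h : SemiconjBy Z Y Y') (p : E[X]) : SemiconjBy Z (aeval Y p) (aeval Y' p) := by
  induction p using Polynomial.induction_on' with
  | add a b ha hb => rw [map_add, map_add]; exact ha.add_right hb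
  | monomial n a =>
    rw [aeval_monomial, aeval_monomial]
    exact SemiconjBy.mul_right (Algebra.commutes a Z).symm (h.pow_right n)

theorem prod_iter_succ {A : Type} [CommRing A] (s : A →+* A) (w : A) (j : ℕ) :
    ∏ l ∈ range (j + 1), s^[l] w = w * s (∏ l ∈ range j, s^[l] w) := by
  rw [prod_range_succ', map_prod, mul_comm]
  simp only [Function.iterate_succ_apply', Function.iterate_zero_apply]

/-- if `a` is a norm from `E(b^(1/r))` then `b` is a norm from `E(a^(1/r))` -/
theorem swap {E : Type} [Field E] {r : ℕ} (hr : r ≠ 0) {ζ ζ' a b : E} (h : ζ * ζ' = 1)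
    (hζ' : ζ' ^ r = 1) {f : E[X]} (hf : f = X ^ r - C a) [Fact (Irreducible f)]
    (τ : AdjoinRoot f →ₐ[E] AdjoinRoot f) (hτ : τ (AdjoinRoot.root f) = ζ • AdjoinRoot.root f)
    (s : AdjoinRoot (X ^ r - C b) →ₐ[E] AdjoinRoot (X ^ r - C b))
    (hs : s (AdjoinRoot.root _) = ζ' • AdjoinRoot.root _) (w : AdjoinRoot (X ^ r - C b))
    (hw : ∏ l ∈ range r, (s : _ →+* _)^[l] w = algebraMap E _ a) :
    ∃ g : AdjoinRoot f, ∏ l ∈ range r, (τ : _ →+* _)^[l] g = algebraMap E _ b := by
  let B := AdjoinRoot (X ^ r - C b : E[X])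
  let z : B := AdjoinRoot.root _
  replace hs : s z = ζ' • z := hs
  have hz : z ^ r = algebraMap E B b := root_X_pow_sub_C_pow r b
  have hsl : ∀ l : ℕ, (s ^ l) z = ζ' ^ l • z := fun l => by
    induction l with
    | zero => simp
    | succ l ih => rw [pow_succ, AlgHom.mul_apply, hs, map_smul, ih, smul_smul, pow_succ']
  have hsr : s ^ r = 1 := AdjoinRoot.algHom_ext (by
    change (s ^ r) z = z
    rw [hsl, hζ', one_smul])
  let Y : Module.End E B := LinearMap.mulLeft E w * s.toLinearMap
  let Z : Module.End E B := LinearMap.mulLeft E z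
  have hY : ∀ v, Y v = w * s v := fun v => rfl
  have hYl : ∀ (j : ℕ) (v : B), (Y ^ j) v = (∏ l ∈ range j, (s : B →+* B)^[l] w) * (s ^ j) v := by
    intro j v
    induction j with
    | zero => simp
    | succ j ih =>
      rw [pow_succ', Module.End.mul_apply, ih, hY, prod_iter_succ, map_mul, pow_succ',
        AlgHom.mul_apply, mul_assoc]
      rfl
  have hYr : aeval Y f = 0 := by
    ext1 v
    rw [hf, map_sub, map_pow, aeval_X, aeval_C, LinearMap.sub_apply, hYl, hw, hsr,
      Module.algebraMap_end_apply, Algebra.smul_def, LinearMap.zero_apply]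
    exact sub_self _
  let ψ : AdjoinRoot f →ₐ[E] Module.End E B :=
    Ideal.Quotient.liftₐ (Ideal.span {f}) (aeval Y) fun p hp => by
      obtain ⟨q, rfl⟩ := Ideal.mem_span_singleton'.1 hp
      rw [map_mul, hYr, mul_zero]
  have hψ : ∀ p, ψ (AdjoinRoot.mk f p) = aeval Y p := fun p => rfl
  have hZY : SemiconjBy Z Y (ζ • Y) := by
    ext1 v
    change z * (w * s v) = ζ • (w * s (z * v))
    rw [map_mul, hs, smul_mul_assoc, mul_smul_comm, smul_smul, h, one_smul]
    ring
  have hZ : ∀ g, SemiconjBy Z (ψ g) (ψ (τ g)) := fun g => by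
    induction g using AdjoinRoot.induction_on with
    | ih p =>
      have : ψ (τ (AdjoinRoot.mk f p)) = aeval (ζ • Y) p := by
        rw [← AdjoinRoot.aeval_eq, ← aeval_algHom_apply, ← aeval_algHom_apply, hτ, map_smul]
        congr 2
        exact congrArg _ ((hψ X).trans (aeval_X Y))
      rw [this, hψ]
      exact semiconj_aeval hZY p
  have hmon : (X ^ r - C b : E[X]).Monic := monic_X_pow_sub_C b hr
  have : Nontrivial B := AdjoinRoot.nontrivial _ (by
    rw [degree_X_pow_sub_C (Nat.pos_of_ne_zero hr)]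
    exact_mod_cast hr)
  let φ : AdjoinRoot f →ₗ[E] B := (LinearMap.applyₗ (1 : B)).comp ψ.toLinearMap
  have hφ : ∀ g, φ g = ψ g 1 := fun g => rfl
  have hinj : Function.Injective φ := by
    rw [injective_iff_map_eq_zero]
    intro g hg
    by_contra h0
    have h1 : ψ g⁻¹ (ψ g 1) = 1 := by
      rw [← Module.End.mul_apply, ← map_mul, inv_mul_cancel₀ h0, map_one ψ, Module.End.one_apply]
    rw [← hφ, hg, map_zero] at h1
    exact zero_ne_one h1
  have hf0 : f ≠ 0 := (Fact.out : Irreducible f).ne_zero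
  have := (AdjoinRoot.powerBasis hf0).finite
  have := (AdjoinRoot.powerBasis hmon.ne_zero).finite
  have hsurj : Function.Surjective φ :=
    (LinearMap.injective_iff_surjective_of_finrank_eq_finrank (by
      rw [(AdjoinRoot.powerBasis hf0).finrank, (AdjoinRoot.powerBasis hmon.ne_zero).finrank,
        AdjoinRoot.powerBasis_dim, AdjoinRoot.powerBasis_dim, hf, natDegree_X_pow_sub_C,
        natDegree_X_pow_sub_C])).1 hinj
  obtain ⟨g, hg⟩ := hsurj z
  have key : ∀ j : ℕ, φ (∏ l ∈ range j, (τ : _ →+* _)^[l] g) = z ^ j := fun j => by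
    induction j with
    | zero => rw [prod_range_zero, hφ, map_one ψ, pow_zero, Module.End.one_apply]
    | succ j ih =>
      rw [prod_iter_succ, mul_comm, hφ, map_mul, Module.End.mul_apply, ← hφ g, hg, pow_succ',
        ← ih, hφ]
      have := congrArg (fun T : Module.End E B => T 1)
        (hZ (∏ l ∈ range j, (τ : _ →+* _)^[l] g)).eq
      simp only [Module.End.mul_apply, Z, LinearMap.mulLeft_apply, mul_one] at this
      exact this.symm
  refine ⟨g, hinj ?_⟩
  rw [key, hz, hφ, AlgHom.commutes, Module.algebraMap_end_apply, Algebra.smul_def, mul_one]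

theorem prod_sub_smul {k B : Type} [Field k] [CommRing B] [Algebra k B] {r : ℕ} (hr : 0 < r)
    {ζ : k} (hζ : IsPrimitiveRoot ζ r) (ρ : k) (z : B) :
    ∏ l ∈ range r, (algebraMap k B ρ - ζ ^ l • z) = algebraMap k B ρ ^ r - z ^ r := by
  have h := X_pow_sub_C_eq_prod (hζ.map_of_injective (f := (C : k →+* k[X])) C_injective) hr
    (α := X) rfl
  have := congrArg (fun p => aeval z (eval (C ρ) p)) h
  simp only [eval_sub, eval_pow, eval_X, eval_C, eval_prod, map_sub, map_pow, map_prod, aeval_C,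
    aeval_X, map_mul, eval_mul] at this
  rw [this]
  simp only [Algebra.smul_def, map_pow]

variable {k : Type} [Field k] (C : Cv k)

theorem prim {z : C.Mu} (hz : z ≠ 1) : IsPrimitiveRoot z.val C.r := by
  have : Fact C.r.Prime := ⟨C.hr⟩
  have h1 : z.val ≠ 1 := fun h => hz (Cv.Mu.val_injective h)
  have := orderOf_eq_prime z.val_pow_r h1
  rw [← this]
  exact IsPrimitiveRoot.orderOf _

theorem tau_iter (z : C.Mu) (l : ℕ) (g : C.K) :
    (C.tau z : C.K →+* C.K)^[l] g = C.tau (z ^ l) g := by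
  induction l with
  | zero => rw [pow_zero, C.tau_one]; rfl
  | succ l ih =>
    rw [Function.iterate_succ_apply', ih, pow_succ', ← C.tau_tau]
    rfl

theorem nm_mul' (z : C.Mu) (g h : C.K) : C.nm z (g * h) = C.nm z g * C.nm z h := by
  simp only [Cv.nm, Cv.pp, map_mul, prod_mul_distrib]

theorem nm_cst' (z : C.Mu) (c : k) : C.nm z (C.cst c) = C.cst (c ^ C.r) := by
  simp only [Cv.nm, Cv.pp, Cv.tau_cst, prod_const, card_range, map_pow]

variable [IsAlgClosed k]

theorem exists_lin {z : C.Mu} (hz : z ≠ 1) (a0 : k) :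
    ∃ g : C.K, C.nm z g = C.pol (-(X + Polynomial.C a0)) := by
  set b : RatFunc k := algebraMap k[X] (RatFunc k) (-(X + Polynomial.C a0)) with hb
  set B := AdjoinRoot (X ^ C.r - Polynomial.C b : (RatFunc k)[X])
  set v : B := AdjoinRoot.root _ with hv
  have hvr : v ^ C.r = algebraMap _ B b := root_X_pow_sub_C_pow C.r b
  have hz' : IsPrimitiveRoot (z⁻¹).val C.r := prim C (inv_ne_one.2 hz)
  have hζ' : algebraMap k (RatFunc k) (z⁻¹).val ^ C.r = 1 := by
    rw [← map_pow, Cv.Mu.val_pow_r, map_one]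
  let s : B →ₐ[RatFunc k] B := AdjoinRoot.liftAlgHom _ (Algebra.ofId _ _)
    (algebraMap k (RatFunc k) (z⁻¹).val • v) (by
      rw [eval₂_sub, eval₂_X_pow, eval₂_C, _root_.smul_pow, hζ', one_smul, hvr]
      exact sub_self _)
  have hs : s v = algebraMap k (RatFunc k) (z⁻¹).val • v := AdjoinRoot.liftAlgHom_root _ _ _ _
  have hsc : ∀ c : k, s (algebraMap k B c) = algebraMap k B c := fun c => by
    rw [IsScalarTower.algebraMap_apply k (RatFunc k) B, s.commutes]
  have hcp : ∀ c : k, algebraMap k B c =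
      algebraMap (RatFunc k) B (algebraMap k[X] (RatFunc k) (Polynomial.C c)) := fun c => by
    rw [IsScalarTower.algebraMap_apply k (RatFunc k) B,
      IsScalarTower.algebraMap_apply k k[X] (RatFunc k)]
    rfl
  have hslc : ∀ (l : ℕ) (c : k), (s : B →+* B)^[l] (algebraMap k B c) = algebraMap k B c :=
    fun l c => Function.iterate_fixed (hsc c) l
  have hslv : ∀ l : ℕ, (s : B →+* B)^[l] v = (z⁻¹).val ^ l • v := fun l => by
    induction l with
    | zero => simp
    | succ l ih =>
      rw [Function.iterate_succ_apply', ih, Algebra.smul_def, map_mul, RingHom.coe_coe, hsc, hs,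
        algebraMap_smul, ← Algebra.smul_def, smul_smul, pow_succ]
  have hall : ∀ u : k[X], ∃ w : B, ∏ l ∈ range C.r, (s : B →+* B)^[l] w =
      algebraMap _ B (algebraMap k[X] (RatFunc k) u) := fun u => by
    induction IsAlgClosed.splits u using Submonoid.closure_induction with
    | mem u hu =>
      rcases hu with ⟨c, rfl⟩ | ⟨a, rfl⟩
      · obtain ⟨κ, rfl⟩ := IsAlgClosed.exists_pow_nat_eq c C.r_pos
        refine ⟨algebraMap k B κ, ?_⟩
        simp only [hslc, prod_const, card_range]
        rw [← map_pow, hcp]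
      · obtain ⟨ρ, hρ⟩ := IsAlgClosed.exists_pow_nat_eq (a - a0) C.r_pos
        refine ⟨algebraMap k B ρ - v, ?_⟩
        simp only [iterate_map_sub, hslc, hslv]
        rw [prod_sub_smul C.r_pos hz', ← map_pow, hρ, hvr, hcp, ← map_sub]
        congr 1
        rw [hb, ← map_sub]
        congr 1
        rw [map_sub]
        ring
    | one => exact ⟨1, by simp⟩
    | mul u u' _ _ h1 h2 =>
      obtain ⟨w, hw⟩ := h1
      obtain ⟨w', hw'⟩ := h2
      exact ⟨w * w', by
        simp only [iterate_map_mul, prod_mul_distrib, hw, hw', map_mul]⟩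
  obtain ⟨w, hw⟩ := hall C.F
  obtain ⟨g, hg⟩ := swap C.hr.ne_zero (ζ := algebraMap k (RatFunc k) z.val)
    (by rw [← map_mul, ← Cv.Mu.val_mul, mul_inv_cancel, Cv.Mu.val_one, map_one]) hζ'
    (f := C.eqn) rfl (C.tau z) (by
      rw [algebraMap_smul, Algebra.smul_def]
      exact C.tau_y z) s hs w hw
  refine ⟨g, ?_⟩
  simp only [tau_iter] at hg
  rw [← C.rat_pol]
  exact hg

end Vale.Agent.P319.Norm1

namespace Vale.Agent.P319.Cv

variable {k : Type} [Field k] [IsAlgClosed k] (C : Cv k)

/-- NORM1: every polynomial in `x` is a norm -/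
theorem norm1 {z : C.Mu} (hz : z ≠ 1) (u : k[X]) : ∃ g : C.K, C.nm z g = C.pol u := by
  have hc : ∀ c : k, ∃ g : C.K, C.nm z g = C.pol (Polynomial.C c) := fun c => by
    obtain ⟨κ, rfl⟩ := IsAlgClosed.exists_pow_nat_eq c C.r_pos
    exact ⟨C.cst κ, by rw [Norm1.nm_cst', pol_C]⟩
  have hm : ∀ u v : k[X], (∃ g : C.K, C.nm z g = C.pol u) → (∃ g : C.K, C.nm z g = C.pol v) →
      ∃ g : C.K, C.nm z g = C.pol (u * v) := by
    rintro u v ⟨g, hg⟩ ⟨h, hh⟩
    exact ⟨g * h, by rw [Norm1.nm_mul', hg, hh, map_mul]⟩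
  induction IsAlgClosed.splits u using Submonoid.closure_induction with
  | mem u hu =>
    rcases hu with ⟨c, rfl⟩ | ⟨a, rfl⟩
    · exact hc c
    · have := hm _ _ (hc (-1)) (Norm1.exists_lin C hz a)
      rwa [map_neg, map_one, neg_mul_neg, one_mul] at this
  | one => exact hc 1
  | mul u v _ _ h1 h2 => exact hm u v h1 h2

end Vale.Agent.P319.Cv
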