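import Vale.Agent.P319.Cv.Basic
import Vale.Agent.P319.Cv.Norm1

/-!
P319: norms with prescribed expansions at the ramified points.
-/

open Polynomial Finset

namespace Vale.Agent.P319

namespace N2

variable {k : Type} [Field k]

theorem ge_inv {m : ℤ} {g : LaurentSeries k} (hg : Ge m g) (h0 : g.coeff m ≠ 0) :
    Ge (-m) g⁻¹ ∧ g⁻¹.coeff (-m) = (g.coeff m)⁻¹ := by
  have hne : g ≠ 0 := by rintro rfl; exact h0 rfl
  have hi : g⁻¹ ≠ 0 := inv_ne_zero hne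
  have h1 := ge_order g⁻¹
  have h2 : g⁻¹.coeff g⁻¹.order ≠ 0 := (HahnSeries.coeff_order_eq_zero.not.2 hi)
  have h3 := hg.mul h1
  have h4 := hg.coeff_mul h1
  rw [mul_inv_cancel₀ hne] at h3 h4
  have h5 : (1 : LaurentSeries k).order = m + g⁻¹.order :=
    order_eq_of_ge h3 (by rw [h4]; exact mul_ne_zero h0 h2)
  rw [HahnSeries.order_one] at h5
  have h6 : g⁻¹.order = -m := by omega
  rw [h6] at h1 h4
  refine ⟨h1, ?_⟩
  rw [add_neg_cancel] at h4
  have h7 : (1 : LaurentSeries k).coeff 0 = 1 := by simp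
  exact eq_inv_of_mul_eq_one_right (h4.symm.trans h7)

theorem ge_div {m m' : ℤ} {f g : LaurentSeries k} (hf : Ge m f) (hg : Ge m' g)
    (h0 : g.coeff m' ≠ 0) :
    Ge (m - m') (f / g) ∧ (f / g).coeff (m - m') = f.coeff m / g.coeff m' := by
  obtain ⟨h1, h2⟩ := ge_inv hg h0
  rw [div_eq_mul_inv, sub_eq_add_neg, div_eq_mul_inv, ← h2]
  exact ⟨hf.mul h1, hf.coeff_mul h1⟩

theorem ge_sum {ι : Type} {m : ℤ} (s : Finset ι) {f : ι → LaurentSeries k}
    (h : ∀ i ∈ s, Ge m (f i)) : Ge m (∑ i ∈ s, f i) := fun j hj => by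
  rw [HahnSeries.coeff_sum]
  exact sum_eq_zero fun i hi => h i hi j hj

variable {C : Cv k} {a : k} (ha : C.F.eval a = 0)

theorem xs_ram : (Cv.ram a ha : C.Pt).xs = HahnSeries.C a + HahnSeries.single (C.r : ℤ) 1 := by
  have he : (Cv.ram a ha : C.Pt).e = C.r := if_pos rfl
  rw [← he]
  rfl

variable [IsAlgClosed k]

theorem ys_ram : Ge 1 (Cv.ram a ha : C.Pt).ys ∧ (Cv.ram a ha : C.Pt).ys.coeff 1 ≠ 0 := by
  have ho : (Cv.ram a ha : C.Pt).oy = 1 := if_pos rfl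
  have h1 : Ge (Cv.ram a ha : C.Pt).oy (Cv.ram a ha : C.Pt).ys :=
    (Cv.ram a ha : C.Pt).exists_ys.choose_spec.2.1
  have h2 : (Cv.ram a ha : C.Pt).ys.coeff (Cv.ram a ha : C.Pt).oy ≠ 0 :=
    (Cv.ram a ha : C.Pt).exists_ys.choose_spec.2.2.1
  rw [ho] at h1 h2
  exact ⟨h1, h2⟩

theorem twist_pol (z : C.Mu) (u : k[X]) :
    twist (RingHom.id k) z.val z.val_ne ((Cv.ram a ha : C.Pt).iota (C.pol u)) =
      (Cv.ram a ha : C.Pt).iota (C.pol u) := by
  rw [Cv.Pt.iota_pol, hom_eval₂, xs_ram, map_add, twist_C, twist_single, zpow_natCast,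
    z.val_pow_r, one_mul]
  congr 1
  ext1 c
  exact twist_C _ _ z.val_ne c

theorem iota_tau (z : C.Mu) (s : C.K) :
    (Cv.ram a ha : C.Pt).iota (C.tau z s) =
      twist (RingHom.id k) z.val z.val_ne ((Cv.ram a ha : C.Pt).iota s) := by
  have : (Cv.ram a ha : C.Pt).iota.comp (C.tau z : C.K →+* C.K) =
      (twist (RingHom.id k) z.val z.val_ne).comp (Cv.ram a ha : C.Pt).iota := by
    refine Cv.hom_ext (fun p => ?_) ?_
    · change (Cv.ram a ha : C.Pt).iota (C.tau z (C.pol p)) = twist _ _ z.val_ne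
        ((Cv.ram a ha : C.Pt).iota (C.pol p))
      rw [Cv.tau_pol, twist_pol]
    · change (Cv.ram a ha : C.Pt).iota (C.tau z C.y) =
        twist _ _ z.val_ne ((Cv.ram a ha : C.Pt).iota C.y)
      obtain ⟨h1, h2⟩ := ys_ram ha
      have h3 : Ge (0 + 1) (HahnSeries.C z.val * (Cv.ram a ha : C.Pt).ys) := (ge_C _).mul h1
      have h4 := (ge_C z.val).coeff_mul h1
      rw [zero_add] at h3 h4
      have h5 : (HahnSeries.C z.val : LaurentSeries k).coeff 0 = z.val := by simp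
      rw [h5] at h4
      refine root_unique (m := 1) C.hrk ?_ ?_ ?_ ?_ ?_
      · rw [← map_pow, ← map_pow, ← map_pow, ← map_pow, C.y_pow, Cv.tau_pol, twist_pol]
      · rwa [Cv.tau_y, map_mul, Cv.Pt.iota_cst, Cv.Pt.iota_y]
      · rwa [ge_twist, Cv.Pt.iota_y]
      · rw [Cv.tau_y, map_mul, Cv.Pt.iota_cst, Cv.Pt.iota_y, h4, coeff_twist, zpow_one]
        rfl
      · rw [Cv.tau_y, map_mul, Cv.Pt.iota_cst, Cv.Pt.iota_y, h4]
        exact mul_ne_zero z.val_ne h2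
  exact DFunLike.congr_fun this s

theorem ge_tau (z : C.Mu) (s : C.K) (m : ℤ) :
    Ge m ((Cv.ram a ha : C.Pt).iota (C.tau z s)) ↔ Ge m ((Cv.ram a ha : C.Pt).iota s) := by
  rw [iota_tau, ge_twist]

theorem coeff_tau (z : C.Mu) (s : C.K) (m : ℤ) :
    ((Cv.ram a ha : C.Pt).iota (C.tau z s)).coeff m =
      z.val ^ m * ((Cv.ram a ha : C.Pt).iota s).coeff m := by
  rw [iota_tau, coeff_twist]
  rfl

theorem ge_pol (u : k[X]) : Ge 0 ((Cv.ram a ha : C.Pt).iota (C.pol u)) ∧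
    ((Cv.ram a ha : C.Pt).iota (C.pol u)).coeff 0 = u.eval a := by
  rw [Cv.Pt.iota_pol, xs_ram]
  exact eval₂_near a ((ge_single _ _).mono (by exact_mod_cast C.r_pos)) u

theorem ge_pol_root {u : k[X]} (hu : u.eval a = 0) :
    Ge C.r ((Cv.ram a ha : C.Pt).iota (C.pol u)) := by
  obtain ⟨v, rfl⟩ := dvd_iff_isRoot.2 hu
  have h1 : Ge C.r ((Cv.ram a ha : C.Pt).iota (C.pol (X - Polynomial.C a))) := by
    rw [Cv.Pt.iota_pol, xs_ram, eval₂_sub, eval₂_X, eval₂_C, add_sub_cancel_left]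
    exact ge_single _ _
  have := h1.mul (ge_pol ha v).1
  rwa [add_zero, ← map_mul, ← map_mul] at this

theorem ge_y_pow (b : ℕ) : Ge b ((Cv.ram a ha : C.Pt).iota (C.y ^ b)) ∧
    ((Cv.ram a ha : C.Pt).iota (C.y ^ b)).coeff b ≠ 0 := by
  obtain ⟨h1, h2⟩ := ys_ram ha
  have := h1.pow b
  rw [mul_one] at this
  rw [map_pow, Cv.Pt.iota_y, this.2]
  exact ⟨this.1, pow_ne_zero _ h2⟩

theorem ge_pp (z : C.Mu) {s : C.K} {m : ℤ} (h : Ge m ((Cv.ram a ha : C.Pt).iota s))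
    (h0 : ((Cv.ram a ha : C.Pt).iota s).coeff m ≠ 0) (l : ℕ) :
    Ge (l * m) ((Cv.ram a ha : C.Pt).iota (C.pp z s l)) ∧
      ((Cv.ram a ha : C.Pt).iota (C.pp z s l)).coeff (l * m) ≠ 0 := by
  induction l with
  | zero => simpa using ge_C (1 : k)
  | succ l ih =>
    have h1 := (ge_tau ha (z ^ l) s m).2 h
    rw [Cv.pp_succ, map_mul, show ((l + 1 : ℕ) : ℤ) * m = l * m + m by push_cast; ring,
      ih.1.coeff_mul h1, coeff_tau]
    exact ⟨ih.1.mul h1, mul_ne_zero ih.2 (mul_ne_zero (zpow_ne_zero _ (Cv.Mu.val_ne _)) h0)⟩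

theorem ge_pp_zero (z : C.Mu) {s : C.K} (h : Ge 0 ((Cv.ram a ha : C.Pt).iota s)) (l : ℕ) :
    Ge 0 ((Cv.ram a ha : C.Pt).iota (C.pp z s l)) ∧
      ((Cv.ram a ha : C.Pt).iota (C.pp z s l)).coeff 0 =
        ((Cv.ram a ha : C.Pt).iota s).coeff 0 ^ l := by
  induction l with
  | zero => simpa using ge_C (1 : k)
  | succ l ih =>
    have h1 := (ge_tau ha (z ^ l) s 0).2 h
    have h2 := ih.1.mul h1
    have h3 := ih.1.coeff_mul h1
    rw [add_zero] at h2 h3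
    rw [Cv.pp_succ, map_mul, h3, coeff_tau, ih.2, zpow_zero, one_mul, pow_succ]
    exact ⟨h2, rfl⟩

/-- a function whose norm is a unit at a ramified point is a unit there -/
theorem unit_of_nm (z : C.Mu) {s : C.K} (h : Ge 0 ((Cv.ram a ha : C.Pt).iota (C.nm z s)))
    (h0 : ((Cv.ram a ha : C.Pt).iota (C.nm z s)).coeff 0 ≠ 0) :
    Ge 0 ((Cv.ram a ha : C.Pt).iota s) ∧
      ((Cv.ram a ha : C.Pt).iota s).coeff 0 ^ C.r =
        ((Cv.ram a ha : C.Pt).iota (C.nm z s)).coeff 0 := by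
  have hs : s ≠ 0 := by
    rintro rfl
    apply h0
    have : C.nm z 0 = 0 := by
      rw [Cv.nm, ← Nat.succ_pred_eq_of_pos C.r_pos, Cv.pp_succ', zero_mul]
    rw [this, map_zero]
    rfl
  have hi : (Cv.ram a ha : C.Pt).iota s ≠ 0 := (_root_.map_ne_zero _).2 hs
  obtain ⟨h1, h2⟩ := ge_pp ha z (ge_order _) ((HahnSeries.coeff_order_eq_zero.not.2 hi)) C.r
  have h3 := (order_eq_of_ge h1 h2).symm.trans (order_eq_of_ge h h0)
  have h4 : ((Cv.ram a ha : C.Pt).iota s).order = 0 :=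
    (mul_eq_zero.1 h3).resolve_left (by exact_mod_cast C.hr.ne_zero)
  have h5 := ge_order ((Cv.ram a ha : C.Pt).iota s)
  rw [h4] at h5
  exact ⟨h5, (ge_pp_zero ha z h5 C.r).2.symm⟩

end N2

namespace Cv

open N2

variable {k : Type} [Field k] [IsAlgClosed k] {C : Cv k}

theorem norm2 {z : C.Mu} (hz : IsPrimitiveRoot z.val C.r) (a : k) {u : k[X]} (_hu : u ≠ 0)
    (rho : k[X]) (h : ∀ a', C.F.eval a' = 0 → a' ≠ a →
      rho.eval a' ^ C.r = u.eval a' ∧ u.eval a' ≠ 0) :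
    ∃ g : C.K, C.nm z g = C.pol u ∧
      ∀ a' (ha' : C.F.eval a' = 0), a' ≠ a → g - C.pol rho ∈ (ram a' ha').V C.r := by
  classical
  have hz1 : z ≠ 1 := Mu.ne_one_of_prim hz
  obtain ⟨g0, hg0⟩ := C.norm1 hz1 u
  by_cases hex : ∃ a', C.F.eval a' = 0 ∧ a' ≠ a
  swap
  · exact ⟨g0, hg0, fun a' ha' hne => absurd ⟨a', ha', hne⟩ hex⟩
  have hrv : ∀ a', C.F.eval a' = 0 → a' ≠ a → rho.eval a' ≠ 0 := fun a' h1 h2 h3 =>
    (h a' h1 h2).2 (by rw [← (h a' h1 h2).1, h3, zero_pow C.hr.ne_zero])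
  have hrho : rho ≠ 0 := by
    obtain ⟨a', h1, h2⟩ := hex
    rintro rfl
    exact hrv a' h1 h2 eval_zero
  have hp := C.pol_ne hrho
  set th : C.K := g0 / C.pol rho with hth
  have hnm : C.nm z th - 1 = C.pol (u - rho ^ C.r) / C.pol (rho ^ C.r) := by
    rw [hth, nm_div, hg0, nm_pol, map_sub, map_pow, sub_div, div_self (pow_ne_zero _ hp)]
  have hV : ∀ a' (ha' : C.F.eval a' = 0), a' ≠ a →
      Ge C.r ((ram a' ha' : C.Pt).iota (C.nm z th - 1)) := by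
    intro a' ha' hne
    have h1 := ge_pol_root ha' (u := u - rho ^ C.r)
      (by rw [eval_sub, eval_pow, (h a' ha' hne).1, sub_self])
    obtain ⟨h2, h3⟩ := ge_pol ha' (rho ^ C.r)
    have := (ge_div h1 h2 (by rw [h3, eval_pow]; exact pow_ne_zero _ (hrv a' ha' hne))).1
    rwa [sub_zero, ← map_div₀, ← hnm] at this
  have hb : ∀ a' : k, ∃ b : ℕ, b < C.r ∧ ∀ ha' : C.F.eval a' = 0, a' ≠ a →
      Ge 0 ((ram a' ha' : C.Pt).iota th) ∧
        ((ram a' ha' : C.Pt).iota th).coeff 0 * z.val ^ b = 1 := by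
    intro a'
    by_cases hh : C.F.eval a' = 0 ∧ a' ≠ a
    swap
    · exact ⟨0, C.r_pos, fun h1 h2 => absurd ⟨h1, h2⟩ hh⟩
    obtain ⟨ha', hne⟩ := hh
    have h1 := hV a' ha' hne
    have hr0 : (0 : ℤ) < C.r := by exact_mod_cast C.r_pos
    have e : (ram a' ha' : C.Pt).iota (C.nm z th) =
        (ram a' ha' : C.Pt).iota (C.nm z th - 1) + HahnSeries.C 1 := by
      rw [map_sub, map_one, map_one, sub_add_cancel]
    have h2 : ((ram a' ha' : C.Pt).iota (C.nm z th)).coeff 0 = 1 := by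
      rw [e, HahnSeries.coeff_add, h1 0 hr0, zero_add]
      simp
    obtain ⟨h3, h4⟩ := unit_of_nm ha' z (s := th)
      (by rw [e]; exact (h1.mono hr0.le).add (ge_C 1)) (by rw [h2]; exact one_ne_zero)
    rw [h2] at h4
    have h5 : ((ram a' ha' : C.Pt).iota th).coeff 0 ≠ 0 := fun h6 => by
      rw [h6, zero_pow C.hr.ne_zero] at h4
      exact zero_ne_one h4
    obtain ⟨b, hb1, hb2⟩ := hz.eq_pow_of_pow_eq_one
      (ξ := (((ram a' ha' : C.Pt).iota th).coeff 0)⁻¹) (by rw [inv_pow, h4, inv_one])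
    exact ⟨b, hb1, fun _ _ => ⟨h3, by rw [hb2, mul_inv_cancel₀ h5]⟩⟩
  choose b hb1 hb2 using hb
  set S : Finset k := C.F.roots.toFinset with hS
  have hmem : ∀ a', C.F.eval a' = 0 → a' ∈ S := fun a' h1 =>
    Multiset.mem_toFinset.2 ((mem_roots C.F_ne).2 h1)
  set w : C.K := ∑ i ∈ S, C.pol (∏ j ∈ S.erase i, (X - Polynomial.C j)) * C.y ^ b i with hw
  have hw1 : ∀ a' (ha' : C.F.eval a' = 0), Ge (b a') ((ram a' ha' : C.Pt).iota w) ∧
      ((ram a' ha' : C.Pt).iota w).coeff (b a') ≠ 0 := by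
    intro a' ha'
    have hbr : (b a' : ℤ) < C.r := by exact_mod_cast hb1 a'
    have h1 : Ge C.r (∑ i ∈ S.erase a', (ram a' ha' : C.Pt).iota
        (C.pol (∏ j ∈ S.erase i, (X - Polynomial.C j)) * C.y ^ b i)) := by
      refine ge_sum _ fun i hi => ?_
      have h2 := ge_pol_root ha' (u := ∏ j ∈ S.erase i, (X - Polynomial.C j)) (by
        rw [eval_prod]
        exact prod_eq_zero (mem_erase.2 ⟨(mem_erase.1 hi).1.symm, hmem a' ha'⟩) (by simp))
      rw [map_mul]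
      exact (h2.mul (ge_y_pow ha' (b i)).1).mono (by omega)
    obtain ⟨h2, h3⟩ := ge_pol ha' (∏ j ∈ S.erase a', (X - Polynomial.C j))
    obtain ⟨h4, h5⟩ := ge_y_pow ha' (b a')
    have h6 := h2.mul h4
    have h7 := h2.coeff_mul h4
    rw [zero_add] at h6 h7
    rw [hw, map_sum, ← add_sum_erase _ _ (hmem a' ha'), map_mul, HahnSeries.coeff_add, h1 _ hbr,
      add_zero, h7, h3]
    refine ⟨h6.add (h1.mono hbr.le), mul_ne_zero ?_ h5⟩
    rw [eval_prod]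
    refine prod_ne_zero_iff.2 fun j hj => ?_
    rw [eval_sub, eval_X, eval_C]
    exact sub_ne_zero.2 (mem_erase.1 hj).1.symm
  set hh : C.K := ∑ l ∈ range C.r, C.pp z th l * C.tau (z ^ l) w with hhh
  have hh1 : ∀ a' (ha' : C.F.eval a' = 0), a' ≠ a → Ge (b a') ((ram a' ha' : C.Pt).iota hh) ∧
      ((ram a' ha' : C.Pt).iota hh).coeff (b a') ≠ 0 := by
    intro a' ha' hne
    obtain ⟨h1, h2⟩ := hw1 a' ha'
    obtain ⟨h3, h4⟩ := hb2 a' ha' hne
    have h5 : ∀ l, Ge (b a') ((ram a' ha' : C.Pt).iota (C.pp z th l * C.tau (z ^ l) w)) ∧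
        ((ram a' ha' : C.Pt).iota (C.pp z th l * C.tau (z ^ l) w)).coeff (b a') =
          ((ram a' ha' : C.Pt).iota w).coeff (b a') := by
      intro l
      obtain ⟨h6, h7⟩ := ge_pp_zero ha' z h3 l
      have h8 := (ge_tau ha' (z ^ l) w _).2 h1
      have h9 := h6.mul h8
      have h10 := h6.coeff_mul h8
      rw [zero_add] at h9 h10
      rw [map_mul, h10, h7, coeff_tau, zpow_natCast, Mu.val_pow, ← pow_mul, mul_comm l, pow_mul,
        ← mul_assoc, ← mul_pow, h4, one_pow, one_mul]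
      exact ⟨h9, rfl⟩
    rw [hhh, map_sum, HahnSeries.coeff_sum, sum_congr rfl fun l _ => (h5 l).2, sum_const,
      card_range, nsmul_eq_mul]
    exact ⟨ge_sum _ fun l _ => (h5 l).1, mul_ne_zero C.hrk h2⟩
  have hne0 : hh ≠ 0 := by
    obtain ⟨a', h1, h2⟩ := hex
    intro h0
    apply (hh1 a' h1 h2).2
    rw [h0, map_zero]
    rfl
  refine ⟨g0 * (C.tau z hh / hh), by rw [nm_mul, nm_cob z hne0, mul_one, hg0],
    fun a' ha' hne => ?_⟩
  have e : g0 * (C.tau z hh / hh) - C.pol rho = C.pol rho * (C.nm z th - 1) * (w / hh) := by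
    have h1 : th * C.tau z hh = hh + (C.nm z th - 1) * w := mul_tau_resolvent z th w
    have h2 : g0 = C.pol rho * th := by rw [hth, mul_div_cancel₀ _ hp]
    rw [h2]
    field_simp
    linear_combination h1
  change Ge C.r _
  rw [e, map_mul, map_mul, map_div₀]
  have h1 := ((ge_pol ha' rho).1.mul (hV a' ha' hne)).mul
    (ge_div (hw1 a' ha').1 (hh1 a' ha' hne).1 (hh1 a' ha' hne).2).1
  rwa [zero_add, sub_self, add_zero] at h1

end Cv

end Vale.Agent.P319
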