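import Vale.Agent.P319.Cv.Defs

/-!
P319: further definitions for the curve `y ^ r = F(x)`: field automorphisms, contents of forms,
presentations of divisors, the solution sets of the linear systems of the division step.
-/

open Polynomial

namespace Vale.Agent.P319

namespace Cv

variable {k : Type} [Field k] (C : Cv k)

/-! ### Automorphisms of the constant field -/

/-- automorphisms of `k` which fix `F`, its roots and the `r`-th roots of unity -/
structure Fix (σ : k ≃+* k) : Prop where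
  /-- the polynomial is fixed -/
  mapF : C.F.map (σ : k →+* k) = C.F
  /-- the roots are fixed -/
  root : ∀ a, C.F.eval a = 0 → σ a = a
  /-- the roots of unity are fixed -/
  mu : ∀ z : C.Mu, σ z.val = z.val

variable {C}

theorem Fix.eval {σ : k ≃+* k} (h : C.Fix σ) (x : k) : C.F.eval (σ x) = σ (C.F.eval x) := by
  conv_lhs => rw [← h.mapF]
  exact eval_map_apply (σ : k →+* k) x

theorem Fix.lead {σ : k ≃+* k} (h : C.Fix σ) : σ C.F.leadingCoeff = C.F.leadingCoeff := by
  conv_rhs => rw [← h.mapF]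
  exact (leadingCoeff_map (σ : k →+* k)).symm

theorem Fix.symm {σ : k ≃+* k} (h : C.Fix σ) : C.Fix σ.symm where
  mapF := by
    conv_lhs => rw [← h.mapF]
    rw [map_map]
    simp
  root a ha := by rw [RingEquiv.symm_apply_eq, h.root a ha]
  mu z := by rw [RingEquiv.symm_apply_eq, h.mu z]

theorem Fix.pow {σ : k ≃+* k} (h : C.Fix σ) (N : ℕ) : C.Fix (σ ^ N) := by
  induction N with
  | zero => exact ⟨by ext; simp, fun _ _ => rfl, fun _ => rfl⟩
  | succ N ih =>
    rw [pow_succ]
    refine ⟨?_, fun a ha => ?_, fun z => ?_⟩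
    · have : ((σ ^ N * σ : k ≃+* k) : k →+* k) =
          ((σ ^ N : k ≃+* k) : k →+* k).comp (σ : k →+* k) := rfl
      rw [this, ← map_map, h.mapF, ih.mapF]
    · change (σ ^ N) (σ a) = a
      rw [h.root a ha, ih.root a ha]
    · change (σ ^ N) (σ z.val) = z.val
      rw [h.mu z, ih.mu z]

/-- the action on points -/
def Fix.pt {σ : k ≃+* k} (h : C.Fix σ) : C.Pt → C.Pt
  | .aff x0 y0 e => .aff (σ x0) (σ y0) (by rw [← map_pow, e, h.eval])
  | .inf w e => .inf (σ w) (by rw [← map_pow, e, h.lead])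

/-- the action on points as a permutation -/
def Fix.perm {σ : k ≃+* k} (h : C.Fix σ) : Equiv.Perm C.Pt where
  toFun := h.pt
  invFun := h.symm.pt
  left_inv P := by cases P <;> simp [Fix.pt]
  right_inv P := by cases P <;> simp [Fix.pt]

/-- the action on divisors: `h.dv D (h.pt P) = D P` -/
noncomputable def Fix.dv {σ : k ≃+* k} (h : C.Fix σ) : C.Div →+ C.Div :=
  (Finsupp.domCongr h.perm : C.Div ≃+ C.Div).toAddMonoidHom

theorem Fix.dv_pt {σ : k ≃+* k} (h : C.Fix σ) (D : C.Div) (P : C.Pt) :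
    h.dv D (h.pt P) = D P := by
  change D (h.perm.symm (h.perm P)) = D P
  rw [Equiv.symm_apply_apply]

/-- the action on rational functions -/
noncomputable def sigR (σ : k ≃+* k) : RatFunc k →+* RatFunc k :=
  RatFunc.mapRingHom (mapRingHom (σ : k →+* k)) fun u hu => by
    refine mem_nonZeroDivisors_of_ne_zero ?_
    exact (Polynomial.map_ne_zero_iff (σ : k →+* k).injective).2 (nonZeroDivisors.ne_zero hu)

theorem sigR_pol (σ : k ≃+* k) (u : k[X]) :
    sigR σ (algebraMap k[X] (RatFunc k) u) = algebraMap k[X] (RatFunc k) (u.map (σ : k →+* k)) := by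
  have := RatFunc.map_apply_div (mapRingHom (σ : k →+* k)) (fun u hu => by
    refine mem_nonZeroDivisors_of_ne_zero ?_
    exact (Polynomial.map_ne_zero_iff (σ : k →+* k).injective).2 (nonZeroDivisors.ne_zero hu)) u 1
  rw [map_one, div_one, map_one, map_one, div_one] at this
  exact this

/-- the action on functions (`x` and `y` are fixed) -/
noncomputable def Fix.fn {σ : k ≃+* k} (h : C.Fix σ) : C.K →+* C.K :=
  AdjoinRoot.lift (C.rat.comp (sigR σ)) C.y (by
    rw [eval₂_eqn, y_pow, RingHom.comp_apply, sigR_pol, h.mapF, rat_pol, sub_self])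

theorem Fix.fn_y {σ : k ≃+* k} (h : C.Fix σ) : h.fn C.y = C.y := AdjoinRoot.lift_root _

theorem Fix.fn_rat {σ : k ≃+* k} (h : C.Fix σ) (u : RatFunc k) :
    h.fn (C.rat u) = C.rat (sigR σ u) := AdjoinRoot.lift_of _

theorem Fix.fn_pol {σ : k ≃+* k} (h : C.Fix σ) (u : k[X]) :
    h.fn (C.pol u) = C.pol (u.map (σ : k →+* k)) := by
  rw [← rat_pol, h.fn_rat, sigR_pol, rat_pol]

theorem Fix.fn_cst {σ : k ≃+* k} (h : C.Fix σ) (c : k) : h.fn (C.cst c) = C.cst (σ c) := by
  rw [← pol_C, h.fn_pol, map_C, pol_C]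
  rfl

theorem Fix.fn_ev {σ : k ≃+* k} (h : C.Fix σ) (G : k[X][X]) :
    h.fn (C.ev G) = C.ev (G.map (mapRingHom (σ : k →+* k))) := by
  have : h.fn.comp C.ev = C.ev.comp (mapRingHom (mapRingHom (σ : k →+* k))) := by
    refine Polynomial.ringHom_ext (fun u => ?_) ?_
    · simp [h.fn_pol]
    · simp [h.fn_y]
  exact DFunLike.congr_fun this G

variable (C) [IsAlgClosed k]

/-! ### Lattices, contents, presentations -/

/-- the functions of order at least `X P'` at all points `P' ≠ P` -/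
noncomputable def Moff (P : C.Pt) (X : C.Div) : Submodule k C.K :=
  ⨅ P' : {P' : C.Pt // P' ≠ P}, P'.1.V (X P'.1)

theorem mem_Moff {P : C.Pt} {X : C.Div} {s : C.K} :
    s ∈ C.Moff P X ↔ ∀ P', P' ≠ P → s ∈ P'.V (X P') := by
  simp [Moff, Submodule.mem_iInf]

theorem mem_L {D : C.Div} {s : C.K} : s ∈ C.L D ↔ ∀ P : C.Pt, s ∈ P.V (-D P) := by
  simp [L, Submodule.mem_iInf]

/-- the coefficients of the form `B` lie in `L X` and have no common zero as sections -/
def Cont (B : C.K[X]) (X : C.Div) : Prop :=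
  (∀ j, B.coeff j ∈ C.L X) ∧ ∀ P : C.Pt, ∃ j, P.lc (-X P) (B.coeff j) ≠ 0

/-- `(u, B)` presents the divisor `D` -/
structure Pres (a : k) (mu mB : ℕ) (D : C.Div) (u : k[X]) (B : k[X][X][X]) : Prop where
  /-- effective -/
  nonneg : 0 ≤ D
  /-- fixed degree -/
  deg : C.deg D = (C.r * mu : ℕ)
  /-- no ramified point except the one over `a` -/
  ram : ∀ b (hb : C.F.eval b = 0), b ≠ a → D (ram b hb) = 0
  /-- `u` is not zero -/
  u_ne : u ≠ 0
  /-- `u` is the norm -/
  norm : ∀ z : C.Mu, IsPrimitiveRoot z.val C.r →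
    C.div (C.pol u) + ((C.r * mu : ℕ) : ℤ) • C.H = C.nD z D
  /-- `D` is the content of `B` -/
  cont : C.Cont (B.map C.ev) ((mB : ℤ) • C.H - D)

/-- the membership conditions for a tuple of functions -/
def SolM (z : C.Mu) (D : C.Div) (P : C.Pt) (mu T c : ℕ) (Hs : ℕ → C.K) : Prop :=
  ∀ l < C.r, Hs l ∈ C.L (((T + l * mu : ℕ) : ℤ) • C.H - C.sD z D l - Finsupp.single P (c : ℤ))

/-- the conditions at the ramified points -/
def SolR (z : C.Mu) (a : k) (rho : k[X]) (Hs : ℕ → C.K) : Prop :=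
  ∀ b < C.r, ∀ a' (ha' : C.F.eval a' = 0), a' ≠ a →
    (∑ l ∈ Finset.range C.r, Hs l * C.pol rho ^ (C.r - 1 - l) * C.cst (z.val ^ (l * b))) *
      C.y ^ (b + 1) ∈ (ram a' ha').V C.r

/-- the relations of the second stage -/
def SolB (z : C.Mu) (h0 h1 : C.K) (Hs : ℕ → C.K) : Prop :=
  ∀ l, l + 1 < C.r → Hs (l + 1) * C.tau (z ^ l) h0 = Hs l * C.tau (z ^ l) h1

/-- the product of the operators `1 - τ^(1 + i mod (r - 1))`, `i < j` -/
noncomputable def pis (z : C.Mu) : ℕ → C.Div → C.Div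
  | 0, X => X
  | j + 1, X => pis z j (X - C.tD (z ^ (1 + j % (C.r - 1))) X)

/-- the point at infinity with `y / x^ν = 1` of a monic curve -/
def Pone (hF : C.F.Monic) : C.Pt := .inf 1 (by rw [one_pow, hF.leadingCoeff])

/-- the coefficients of `(1 - T)^j` modulo `M` -/
def cf (M j l : ℕ) : ℕ := j.choose l * (M - 1) ^ l % M

/-- the sum of these coefficients -/
def cs (M j : ℕ) : ℕ := ∑ l ∈ Finset.range (j + 1), cf M j l

/-- an effective representative of `(1 - τ)^j W` -/
noncomputable def Wj (z : C.Mu) (M j : ℕ) (W : C.Div) : C.Div :=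
  ∑ l ∈ Finset.range (j + 1), cf M j l • C.tD (z ^ l) W

end Cv

end Vale.Agent.P319
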