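import Vale.Agent.P319.Cv.Places
import Vale.Agent.P319.Cv.Defs2

/-!
P319: divisors on the curve.
-/

open Polynomial Finset

namespace Vale.Agent.P319

namespace Cv

variable {k : Type} [Field k] {c : Cv k}

/-! ### automorphisms of the constants, in the form `Fix` -/

/-- forget the conditions on the roots -/
def Fix.aut {σ : k ≃+* k} (h : c.Fix σ) : c.Aut := ⟨σ, h.mapF⟩

theorem Fix.pt_eq {σ : k ≃+* k} (h : c.Fix σ) (P : c.Pt) : h.pt P = h.aut.pt P := by
  cases P <;> rfl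

theorem Fix.fn_eq {σ : k ≃+* k} (h : c.Fix σ) : h.fn = h.aut.sig :=
  hom_ext (fun p => by rw [h.fn_pol, Aut.sig_pol]; rfl) (by rw [h.fn_y, Aut.sig_y])

@[simp] theorem Fix.isInf_pt {σ : k ≃+* k} (h : c.Fix σ) (P : c.Pt) :
    (h.pt P).IsInf ↔ P.IsInf := by rw [h.pt_eq, Aut.isInf_pt]

@[simp] theorem Fix.isRam_pt {σ : k ≃+* k} (h : c.Fix σ) (P : c.Pt) :
    (h.pt P).IsRam ↔ P.IsRam := by rw [h.pt_eq, Aut.isRam_pt]

@[simp] theorem Fix.x0_pt {σ : k ≃+* k} (h : c.Fix σ) (P : c.Pt) : (h.pt P).x0 = σ P.x0 := by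
  rw [h.pt_eq, Aut.x0_pt]; rfl

@[simp] theorem Fix.y0_pt {σ : k ≃+* k} (h : c.Fix σ) (P : c.Pt) : (h.pt P).y0 = σ P.y0 := by
  rw [h.pt_eq, Aut.y0_pt]; rfl

theorem Fix.pt_ram {σ : k ≃+* k} (h : c.Fix σ) {P : c.Pt} (hP : P.IsRam) : h.pt P = P := by
  rw [h.pt_eq]
  exact h.aut.pt_ram hP (h.root _ hP.eval)

theorem Fix.pt_smul {σ : k ≃+* k} (h : c.Fix σ) (z : c.Mu) (P : c.Pt) :
    h.pt (z • P) = z • h.pt P := by
  rw [h.pt_eq, h.pt_eq]
  exact h.aut.pt_smul (h.mu z) P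

theorem Fix.pt_surj {σ : k ≃+* k} (h : c.Fix σ) (P : c.Pt) : ∃ Q, h.pt Q = P :=
  h.perm.surjective P

theorem Fix.pt_inj {σ : k ≃+* k} (h : c.Fix σ) {P Q : c.Pt} (e : h.pt P = h.pt Q) : P = Q :=
  h.perm.injective e

theorem Fix.fn_tau {σ : k ≃+* k} (h : c.Fix σ) (z : c.Mu) (s : c.K) :
    h.fn (c.tau z s) = c.tau z (h.fn s) := by
  rw [h.fn_eq]
  exact h.aut.sig_tau (h.mu z) s

theorem Fix.fn_ne {σ : k ≃+* k} (h : c.Fix σ) {s : c.K} (hs : s ≠ 0) : h.fn s ≠ 0 :=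
  (_root_.map_ne_zero h.fn).2 hs

theorem Fix.dv_ext {σ : k ≃+* k} (h : c.Fix σ) {D E : c.Div}
    (e : ∀ P, D (h.pt P) = E (h.pt P)) : D = E := by
  ext P
  obtain ⟨Q, rfl⟩ := h.pt_surj P
  exact e Q

theorem Fix.dv_single {σ : k ≃+* k} (h : c.Fix σ) (P : c.Pt) (m : ℤ) :
    h.dv (Finsupp.single P m) = Finsupp.single (h.pt P) m :=
  Finsupp.equivMapDomain_single h.perm P m

variable [IsAlgClosed k]

theorem Fix.ord_fn {σ : k ≃+* k} (h : c.Fix σ) (P : c.Pt) (s : c.K) :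
    (h.pt P).ord (h.fn s) = P.ord s := by rw [h.pt_eq, h.fn_eq, Aut.ord_sig]

theorem Fix.fn_mem_iff {σ : k ≃+* k} (h : c.Fix σ) (P : c.Pt) {m : ℤ} {s : c.K} :
    h.fn s ∈ (h.pt P).V m ↔ s ∈ P.V m := by rw [h.pt_eq, h.fn_eq, Aut.sig_mem_iff]

theorem Fix.lc_zero_fn {σ : k ≃+* k} (h : c.Fix σ) (P : c.Pt) (s : c.K) :
    (h.pt P).lc 0 (h.fn s) = σ (P.lc 0 s) := by
  rw [h.pt_eq, h.fn_eq, Aut.lc_zero_sig]; rfl

theorem Fix.lc_zero_fn_ram {σ : k ≃+* k} (h : c.Fix σ) {P : c.Pt} (hP : P.IsRam) (s : c.K) :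
    P.lc 0 (h.fn s) = σ (P.lc 0 s) := by
  rw [← h.lc_zero_fn, h.pt_ram hP]

theorem Fix.lc_fn_ne_iff {σ : k ≃+* k} (h : c.Fix σ) (P : c.Pt) (m : ℤ) (s : c.K) :
    (h.pt P).lc m (h.fn s) ≠ 0 ↔ P.lc m s ≠ 0 := by
  obtain ⟨ξ, e⟩ := h.aut.exists_tw P
  rw [h.pt_eq, h.fn_eq, e.2, mul_ne_zero_iff, and_iff_right (zpow_ne_zero _ e.1),
    _root_.map_ne_zero]

/-! ### finiteness -/

theorem fibre_finite (x0 : k) : {P : c.Pt | ¬ P.IsInf ∧ P.x0 = x0}.Finite := by
  obtain ⟨Q, hQ, rfl⟩ := exists_aff c x0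
  refine (Set.finite_range fun z : c.Mu => z • Q).subset fun P hP => ?_
  exact exists_smul_aff hQ hP.1 hP.2.symm

theorem inf_finite : {P : c.Pt | P.IsInf}.Finite := by
  obtain ⟨Q, hQ⟩ := exists_inf c
  exact (Set.finite_range fun z : c.Mu => z • Q).subset fun P hP => exists_smul_inf hQ hP

theorem zeros_finite {u : k[X]} (hu : u ≠ 0) :
    {P : c.Pt | P.IsInf ∨ u.eval P.x0 = 0}.Finite := by
  classical
  refine (inf_finite.union ((u.roots.toFinset.finite_toSet).biUnion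
    fun x _ => fibre_finite (c := c) x)).subset fun P hP => ?_
  by_cases h : P.IsInf
  · exact Or.inl h
  · refine Or.inr (Set.mem_biUnion (x := P.x0) ?_ ⟨h, rfl⟩)
    simpa [hu] using hP.resolve_left h

theorem ram_finite : {P : c.Pt | P.IsRam}.Finite :=
  (zeros_finite c.F_ne).subset fun _ hP => Or.inr hP.eval

/-- a rational function without affine poles is a polynomial -/
theorem exists_pol_of_rat {q : RatFunc k} (h : ∀ P : c.Pt, ¬ P.IsInf → c.rat q ∈ P.V 0) :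
    ∃ u : k[X], q = algebraMap _ _ u := by
  rcases eq_or_ne q 0 with rfl | hq
  · exact ⟨0, by simp⟩
  have h1 : q.denom.degree = 0 := by
    by_contra hd
    obtain ⟨x, hx⟩ := IsAlgClosed.exists_root q.denom hd
    obtain ⟨P, hP, rfl⟩ := exists_aff c x
    have h2 := h P hP
    have hn : q.num.eval P.x0 ≠ 0 := fun e => by
      obtain ⟨a, b, hab⟩ := q.isCoprime_num_denom
      have := congrArg (eval P.x0) hab
      rw [eval_add, eval_mul, eval_mul, e, hx.eq_zero, eval_one] at this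
      simp at this
    rw [Pt.mem_V_iff_le ((_root_.map_ne_zero c.rat).2 hq), rat_eq,
      Pt.ord_div (c.pol_ne (RatFunc.num_ne_zero hq)) (c.pol_ne q.denom_ne_zero),
      Pt.ord_pol_of_eval hP hn, Pt.ord_pol hP] at h2
    have h3 : 0 < q.denom.rootMultiplicity P.x0 := (rootMultiplicity_pos q.denom_ne_zero).2 hx
    have h4 : (0 : ℤ) < P.e * q.denom.rootMultiplicity P.x0 :=
      mul_pos (by exact_mod_cast P.e_pos) (by exact_mod_cast h3)
    omega
  have h2 : q.denom = 1 := q.monic_denom.degree_le_zero_iff_eq_one.1 h1.le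
  exact ⟨q.num, by rw [← q.num_div_denom, h2]; simp⟩

/-! ### coordinates at a place -/

theorem co_mul_mem {P : c.Pt} {m : ℤ} {s : c.K} (h : ∀ z : c.Mu, s ∈ (z • P).V m) {b : ℕ}
    (hb : b < c.r) : c.rat (c.co b s) * c.y ^ b ∈ P.V m := by
  rw [avg s hb]
  exact Submodule.sum_mem _ fun z _ => Submodule.smul_mem _ _ ((tau_mem_iff z P).2 (h z))

theorem co_mem {P : c.Pt} {m : ℤ} {s : c.K} (h : ∀ z : c.Mu, s ∈ (z • P).V m) {b : ℕ}
    (hb : b < c.r) : c.rat (c.co b s) ∈ P.V (m - b * P.oy) :=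
  Pt.mem_V_of_mul' (pow_ne_zero b c.y_ne) (co_mul_mem h hb) (by rw [Pt.ord_y_pow]; omega)

theorem co_mul_mem_ram {P : c.Pt} (hP : P.IsRam) {m : ℤ} {s : c.K} (h : s ∈ P.V m) {b : ℕ}
    (hb : b < c.r) : c.rat (c.co b s) * c.y ^ b ∈ P.V m :=
  co_mul_mem (fun z => by rwa [hP.smul_eq]) hb

theorem co_mem_ram' {P : c.Pt} (hP : P.IsRam) {m : ℤ} {s : c.K} (h : s ∈ P.V m) {b : ℕ}
    (hb : b < c.r) : c.rat (c.co b s) ∈ P.V (m - b) := by
  have := co_mem (P := P) (fun z => by rwa [hP.smul_eq]) hb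
  rwa [oy_ram hP, mul_one] at this

theorem co_mem_ram {P : c.Pt} (hP : P.IsRam) {s : c.K} (h : s ∈ P.V 0) {b : ℕ}
    (hb : b < c.r) : c.rat (c.co b s) ∈ P.V 0 :=
  Pt.rat_mem_zero_of_ram hP (co_mem_ram' hP h hb) (by omega)

theorem co_mem_aff {P : c.Pt} (hP : ¬ P.IsInf) {s : c.K} (h : ∀ z : c.Mu, s ∈ (z • P).V 0)
    {b : ℕ} (hb : b < c.r) : c.rat (c.co b s) ∈ P.V 0 := by
  by_cases hr : P.IsRam
  · exact co_mem_ram hr (by simpa using h 1) hb
  · simpa [oy_unram hP hr] using co_mem h hb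

/-- (P4) the functions without affine poles -/
theorem exists_ev_of_aff {s : c.K} (h : ∀ P : c.Pt, ¬ P.IsInf → s ∈ P.V 0) :
    ∃ G : k[X][X], G.natDegree < c.r ∧ c.ev G = s :=
  exists_ev_of_co fun _ hb => exists_pol_of_rat fun P hP =>
    co_mem_aff hP (fun z => h _ (by simpa using hP)) hb

/-- order at a ramified point, in terms of the coefficients -/
theorem ev_mem_ram_iff {P : c.Pt} (hP : P.IsRam) {G : k[X][X]} (hG : G.natDegree < c.r) {m : ℤ} :
    c.ev G ∈ P.V m ↔ ∀ b < c.r, c.pol (G.coeff b) ∈ P.V (m - b) := by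
  constructor
  · intro h b hb
    have := co_mem_ram' hP h hb
    rwa [co_ev hG hb, rat_pol] at this
  · intro h
    rw [ev_eq_sum hG]
    refine Submodule.sum_mem _ fun b hb => ?_
    refine Pt.mul_mem' (h b (mem_range.1 hb)) (Pt.y_pow_mem b) ?_
    rw [oy_ram hP]
    omega

theorem ev_mem_ram_iff_dvd {P : c.Pt} (hP : P.IsRam) {G : k[X][X]} (hG : G.natDegree < c.r)
    (j : ℕ) : c.ev G ∈ P.V (c.r * j) ↔ ∀ b, (X - C P.x0) ^ j ∣ G.coeff b := by
  rw [ev_mem_ram_iff hP hG]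
  constructor
  · intro h b
    rcases lt_or_ge b c.r with hb | hb
    · rw [← Pt.pol_mem_iff hP.not_inf, hP.e_eq, ← rat_pol]
      refine Pt.rat_mem_of_ram hP (m := c.r * j - b) (by rw [rat_pol]; exact h b hb) ?_
      rw [mul_sub]
      omega
    · rw [coeff_eq_zero_of_natDegree_lt (hG.trans_le hb)]
      exact dvd_zero _
  · intro h b _
    have := (Pt.pol_mem_iff hP.not_inf _ j).2 (h b)
    rw [hP.e_eq] at this
    exact Pt.mem_V_of_le this (by omega)

theorem ev_mem_ram_iff_eval {P : c.Pt} (hP : P.IsRam) {G : k[X][X]} (hG : G.natDegree < c.r)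
    {m : ℕ} (hm : m ≤ c.r) : c.ev G ∈ P.V m ↔ ∀ b < m, (G.coeff b).eval P.x0 = 0 := by
  rw [ev_mem_ram_iff hP hG]
  constructor
  · intro h b hb
    rw [← Pt.lc_pol hP.not_inf]
    exact Pt.lc_eq_zero (h b (by omega)) (by omega)
  · intro h b _
    rcases lt_or_ge b m with hb | hb
    · have := Pt.pol_mem_e hP.not_inf (h b hb)
      rw [hP.e_eq] at this
      exact Pt.mem_V_of_le this (by omega)
    · exact Pt.mem_V_of_le (Pt.pol_mem hP.not_inf _) (by omega)

/-- divisibility of all the coefficients -/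
theorem dvd_coeff_iff {G : k[X][X]} (hG : G.natDegree < c.r) {u : k[X]} (hu : u ≠ 0) :
    (∀ b, u ∣ G.coeff b) ↔ ∀ P : c.Pt, ¬ P.IsInf → c.ev G ∈ P.V (P.ord (c.pol u)) := by
  constructor
  · intro h P hP
    obtain ⟨G', rfl⟩ := (C_dvd_iff_dvd_coeff u G).2 h
    rw [map_mul, ev_C]
    exact Pt.mul_mem_right (Pt.mem_V_ord _) (Pt.ev_mem hP G')
  · intro h
    obtain ⟨G', h1, h2⟩ := exists_ev_of_aff (s := c.ev G / c.pol u) fun P hP => by
      refine Pt.mem_V_of_mul (c.pol_ne hu) ?_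
      rw [div_mul_cancel₀ _ (c.pol_ne hu), zero_add]
      exact h P hP
    have h3 : G = C u * G' := ev_inj hG ((natDegree_C_mul_le _ _).trans_lt h1) (by
      rw [map_mul, ev_C, h2, mul_div_cancel₀ _ (c.pol_ne hu)])
    rw [← C_dvd_iff_dvd_coeff]
    exact ⟨G', h3⟩

/-- order at infinity, in terms of the coefficients -/
theorem ev_mem_inf_iff {G : k[X][X]} (hG : G.natDegree < c.r) {m : ℤ} :
    (∀ P : c.Pt, P.IsInf → c.ev G ∈ P.V (-m)) ↔
      ∀ b, G.coeff b ≠ 0 → ((G.coeff b).natDegree : ℤ) + b * c.nu ≤ m := by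
  constructor
  · intro h b h0
    have hb : b < c.r := (le_natDegree_of_ne_zero h0).trans_lt hG
    obtain ⟨P, hP⟩ := exists_inf c
    have := co_mem (P := P) (fun z => h _ (by simpa using hP)) hb
    rw [co_ev hG hb, rat_pol, Pt.mem_V_iff_le (c.pol_ne h0), Pt.ord_pol_inf hP, oy_inf hP] at this
    linarith
  · intro h P hP
    rw [ev_eq_sum hG]
    refine Submodule.sum_mem _ fun b _ => ?_
    by_cases h0 : G.coeff b = 0
    · simp [h0]
    · refine Pt.mul_mem' (Pt.pol_mem_inf hP le_rfl) (Pt.y_pow_mem b) ?_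
      have := h b h0
      rw [oy_inf hP]
      linarith

theorem ord_finite (s : c.K) : (Function.support fun P : c.Pt => P.ord s).Finite := by
  rcases eq_or_ne s 0 with rfl | hs
  · simp
  obtain ⟨u, G, hu, -, hG⟩ := exists_denom s
  obtain ⟨ζ, hζ⟩ := Mu.exists_ne_one c
  have h0 : c.ev G ≠ 0 := by rw [hG]; exact mul_ne_zero (c.pol_ne hu) hs
  obtain ⟨q, hq⟩ := exists_nm_rat hζ (c.ev G)
  obtain ⟨p, rfl⟩ := exists_pol_of_rat (c := c) (q := q) fun P hP => by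
    rw [← hq, nm_eq hζ]
    exact Pt.prod_mem_zero _ _ fun z _ => (tau_mem_iff z P).2 (Pt.ev_mem (by simpa using hP) G)
  rw [rat_pol] at hq
  have hp : p ≠ 0 := by
    rintro rfl
    exact nm_ne ζ h0 (by rw [hq, map_zero])
  refine (zeros_finite (mul_ne_zero hu hp)).subset fun P hP => ?_
  by_contra hcon
  simp only [Set.mem_ofPred_eq, not_or, eval_mul, mul_eq_zero] at hcon
  obtain ⟨h1, h2, h3⟩ := hcon
  have k1 := Pt.ord_pol_of_eval h1 h3
  rw [← hq, nm_eq hζ, Pt.ord_prod _ _ fun z _ => tau_ne z h0,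
    Finset.sum_eq_zero_iff_of_nonneg fun z _ => (Pt.mem_V_iff_le (tau_ne z h0)).1
      ((tau_mem_iff z P).2 (Pt.ev_mem (by simpa using h1) G))] at k1
  have k2 := k1 1 (mem_univ _)
  rw [tau_one, hG, Pt.ord_mul (c.pol_ne hu) hs, Pt.ord_pol_of_eval h1 h2, zero_add] at k2
  exact hP k2

/-! ### divisors of functions -/

@[simp] theorem div_apply (s : c.K) (P : c.Pt) : c.div s P = P.ord s := by
  rw [div, dif_pos (ord_finite s)]
  rfl

open Classical in
theorem H_apply (P : c.Pt) : c.H P = if P.IsInf then 1 else 0 := by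
  rw [H, dif_pos (inf_finite.subset fun P hP => by simpa using hP)]
  rfl

open Classical in
theorem R_apply (P : c.Pt) : c.R P = if P.IsRam then 1 else 0 := by
  rw [R, dif_pos (ram_finite.subset fun P hP => by simpa using hP)]
  rfl

theorem H_inf {P : c.Pt} (hP : P.IsInf) : c.H P = 1 := by rw [H_apply, if_pos hP]

theorem H_aff {P : c.Pt} (hP : ¬ P.IsInf) : c.H P = 0 := by rw [H_apply, if_neg hP]

theorem H_ram {P : c.Pt} (hP : P.IsRam) : c.H P = 0 := H_aff hP.not_inf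

theorem R_ram {P : c.Pt} (hP : P.IsRam) : c.R P = 1 := by rw [R_apply, if_pos hP]

theorem R_unram {P : c.Pt} (hP : ¬ P.IsRam) : c.R P = 0 := by rw [R_apply, if_neg hP]

theorem H_nonneg : 0 ≤ c.H := fun P => by
  rw [H_apply]
  split_ifs <;> simp

theorem R_nonneg : 0 ≤ c.R := fun P => by
  rw [R_apply]
  split_ifs <;> simp

@[simp] theorem div_zero' : c.div 0 = 0 := by ext P; simp

@[simp] theorem div_one' : c.div 1 = 0 := by ext P; simp

@[simp] theorem div_cst (a : k) : c.div (c.cst a) = 0 := by ext P; simp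

theorem div_mul {s t : c.K} (hs : s ≠ 0) (ht : t ≠ 0) : c.div (s * t) = c.div s + c.div t := by
  ext P; simp [Pt.ord_mul hs ht]

theorem div_inv (s : c.K) : c.div s⁻¹ = -c.div s := by ext P; simp [Pt.ord_inv]

theorem div_div {s t : c.K} (hs : s ≠ 0) (ht : t ≠ 0) : c.div (s / t) = c.div s - c.div t := by
  ext P; simp [Pt.ord_div hs ht]

theorem div_pow (s : c.K) (n : ℕ) : c.div (s ^ n) = n • c.div s := by ext P; simp [Pt.ord_pow]

theorem div_zpow (s : c.K) (n : ℤ) : c.div (s ^ n) = n • c.div s := by ext P; simp [Pt.ord_zpow]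

theorem div_prod {ι : Type*} (T : Finset ι) (f : ι → c.K) (hf : ∀ i ∈ T, f i ≠ 0) :
    c.div (∏ i ∈ T, f i) = ∑ i ∈ T, c.div (f i) := by
  ext P; simp [Pt.ord_prod T f hf, Finsupp.finsetSum_apply]

theorem div_cst_mul {a : k} (ha : a ≠ 0) (s : c.K) : c.div (c.cst a * s) = c.div s := by
  ext P; simp [Pt.ord_cst_mul ha]

theorem div_smul {a : k} (ha : a ≠ 0) (s : c.K) : c.div (a • s) = c.div s := by
  ext P; simp [Pt.ord_smul ha]

theorem div_neg (s : c.K) : c.div (-s) = c.div s := by ext P; simp [Pt.ord_neg]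

theorem div_y : c.div c.y = c.R - (c.nu : ℤ) • c.H := by
  ext P
  simp only [div_apply, Pt.ord_y, Finsupp.sub_apply, Finsupp.smul_apply, smul_eq_mul]
  by_cases h : P.IsInf
  · rw [oy_inf h, R_unram h.not_ram, H_inf h]; ring
  · by_cases h' : P.IsRam
    · rw [oy_ram h', R_ram h', H_aff h]; ring
    · rw [oy_unram h h', R_unram h', H_aff h]; ring

/-! ### the action of the deck transformations -/

omit [IsAlgClosed k] in
@[simp] theorem tD_apply (z : c.Mu) (D : c.Div) (P : c.Pt) : c.tD z D P = D (z • P) := by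
  change D ((MulAction.toPerm z⁻¹).symm P) = _
  rw [MulAction.toPerm_symm_apply, inv_inv]

omit [IsAlgClosed k] in
@[simp] theorem tD_one (D : c.Div) : c.tD 1 D = D := by ext P; simp

omit [IsAlgClosed k] in
theorem tD_tD (z w : c.Mu) (D : c.Div) : c.tD z (c.tD w D) = c.tD (z * w) D := by
  ext P; simp [← mul_smul, mul_comm]

omit [IsAlgClosed k] in
theorem tD_single (z : c.Mu) (P : c.Pt) (m : ℤ) :
    c.tD z (Finsupp.single P m) = Finsupp.single (z⁻¹ • P) m :=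
  Finsupp.equivMapDomain_single _ P m

omit [IsAlgClosed k] in
theorem tD_single_ram (z : c.Mu) {P : c.Pt} (hP : P.IsRam) (m : ℤ) :
    c.tD z (Finsupp.single P m) = Finsupp.single P m := by rw [tD_single, hP.smul_eq]

omit [IsAlgClosed k] in
theorem tD_mono (z : c.Mu) {D E : c.Div} (h : D ≤ E) : c.tD z D ≤ c.tD z E := fun P => by
  simpa using h (z • P)

omit [IsAlgClosed k] in
theorem tD_nonneg (z : c.Mu) {D : c.Div} (h : 0 ≤ D) : 0 ≤ c.tD z D := fun P => by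
  simpa using h (z • P)

@[simp] theorem tD_H (z : c.Mu) : c.tD z c.H = c.H := by
  ext P
  by_cases h : P.IsInf
  · rw [tD_apply, H_inf h, H_inf (by simpa using h)]
  · rw [tD_apply, H_aff h, H_aff (by simpa using h)]

@[simp] theorem tD_R (z : c.Mu) : c.tD z c.R = c.R := by
  ext P
  by_cases h : P.IsRam
  · rw [tD_apply, h.smul_eq]
  · rw [tD_apply, R_unram h, R_unram (by simpa using h)]

theorem div_tau (z : c.Mu) (s : c.K) : c.div (c.tau z s) = c.tD z (c.div s) := by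
  ext P; simp [ord_tau]

omit [IsAlgClosed k] in
theorem sD_apply (z : c.Mu) (D : c.Div) (j : ℕ) (P : c.Pt) :
    c.sD z D j P = ∑ l ∈ range j, D (z ^ l • P) := by
  simp [sD, Finsupp.finsetSum_apply]

omit [IsAlgClosed k] in
@[simp] theorem sD_zero (z : c.Mu) (D : c.Div) : c.sD z D 0 = 0 := by simp [sD]

omit [IsAlgClosed k] in
@[simp] theorem sD_one (z : c.Mu) (D : c.Div) : c.sD z D 1 = D := by simp [sD]

omit [IsAlgClosed k] in
theorem sD_succ (z : c.Mu) (D : c.Div) (j : ℕ) :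
    c.sD z D (j + 1) = c.sD z D j + c.tD (z ^ j) D := sum_range_succ _ _

omit [IsAlgClosed k] in
theorem sD_succ' (z : c.Mu) (D : c.Div) (j : ℕ) :
    c.sD z D (j + 1) = D + c.tD z (c.sD z D j) := by
  rw [sD, sum_range_succ', pow_zero, tD_one, add_comm, sD, map_sum]
  simp only [tD_tD, pow_succ']

omit [IsAlgClosed k] in
theorem sD_add (z : c.Mu) (D E : c.Div) (j : ℕ) :
    c.sD z (D + E) j = c.sD z D j + c.sD z E j := by simp only [sD, map_add, sum_add_distrib]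

omit [IsAlgClosed k] in
theorem sD_sub (z : c.Mu) (D E : c.Div) (j : ℕ) :
    c.sD z (D - E) j = c.sD z D j - c.sD z E j := by simp only [sD, map_sub, sum_sub_distrib]

omit [IsAlgClosed k] in
theorem sD_zsmul (z : c.Mu) (m : ℤ) (D : c.Div) (j : ℕ) :
    c.sD z (m • D) j = m • c.sD z D j := by simp only [sD, map_zsmul, Finset.smul_sum]

omit [IsAlgClosed k] in
theorem sD_of_fixed {z : c.Mu} {D : c.Div} (h : ∀ w, c.tD w D = D) (j : ℕ) :
    c.sD z D j = (j : ℤ) • D := by simp [sD, h]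

theorem sD_H (z : c.Mu) (j : ℕ) : c.sD z c.H j = (j : ℤ) • c.H := sD_of_fixed tD_H j

omit [IsAlgClosed k] in
theorem sD_ram (z : c.Mu) (D : c.Div) (j : ℕ) {P : c.Pt} (hP : P.IsRam) :
    c.sD z D j P = j * D P := by simp [sD_apply, hP.smul_eq]

omit [IsAlgClosed k] in
theorem sD_nonneg (z : c.Mu) {D : c.Div} (h : 0 ≤ D) (j : ℕ) : 0 ≤ c.sD z D j :=
  Finset.sum_nonneg fun _ _ => tD_nonneg _ h

omit [IsAlgClosed k] in
theorem sD_mono (z : c.Mu) {D E : c.Div} (h : D ≤ E) (j : ℕ) : c.sD z D j ≤ c.sD z E j :=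
  Finset.sum_le_sum fun _ _ => tD_mono _ h

omit [IsAlgClosed k] in
theorem sD_le_sD (z : c.Mu) {D : c.Div} (h : 0 ≤ D) {i j : ℕ} (hij : i ≤ j) :
    c.sD z D i ≤ c.sD z D j :=
  Finset.sum_le_sum_of_subset_of_nonneg (range_mono hij) fun _ _ _ => tD_nonneg _ h

omit [IsAlgClosed k] in
theorem sD_cob (z : c.Mu) (D : c.Div) (j : ℕ) :
    c.sD z (D - c.tD z D) j = D - c.tD (z ^ j) D := by
  induction j with
  | zero => simp
  | succ j ih => rw [sD_succ, ih, map_sub, tD_tD, ← pow_succ]; abel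

omit [IsAlgClosed k] in
theorem nD_eq {ζ : c.Mu} (hζ : ζ ≠ 1) (D : c.Div) : c.nD ζ D = ∑ z, c.tD z D :=
  Mu.sum_range hζ fun z => c.tD z D

omit [IsAlgClosed k] in
theorem nD_apply {ζ : c.Mu} (hζ : ζ ≠ 1) (D : c.Div) (P : c.Pt) :
    c.nD ζ D P = ∑ z : c.Mu, D (z • P) := by simp [nD_eq hζ, Finsupp.finsetSum_apply]

omit [IsAlgClosed k] in
theorem tD_nD {ζ : c.Mu} (hζ : ζ ≠ 1) (z : c.Mu) (D : c.Div) :
    c.tD z (c.nD ζ D) = c.nD ζ D := by
  simp only [nD_eq hζ, map_sum, tD_tD]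
  exact Fintype.sum_equiv (Equiv.mulLeft z) _ _ fun _ => rfl

omit [IsAlgClosed k] in
theorem tD_le_nD {ζ : c.Mu} (hζ : ζ ≠ 1) (z : c.Mu) {D : c.Div} (h : 0 ≤ D) :
    c.tD z D ≤ c.nD ζ D := by
  rw [nD_eq hζ]
  exact Finset.single_le_sum (f := fun z => c.tD z D) (fun w _ => tD_nonneg w h) (mem_univ z)

theorem div_pp' (ζ : c.Mu) {g : c.K} (hg : g ≠ 0) (j : ℕ) :
    c.div (c.pp ζ g j) = c.sD ζ (c.div g) j := by
  rw [pp, div_prod _ _ fun l _ => tau_ne _ hg, sD]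
  simp only [div_tau]

theorem div_nm (ζ : c.Mu) {g : c.K} (hg : g ≠ 0) : c.div (c.nm ζ g) = c.nD ζ (c.div g) :=
  div_pp' ζ hg _

theorem div_X_sub {ζ : c.Mu} (hζ : ζ ≠ 1) {P : c.Pt} (hP : ¬ P.IsInf) :
    c.div (c.pol (X - C P.x0)) = c.nD ζ (Finsupp.single P 1) - c.H := by
  classical
  ext Q
  rw [div_apply, Finsupp.sub_apply, nD_apply hζ]
  by_cases h : Q.IsInf
  · rw [Pt.ord_pol_inf h, natDegree_X_sub_C, H_inf h, Finset.sum_eq_zero]
    · simp
    · intro z _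
      refine Finsupp.single_eq_of_ne fun e => hP ?_
      rw [← e]
      simpa using h
  · rw [H_aff h, sub_zero]
    by_cases hx : Q.x0 = P.x0
    · rw [← hx, Pt.ord_X_sub h]
      obtain ⟨w, rfl⟩ := exists_smul_aff h hP hx
      by_cases hr : Q.IsRam
      · simp [hr.smul_eq, hr.e_eq, Mu.card]
      · rw [Pt.e_eq_one hr, Finset.sum_eq_single w]
        · simp
        · intro z _ hz
          exact Finsupp.single_eq_of_ne fun e => hz (smul_inj hr e)
        · simp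
    · rw [Pt.ord_pol_of_eval h (by simpa [sub_eq_zero] using hx), Finset.sum_eq_zero]
      intro z _
      refine Finsupp.single_eq_of_ne fun e => hx ?_
      rw [← e, x0_smul]

theorem div_X_sub_ram {P : c.Pt} (hP : P.IsRam) :
    c.div (c.pol (X - C P.x0)) = Finsupp.single P (c.r : ℤ) - c.H := by
  obtain ⟨ζ, hζ⟩ := Mu.exists_ne_one c
  rw [div_X_sub hζ hP.not_inf, nD, sD_of_fixed fun w => tD_single_ram w hP 1]
  simp

theorem H_eq_nD {ζ : c.Mu} (hζ : ζ ≠ 1) {P : c.Pt} (hP : P.IsInf) :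
    c.H = c.nD ζ (Finsupp.single P 1) := by
  classical
  ext Q
  rw [nD_apply hζ]
  by_cases h : Q.IsInf
  · obtain ⟨w, rfl⟩ := exists_smul_inf h hP
    rw [H_inf h, Finset.sum_eq_single w]
    · simp
    · intro z _ hz
      exact Finsupp.single_eq_of_ne fun e => hz (smul_inj h.not_ram e)
    · simp
  · rw [H_aff h, Finset.sum_eq_zero]
    intro z _
    refine Finsupp.single_eq_of_ne fun e => h ?_
    rw [← e] at hP
    simpa using hP

/-! ### degrees -/

omit [IsAlgClosed k] in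
@[simp] theorem deg_single (P : c.Pt) (m : ℤ) : c.deg (Finsupp.single P m) = m :=
  Finsupp.degree_single _ _

omit [IsAlgClosed k] in
theorem deg_eq_sum {D : c.Div} {T : Finset c.Pt} (h : D.support ⊆ T) :
    c.deg D = ∑ P ∈ T, D P :=
  Finset.sum_subset h fun _ _ hP => Finsupp.notMem_support_iff.1 hP

omit [IsAlgClosed k] in
theorem deg_nonneg {D : c.Div} (h : 0 ≤ D) : 0 ≤ c.deg D := Finset.sum_nonneg fun P _ => h P

omit [IsAlgClosed k] in
theorem deg_mono {D E : c.Div} (h : D ≤ E) : c.deg D ≤ c.deg E := by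
  have := deg_nonneg (sub_nonneg.2 h)
  rw [map_sub] at this
  omega

omit [IsAlgClosed k] in
theorem le_deg {D : c.Div} (h : 0 ≤ D) (P : c.Pt) : D P ≤ c.deg D := by
  classical
  have := deg_mono (D := Finsupp.single P (D P)) (E := D) fun Q => by
    rw [Finsupp.single_apply]
    split_ifs with e
    · rw [e]
    · exact h Q
  rwa [deg_single] at this

omit [IsAlgClosed k] in
theorem eq_zero_of_deg {D : c.Div} (h : 0 ≤ D) (hd : c.deg D ≤ 0) : D = 0 := by
  ext P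
  exact le_antisymm ((le_deg h P).trans hd) (h P)

omit [IsAlgClosed k] in
theorem eq_of_le_of_deg {D E : c.Div} (h : D ≤ E) (hd : c.deg E ≤ c.deg D) : D = E := by
  have := eq_zero_of_deg (sub_nonneg.2 h) (by rw [map_sub]; omega)
  exact (sub_eq_zero.1 this).symm

omit [IsAlgClosed k] in
theorem card_support_le {D : c.Div} (h : 0 ≤ D) : (D.support.card : ℤ) ≤ c.deg D := by
  rw [deg_eq_sum (Finset.Subset.refl _), Finset.card_eq_sum_ones, Nat.cast_sum]
  refine Finset.sum_le_sum fun P hP => ?_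
  have h1 := Finsupp.mem_support_iff.1 hP
  have h2 : 0 ≤ D P := h P
  omega

omit [IsAlgClosed k] in
@[simp] theorem deg_tD (z : c.Mu) (D : c.Div) : c.deg (c.tD z D) = c.deg D := by
  induction D using Finsupp.induction_linear with
  | zero => simp
  | add f g hf hg => simp only [map_add, hf, hg]
  | single P m => rw [tD_single, deg_single, deg_single]

omit [IsAlgClosed k] in
theorem deg_sD (z : c.Mu) (D : c.Div) (j : ℕ) : c.deg (c.sD z D j) = j * c.deg D := by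
  simp [sD, map_sum]

omit [IsAlgClosed k] in
theorem deg_nD (z : c.Mu) (D : c.Div) : c.deg (c.nD z D) = c.r * c.deg D := deg_sD _ _ _

omit [IsAlgClosed k] in
@[simp] theorem Fix.deg_dv {σ : k ≃+* k} (h : c.Fix σ) (D : c.Div) :
    c.deg (h.dv D) = c.deg D := by
  induction D using Finsupp.induction_linear with
  | zero => simp
  | add f g hf hg => simp only [map_add, hf, hg]
  | single P m => rw [h.dv_single, deg_single, deg_single]

@[simp] theorem deg_H : c.deg c.H = c.r := by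
  obtain ⟨ζ, hζ⟩ := Mu.exists_ne_one c
  obtain ⟨P, hP⟩ := exists_inf c
  rw [H_eq_nD hζ hP, deg_nD, deg_single, mul_one]

theorem deg_div_pol (u : k[X]) : c.deg (c.div (c.pol u)) = 0 := by
  obtain ⟨ζ, hζ⟩ := Mu.exists_ne_one c
  rcases eq_or_ne u 0 with rfl | hu
  · simp
  have key : ∀ s : Multiset k, c.deg (c.div (c.pol (s.map fun a => X - C a).prod)) = 0 := by
    intro s
    induction s using Multiset.induction_on with
    | empty => simp
    | cons a s ih =>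
      obtain ⟨P, hP, rfl⟩ := exists_aff c a
      rw [Multiset.map_cons, Multiset.prod_cons, map_mul, div_mul (c.pol_ne (X_sub_C_ne_zero _))
        (c.pol_ne (monic_multisetProd_X_sub_C s).ne_zero), map_add, ih, div_X_sub hζ hP, map_sub,
        deg_nD, deg_single, deg_H]
      simp
  rw [(IsAlgClosed.splits u).eq_prod_roots, map_mul, pol_C,
    div_cst_mul (leadingCoeff_ne_zero.2 hu), key]

theorem deg_div_rat (q : RatFunc k) : c.deg (c.div (c.rat q)) = 0 := by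
  rcases eq_or_ne q 0 with rfl | hq
  · simp
  rw [rat_eq, div_div (c.pol_ne (RatFunc.num_ne_zero hq)) (c.pol_ne q.denom_ne_zero), map_sub,
    deg_div_pol, deg_div_pol, sub_zero]

@[simp] theorem deg_div (s : c.K) : c.deg (c.div s) = 0 := by
  rcases eq_or_ne s 0 with rfl | hs
  · simp
  obtain ⟨ζ, hζ⟩ := Mu.exists_ne_one c
  obtain ⟨q, hq⟩ := exists_nm_rat hζ s
  have := deg_div_rat (c := c) q
  rw [← hq, div_nm ζ hs, deg_nD] at this
  exact (mul_eq_zero.1 this).resolve_left (by exact_mod_cast c.hr.ne_zero)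

theorem deg_R : c.deg c.R = c.n := by
  have := deg_div c.y
  rw [div_y, map_sub, map_zsmul, deg_H, sub_eq_zero] at this
  rw [this, n, smul_eq_mul]
  push_cast
  ring

/-! ### automorphisms of the constants and divisors -/

theorem Fix.div_fn {σ : k ≃+* k} (h : c.Fix σ) (s : c.K) : c.div (h.fn s) = h.dv (c.div s) :=
  h.dv_ext fun P => by rw [h.dv_pt, div_apply, div_apply, h.ord_fn]

@[simp] theorem Fix.dv_H {σ : k ≃+* k} (h : c.Fix σ) : h.dv c.H = c.H :=
  h.dv_ext fun P => by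
    rw [h.dv_pt]
    by_cases e : P.IsInf
    · rw [H_inf e, H_inf (by simpa using e)]
    · rw [H_aff e, H_aff (by simpa using e)]

omit [IsAlgClosed k] in
theorem Fix.dv_ram {σ : k ≃+* k} (h : c.Fix σ) (D : c.Div) {P : c.Pt} (hP : P.IsRam) :
    h.dv D P = D P := by
  conv_lhs => rw [← h.pt_ram hP, h.dv_pt]

omit [IsAlgClosed k] in
theorem Fix.dv_tD {σ : k ≃+* k} (h : c.Fix σ) (z : c.Mu) (D : c.Div) :
    h.dv (c.tD z D) = c.tD z (h.dv D) :=
  h.dv_ext fun P => by rw [h.dv_pt, tD_apply, tD_apply, ← h.pt_smul, h.dv_pt]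

omit [IsAlgClosed k] in
theorem Fix.dv_of_ram {σ : k ≃+* k} (h : c.Fix σ) {D : c.Div} (hD : ∀ P, D P ≠ 0 → P.IsRam) :
    h.dv D = D :=
  h.dv_ext fun P => by
    rw [h.dv_pt]
    by_cases e : P.IsRam
    · rw [h.pt_ram e]
    · rw [not_imp_comm.1 (hD P) e, not_imp_comm.1 (hD (h.pt P)) (by simpa using e)]

/-! ### Riemann-Roch spaces -/

theorem mem_L' {D : c.Div} {s : c.K} : s ∈ c.L D ↔ ∀ P : c.Pt, s ∈ P.V (-D P) := mem_L c

theorem mem_L_iff {D : c.Div} {s : c.K} (hs : s ≠ 0) : s ∈ c.L D ↔ 0 ≤ c.div s + D := by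
  rw [mem_L']
  refine forall_congr' fun P => ?_
  rw [Pt.mem_V_iff_le hs, Finsupp.add_apply, div_apply, Finsupp.zero_apply]
  omega

theorem mem_L_iff' {D : c.Div} {s : c.K} (hs : s ≠ 0) : s ∈ c.L D ↔ -D ≤ c.div s := by
  rw [mem_L_iff hs, neg_le_iff_add_nonneg]

theorem mem_L_div (s : c.K) : s ∈ c.L (-c.div s) := mem_L'.2 fun P => by
  simpa using Pt.mem_V_ord s

theorem L_mono {D E : c.Div} (h : D ≤ E) : c.L D ≤ c.L E := fun _ hs =>
  mem_L'.2 fun P => Pt.mem_V_of_le (mem_L'.1 hs P) (neg_le_neg (h P))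

theorem mul_mem_L {D E : c.Div} {s t : c.K} (hs : s ∈ c.L D) (ht : t ∈ c.L E) :
    s * t ∈ c.L (D + E) :=
  mem_L'.2 fun P => Pt.mul_mem' (mem_L'.1 hs P) (mem_L'.1 ht P) (by simp [add_comm])

theorem mul_mem_L_iff {D : c.Div} {s t : c.K} (ht : t ≠ 0) :
    s * t ∈ c.L (D - c.div t) ↔ s ∈ c.L D := by
  rw [mem_L', mem_L']
  refine forall_congr' fun P => ?_
  rw [← Pt.mul_mem_iff ht (s := s), Finsupp.sub_apply, div_apply, neg_sub, sub_eq_neg_add]

theorem tau_mem_L (z : c.Mu) {D : c.Div} {s : c.K} : c.tau z s ∈ c.L (c.tD z D) ↔ s ∈ c.L D := by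
  rw [mem_L', mem_L']
  refine ⟨fun h P => ?_, fun h P => by rw [tau_mem_iff, tD_apply]; exact h _⟩
  have := h (z⁻¹ • P)
  rwa [tau_mem_iff, tD_apply, smul_inv_smul] at this

theorem prod_mem_L {ι : Type*} (T : Finset ι) (f : ι → c.K) (D : ι → c.Div)
    (hf : ∀ i ∈ T, f i ∈ c.L (D i)) : ∏ i ∈ T, f i ∈ c.L (∑ i ∈ T, D i) :=
  mem_L'.2 fun P => by
    rw [Finsupp.finsetSum_apply, ← Finset.sum_neg_distrib]
    exact Pt.prod_mem T f _ fun i hi => mem_L'.1 (hf i hi) P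

theorem deg_nonneg_of_mem {D : c.Div} {s : c.K} (hs : s ≠ 0) (h : s ∈ c.L D) : 0 ≤ c.deg D := by
  have := deg_nonneg ((mem_L_iff hs).1 h)
  rwa [map_add, deg_div, zero_add] at this

theorem eq_zero_of_deg_neg {D : c.Div} (hD : c.deg D < 0) {s : c.K} (h : s ∈ c.L D) : s = 0 := by
  by_contra hs
  exact absurd (deg_nonneg_of_mem hs h) (not_le.2 hD)

theorem L_eq_bot {D : c.Div} (hD : c.deg D < 0) : c.L D = ⊥ :=
  (Submodule.eq_bot_iff _).2 fun _ h => eq_zero_of_deg_neg hD h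

theorem div_eq_of_mem {D : c.Div} (hD : c.deg D ≤ 0) {s : c.K} (hs : s ≠ 0) (h : s ∈ c.L D) :
    c.div s = -D := by
  have := eq_zero_of_deg ((mem_L_iff hs).1 h) (by rw [map_add, deg_div]; omega)
  exact eq_neg_of_add_eq_zero_left this

theorem mem_L_sub_single {D : c.Div} {P : c.Pt} {s : c.K} :
    s ∈ c.L (D - Finsupp.single P 1) ↔ s ∈ c.L D ∧ P.lc (-D P) s = 0 := by
  classical
  have e : -(D - Finsupp.single P 1 : c.Div) P = -D P + 1 := by simp; ring
  constructor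
  · intro h
    refine ⟨L_mono (sub_le_self _ (Finsupp.single_nonneg.2 zero_le_one)) h, ?_⟩
    have := mem_L'.1 h P
    rw [e] at this
    exact (Pt.mem_V_succ.1 this).2
  · rintro ⟨h1, h2⟩
    refine mem_L'.2 fun Q => ?_
    by_cases hQ : Q = P
    · rw [hQ, e]
      exact Pt.mem_V_succ.2 ⟨mem_L'.1 h1 P, h2⟩
    · rw [Finsupp.sub_apply, Finsupp.single_eq_of_ne hQ, sub_zero]
      exact mem_L'.1 h1 Q

theorem cst_mem_L (a : k) : c.cst a ∈ c.L 0 := mem_L'.2 fun _ => Pt.cst_mem a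

theorem exists_cst_of_mem {s : c.K} (h : s ∈ c.L 0) : ∃ a : k, s = c.cst a := by
  obtain ⟨P, -⟩ := exists_inf c
  refine ⟨P.lc 0 s, sub_eq_zero.1 (eq_zero_of_deg_neg (D := 0 - Finsupp.single P 1) (by simp) ?_)⟩
  exact mem_L_sub_single.2 ⟨sub_mem h (cst_mem_L _), by simp⟩

theorem exists_cst_of_div {s : c.K} (hs : s ≠ 0) (h : c.div s = 0) :
    ∃ a : k, a ≠ 0 ∧ s = c.cst a := by
  obtain ⟨a, rfl⟩ := exists_cst_of_mem ((mem_L_iff hs).2 (by simp [h]))
  exact ⟨a, fun e => hs (by rw [e, map_zero]), rfl⟩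

theorem exists_cst_of_div_eq {s t : c.K} (hs : s ≠ 0) (ht : t ≠ 0) (h : c.div s = c.div t) :
    ∃ a : k, a ≠ 0 ∧ s = c.cst a * t := by
  obtain ⟨a, h1, h2⟩ := exists_cst_of_div (div_ne_zero hs ht) (by rw [div_div hs ht, h, sub_self])
  exact ⟨a, h1, by rw [← h2, div_mul_cancel₀ _ ht]⟩

theorem mem_L_H_sub {m : ℤ} {D : c.Div} {s : c.K} : s ∈ c.L (m • c.H - D) ↔
    (∀ P : c.Pt, ¬ P.IsInf → s ∈ P.V (D P)) ∧ ∀ P : c.Pt, P.IsInf → s ∈ P.V (D P - m) := by
  rw [mem_L']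
  constructor
  · intro h
    exact ⟨fun P hP => by simpa [H_aff hP] using h P, fun P hP => by simpa [H_inf hP] using h P⟩
  · rintro ⟨h1, h2⟩ P
    by_cases hP : P.IsInf
    · simpa [H_inf hP] using h2 P hP
    · simpa [H_aff hP] using h1 P hP

theorem mem_L_H {m : ℤ} {s : c.K} : s ∈ c.L (m • c.H) ↔
    (∀ P : c.Pt, ¬ P.IsInf → s ∈ P.V 0) ∧ ∀ P : c.Pt, P.IsInf → s ∈ P.V (-m) := by
  simpa using mem_L_H_sub (m := m) (D := 0) (s := s)

theorem pol_mem_L {u : k[X]} {d : ℕ} (h : u.natDegree ≤ d) : c.pol u ∈ c.L ((d : ℤ) • c.H) :=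
  mem_L_H.2 ⟨fun _ hP => Pt.pol_mem hP u, fun _ hP => Pt.pol_mem_inf hP h⟩

theorem y_mem_L : c.y ∈ c.L ((c.nu : ℤ) • c.H) :=
  mem_L_H.2 ⟨fun _ hP => Pt.y_mem_zero hP, fun _ hP => oy_inf hP ▸ Pt.y_mem⟩

theorem ev_mem_L_iff {G : k[X][X]} (hG : G.natDegree < c.r) {m : ℤ} :
    c.ev G ∈ c.L (m • c.H) ↔
      ∀ b, G.coeff b ≠ 0 → ((G.coeff b).natDegree : ℤ) + b * c.nu ≤ m := by
  rw [mem_L_H, and_iff_right fun P hP => Pt.ev_mem hP G, ev_mem_inf_iff hG]

theorem mem_L_H_iff {m : ℤ} {s : c.K} : s ∈ c.L (m • c.H) ↔ ∃ G : k[X][X], G.natDegree < c.r ∧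
    (∀ b, G.coeff b ≠ 0 → ((G.coeff b).natDegree : ℤ) + b * c.nu ≤ m) ∧ c.ev G = s := by
  constructor
  · intro h
    obtain ⟨G, h1, rfl⟩ := exists_ev_of_aff (mem_L_H.1 h).1
    exact ⟨G, h1, (ev_mem_L_iff h1).1 h, rfl⟩
  · rintro ⟨G, h1, h2, rfl⟩
    exact (ev_mem_L_iff h1).2 h2

omit [IsAlgClosed k] in
theorem mem_mons {R : Type} [CommRing R] {r nu m : ℕ} {G : R[X][X]} : G ∈ mons r nu m R ↔
    ∃ b < r, ∃ a, a + b * nu ≤ m ∧ monomial b (monomial a (1 : R)) = G := by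
  simp only [mons, List.mem_flatMap, List.mem_map, List.mem_range]
  exact exists_congr fun b => and_congr_right fun _ => exists_congr fun a =>
    and_congr_left fun _ => by omega

omit [IsAlgClosed k] in
theorem mem_span_mons {r nu m : ℕ} (hr : 0 < r) {G : k[X][X]} :
    G ∈ Submodule.span k {G | G ∈ mons r nu m k} ↔
      G.natDegree < r ∧ ∀ b, G.coeff b ≠ 0 → (G.coeff b).natDegree + b * nu ≤ m := by
  constructor
  · intro h
    induction h using Submodule.span_induction with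
    | mem G hG =>
      obtain ⟨b, hb, a, ha, rfl⟩ := mem_mons.1 hG
      refine ⟨(natDegree_monomial_le _).trans_lt hb, fun j hj => ?_⟩
      rw [coeff_monomial] at hj ⊢
      split_ifs at hj ⊢ with e
      · have := natDegree_monomial_le (1 : k) (m := a)
        subst e
        omega
      · exact absurd rfl hj
    | zero => exact ⟨by simpa using hr, fun b hb => absurd (coeff_zero b) hb⟩
    | add G G' _ _ h1 h2 =>
      refine ⟨(natDegree_add_le _ _).trans_lt (max_lt h1.1 h2.1), fun b hb => ?_⟩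
      rw [coeff_add] at hb ⊢
      by_cases e1 : G.coeff b = 0
      · rw [e1, zero_add] at hb ⊢
        exact h2.2 b hb
      · by_cases e2 : G'.coeff b = 0
        · rw [e2, add_zero]
          exact h1.2 b e1
        · have k1 := h1.2 b e1
          have k2 := h2.2 b e2
          have k3 := natDegree_add_le (G.coeff b) (G'.coeff b)
          omega
    | smul a G _ h1 =>
      refine ⟨(natDegree_smul_le _ _).trans_lt h1.1, fun b hb => ?_⟩
      rw [coeff_smul] at hb ⊢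
      have k1 := h1.2 b (right_ne_zero_of_smul hb)
      have k2 := natDegree_smul_le a (G.coeff b)
      omega
  · rintro ⟨h1, h2⟩
    rw [G.as_sum_range_C_mul_X_pow' h1]
    refine Submodule.sum_mem _ fun b hb => ?_
    by_cases e : G.coeff b = 0
    · simp [e]
    rw [C_mul_X_pow_eq_monomial, (G.coeff b).as_sum_range, map_sum]
    refine Submodule.sum_mem _ fun a ha => ?_
    have e1 : (monomial b (monomial a ((G.coeff b).coeff a)) : k[X][X]) =
        (G.coeff b).coeff a • monomial b (monomial a 1) := by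
      rw [smul_monomial, smul_monomial, smul_eq_mul, mul_one]
    rw [e1]
    refine Submodule.smul_mem _ _ (Submodule.subset_span (mem_mons.2 ⟨b, mem_range.1 hb, a, ?_, rfl⟩))
    have := h2 b e
    have := mem_range.1 ha
    omega

theorem ev_mem_L_of_span {m : ℕ} {G : k[X][X]}
    (h : G ∈ Submodule.span k {G | G ∈ mons c.r c.nu m k}) : c.ev G ∈ c.L ((m : ℤ) • c.H) := by
  obtain ⟨h1, h2⟩ := (mem_span_mons c.r_pos).1 h
  exact (ev_mem_L_iff h1).2 fun b hb => by exact_mod_cast h2 b hb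

/-- `L(m H)` is spanned by the monomials -/
theorem mem_L_H_iff_span {m : ℕ} {s : c.K} : s ∈ c.L ((m : ℤ) • c.H) ↔
    ∃ G ∈ Submodule.span k {G | G ∈ mons c.r c.nu m k}, c.ev G = s := by
  constructor
  · intro h
    obtain ⟨G, h1, h2, h3⟩ := mem_L_H_iff.1 h
    exact ⟨G, (mem_span_mons c.r_pos).2 ⟨h1, fun b hb => by exact_mod_cast h2 b hb⟩, h3⟩
  · rintro ⟨G, h, rfl⟩
    exact ev_mem_L_of_span h

theorem L_H_eq_map (m : ℕ) : c.L ((m : ℤ) • c.H) =
    (Submodule.span k {G | G ∈ mons c.r c.nu m k}).map c.evL := by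
  ext s
  rw [mem_L_H_iff_span, Submodule.mem_map]
  rfl

end Cv

end Vale.Agent.P319
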