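import Vale.Agent.P319.Cv.Approx
import Vale.Agent.P319.Cv.Divs
import Mathlib.LinearAlgebra.FiniteDimensional.Lemmas
import Mathlib.RingTheory.AdjoinRoot
import Mathlib.Algebra.Polynomial.Basis
import Mathlib.Data.Int.LeastGreatest

/-!
P319: reduced bases at a ramified point and base point freeness.
-/

open Polynomial

namespace Vale.Agent.P319

namespace Cv

variable {k : Type} [Field k] [IsAlgClosed k] {C : Cv k}

namespace RB

theorem div_apply' {s : C.K} (hs : s ≠ 0) (P : C.Pt) : C.div s P = P.ord s := div_apply s P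

theorem deg_div' {s : C.K} (hs : s ≠ 0) : C.deg (C.div s) = 0 := deg_div s

open Classical in
theorem H_apply' (P : C.Pt) : C.H P = if P.IsInf then 1 else 0 := H_apply P

theorem iota_ne (P : C.Pt) {s : C.K} (hs : s ≠ 0) : P.iota s ≠ 0 :=
  (map_ne_zero_iff _ P.iota.injective).2 hs

theorem mem_V {P : C.Pt} {m : ℤ} {s : C.K} (hs : s ≠ 0) : s ∈ P.V m ↔ m ≤ P.ord s :=
  ge_iff_order (iota_ne P hs)

theorem V_mono {P : C.Pt} {m m' : ℤ} {s : C.K} (h : s ∈ P.V m) (hm : m' ≤ m) : s ∈ P.V m' :=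
  Ge.mono h hm

theorem V_mul {P : C.Pt} {m m' : ℤ} {s t : C.K} (hs : s ∈ P.V m) (ht : t ∈ P.V m') :
    s * t ∈ P.V (m + m') := by
  change Ge _ (P.iota (s * t))
  rw [map_mul]
  exact Ge.mul hs ht

theorem lc_mul {P : C.Pt} {m m' : ℤ} {s t : C.K} (hs : s ∈ P.V m) (ht : t ∈ P.V m') :
    P.lc (m + m') (s * t) = P.lc m s * P.lc m' t := by
  change (P.iota (s * t)).coeff _ = _
  rw [map_mul]
  exact Ge.coeff_mul hs ht

theorem V_succ {P : C.Pt} {m : ℤ} {s : C.K} : s ∈ P.V (m + 1) ↔ s ∈ P.V m ∧ P.lc m s = 0 :=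
  ge_succ_iff

theorem ord_eq {P : C.Pt} {m : ℤ} {s : C.K} (h : s ∈ P.V m) (h0 : P.lc m s ≠ 0) : P.ord s = m :=
  order_eq_of_ge h h0

theorem lc_ord_ne (P : C.Pt) {s : C.K} (hs : s ≠ 0) : P.lc (P.ord s) s ≠ 0 :=
  fun h => iota_ne P hs (HahnSeries.coeff_order_eq_zero.1 h)

theorem ord_mul (P : C.Pt) {s t : C.K} (hs : s ≠ 0) (ht : t ≠ 0) :
    P.ord (s * t) = P.ord s + P.ord t :=
  ord_eq (V_mul ((mem_V hs).2 le_rfl) ((mem_V ht).2 le_rfl)) (by
    rw [lc_mul ((mem_V hs).2 le_rfl) ((mem_V ht).2 le_rfl)]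
    exact mul_ne_zero (lc_ord_ne P hs) (lc_ord_ne P ht))

theorem ord_one (P : C.Pt) : P.ord (1 : C.K) = 0 := by
  have := ord_mul P (one_ne_zero (α := C.K)) one_ne_zero
  rw [mul_one] at this
  omega

theorem ord_inv (P : C.Pt) {s : C.K} (hs : s ≠ 0) : P.ord s⁻¹ = -P.ord s := by
  have := ord_mul P hs (inv_ne_zero hs)
  rw [mul_inv_cancel₀ hs, ord_one] at this
  omega

theorem ord_pow (P : C.Pt) {s : C.K} (hs : s ≠ 0) (d : ℕ) : P.ord (s ^ d) = d * P.ord s := by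
  induction d with
  | zero => simp [ord_one]
  | succ d ih => rw [pow_succ, ord_mul P (pow_ne_zero _ hs) hs, ih]; push_cast; ring

theorem ord_pol_aff (x0 y0 : k) (h) {u : k[X]} (hu : u ≠ 0) :
    (Pt.aff x0 y0 h : C.Pt).ord (C.pol u) =
      (u.rootMultiplicity x0 : ℤ) * (Pt.aff x0 y0 h : C.Pt).e := by
  obtain ⟨h1, h2, h3⟩ := eval₂_aff x0 (Pt.aff x0 y0 h : C.Pt).e_pos hu
  rw [Pt.ord, Pt.iota_pol]
  exact order_eq_of_ge h1 (h2 ▸ h3)

theorem ord_pol_inf (w : k) (h) {u : k[X]} (hu : u ≠ 0) :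
    (Pt.inf w h : C.Pt).ord (C.pol u) = -(u.natDegree : ℤ) := by
  obtain ⟨h1, h2⟩ := eval₂_inf u
  rw [Pt.ord, Pt.iota_pol]
  exact order_eq_of_ge h1 (h2 ▸ leadingCoeff_ne_zero.2 hu)

theorem ord_y (P : C.Pt) : P.ord C.y = P.oy := by
  obtain ⟨-, h1, h2, -⟩ := P.exists_ys.choose_spec
  rw [Pt.ord, Pt.iota_y]
  exact order_eq_of_ge h1 h2

theorem Moff_mul {P : C.Pt} {X : C.Div} {s t : C.K} (hs : s ∈ C.Moff P 0) (ht : t ∈ C.Moff P X) :
    s * t ∈ C.Moff P X := by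
  rw [mem_Moff] at hs ht ⊢
  intro P' h
  have := V_mul (hs P' h) (ht P' h)
  rwa [Finsupp.zero_apply, zero_add] at this

theorem one_mem_Moff (P : C.Pt) : (1 : C.K) ∈ C.Moff P 0 := by
  rw [mem_Moff]
  intro P' _
  rw [mem_V one_ne_zero, ord_one]
  exact le_rfl

theorem Moff_pow {P : C.Pt} {s : C.K} (hs : s ∈ C.Moff P 0) (d : ℕ) : s ^ d ∈ C.Moff P 0 := by
  induction d with
  | zero => rw [pow_zero]; exact one_mem_Moff P
  | succ d ih => rw [pow_succ]; exact Moff_mul ih hs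

theorem dvd_ord_rat {P : C.Pt} (hP : P.IsRam) {q : RatFunc k} (hq : q ≠ 0) :
    (C.r : ℤ) ∣ P.ord (C.rat q) := by
  have key : ∀ u : k[X], u ≠ 0 → (C.r : ℤ) ∣ P.ord (C.pol u) := by
    intro u hu
    cases P with
    | aff x0 y0 h =>
      rw [ord_pol_aff x0 y0 h hu, Pt.e, if_pos hP]
      exact Dvd.intro_left _ rfl
    | inf w h => exact hP.elim
  have hn := RatFunc.num_ne_zero hq
  have hd := q.denom_ne_zero
  rw [← q.num_div_denom, map_div₀, rat_pol, rat_pol, div_eq_mul_inv,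
    ord_mul P (C.pol_ne hn) (inv_ne_zero (C.pol_ne hd)), ord_inv P (C.pol_ne hd)]
  exact (key _ hn).add (key _ hd).neg_right

/-- the functions `1 / (x - a)` and `y / (x - a) ^ ν` -/
theorem exists_xi {P : C.Pt} (hP : P.IsRam) : ∃ (xi : RatFunc k) (ya : C.K),
    C.rat xi ≠ 0 ∧ C.rat xi ∈ C.Moff P 0 ∧ P.ord (C.rat xi) = -(C.r : ℤ) ∧
    ya ≠ 0 ∧ ya ∈ C.Moff P 0 ∧ P.ord ya = 1 - (C.n : ℤ) := by
  cases P with
  | inf w h => exact hP.elim
  | aff a y0 h =>
  have hy : y0 = 0 := hP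
  have hu : (X - Polynomial.C a : k[X]) ≠ 0 := X_sub_C_ne_zero a
  have hx : C.rat (algebraMap k[X] (RatFunc k) (X - Polynomial.C a))⁻¹ =
      (C.pol (X - Polynomial.C a))⁻¹ := by rw [map_inv₀, rat_pol]
  have h0 : (C.pol (X - Polynomial.C a))⁻¹ ≠ 0 := inv_ne_zero (C.pol_ne hu)
  have hP0 : (Pt.aff a y0 h : C.Pt).ord (C.pol (X - Polynomial.C a))⁻¹ = -(C.r : ℤ) := by
    rw [ord_inv _ (C.pol_ne hu), ord_pol_aff a y0 h hu, rootMultiplicity_X_sub_C_self, Pt.e,
      if_pos hP]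
    simp
  have haff : ∀ x1 y1 h1, (Pt.aff x1 y1 h1 : C.Pt) ≠ Pt.aff a y0 h →
      (Pt.aff x1 y1 h1 : C.Pt).ord (C.pol (X - Polynomial.C a))⁻¹ = 0 := by
    intro x1 y1 h1 hne
    have hxa : x1 ≠ a := by
      rintro rfl
      apply hne
      have : y1 = y0 := by
        rw [← h, hy, zero_pow C.hr.ne_zero] at h1
        rw [hy, pow_eq_zero_iff C.hr.ne_zero |>.1 h1]
      subst this
      rfl
    rw [ord_inv _ (C.pol_ne hu), ord_pol_aff x1 y1 h1 hu, rootMultiplicity_eq_zero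
      (by simpa [sub_eq_zero] using hxa)]
    simp
  have hinf : ∀ w h1, (Pt.inf w h1 : C.Pt).ord (C.pol (X - Polynomial.C a))⁻¹ = 1 := by
    intro w h1
    rw [ord_inv _ (C.pol_ne hu), ord_pol_inf w h1 hu, natDegree_X_sub_C]
    simp
  have hya : C.y * (C.pol (X - Polynomial.C a))⁻¹ ^ C.nu ≠ 0 :=
    mul_ne_zero C.y_ne (pow_ne_zero _ h0)
  refine ⟨_, C.y * (C.pol (X - Polynomial.C a))⁻¹ ^ C.nu, hx ▸ h0, ?_, hx ▸ hP0, hya, ?_, ?_⟩
  · rw [hx, mem_Moff]
    intro P' hne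
    rw [mem_V h0, Finsupp.zero_apply]
    cases P' with
    | aff x1 y1 h1 => rw [haff x1 y1 h1 hne]
    | inf w h1 => rw [hinf w h1]; norm_num
  · rw [mem_Moff]
    intro P' hne
    rw [mem_V hya, Finsupp.zero_apply, ord_mul _ C.y_ne (pow_ne_zero _ h0), ord_pow _ h0, ord_y]
    cases P' with
    | aff x1 y1 h1 =>
      rw [haff x1 y1 h1 hne, Pt.oy]
      split_ifs <;> simp
    | inf w h1 =>
      rw [hinf w h1, Pt.oy]
      simp
  · rw [ord_mul _ C.y_ne (pow_ne_zero _ h0), ord_pow _ h0, ord_y, hP0, Pt.oy, if_pos hy, n]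
    push_cast
    ring

omit [IsAlgClosed k] in
theorem deg_nonneg {D : C.Div} (hD : 0 ≤ D) : 0 ≤ C.deg D :=
  Finset.sum_nonneg fun P _ => hD P

omit [IsAlgClosed k] in
theorem deg_single (P : C.Pt) (m : ℤ) : C.deg (Finsupp.single P m) = m :=
  Finsupp.degree_single _ _

theorem exists_bound (P : C.Pt) (X : C.Div) :
    ∃ Bd : ℤ, ∀ s ∈ C.Moff P X, s ≠ 0 → P.ord s ≤ Bd := by
  refine ⟨X P - C.deg X, fun s hs h0 => ?_⟩
  have h1 : 0 ≤ C.div s - X - Finsupp.single P (P.ord s - X P) := by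
    intro P'
    rw [Finsupp.zero_apply, Finsupp.sub_apply, Finsupp.sub_apply, div_apply' h0]
    by_cases h : P' = P
    · subst h
      simp
    · rw [Finsupp.single_eq_of_ne h]
      have := (mem_V h0).1 ((mem_Moff C).1 hs P' h)
      omega
  have h2 := deg_nonneg h1
  rw [map_sub, map_sub, deg_div' h0, deg_single] at h2
  omega

theorem exists_inf (C : Cv k) : ∃ P : C.Pt, P.IsInf := by
  obtain ⟨w, hw⟩ := IsAlgClosed.exists_pow_nat_eq C.F.leadingCoeff C.r_pos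
  exact ⟨.inf w hw, trivial⟩

theorem exists_ram (C : Cv k) : ∃ P : C.Pt, P.IsRam := by
  obtain ⟨a, ha⟩ := IsAlgClosed.exists_root C.F (by
    rw [degree_eq_natDegree C.F_ne, C.hdeg]
    exact_mod_cast C.n_pos.ne')
  exact ⟨ram a ha, rfl⟩

omit [IsAlgClosed k] in
theorem ne_of_inf {P P' : C.Pt} (hP : P.IsRam) (hP' : P'.IsInf) : P' ≠ P := by
  rintro rfl
  cases P' with
  | aff x0 y0 h => exact hP'
  | inf w h => exact hP

/-- terms whose orders lie in different classes do not cancel -/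
theorem mem_V_of_sum {P : C.Pt} {T : Fin C.r → C.K}
    (hT : ∀ c, T c ≠ 0 → P.ord (T c) % (C.r : ℤ) = (c : ℕ)) {m : ℤ} (h : ∑ c, T c ∈ P.V m)
    (c : Fin C.r) : T c ∈ P.V m := by
  classical
  by_contra hc
  have hc0 : T c ≠ 0 := fun e => hc (e ▸ Submodule.zero_mem _)
  obtain ⟨c0, h0, hmin⟩ := Finset.exists_min_image (Finset.univ.filter fun c => T c ≠ 0)
    (fun c => P.ord (T c)) ⟨c, by simpa using hc0⟩
  have h0' : T c0 ≠ 0 := (Finset.mem_filter.1 h0).2
  have h1 : P.ord (T c0) < m :=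
    (hmin c (by simpa using hc0)).trans_lt (not_le.1 fun e => hc ((mem_V hc0).2 e))
  have h2 : ∑ c ∈ Finset.univ.erase c0, T c ∈ P.V (P.ord (T c0) + 1) := by
    refine Submodule.sum_mem _ fun c' hc' => ?_
    by_cases e : T c' = 0
    · rw [e]; exact Submodule.zero_mem _
    · rw [mem_V e]
      have h3 := hmin c' (by simpa using e)
      have h4 : P.ord (T c0) ≠ P.ord (T c') := fun e' => by
        have h5 := hT c0 h0'
        rw [e', hT c' e] at h5
        exact Finset.ne_of_mem_erase hc' (Fin.ext (by exact_mod_cast h5))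
      omega
  have h3 : T c0 ∈ P.V (P.ord (T c0) + 1) := by
    have h4 := Submodule.sub_mem _ (V_mono h (show P.ord (T c0) + 1 ≤ m by omega)) h2
    rwa [← Finset.add_sum_erase _ _ (Finset.mem_univ c0), add_sub_cancel_right] at h4
  have := (mem_V h0').1 h3
  omega

omit [IsAlgClosed k] in
theorem finrank_K (C : Cv k) : Module.finrank (RatFunc k) C.K = C.r := by
  rw [(AdjoinRoot.powerBasis C.eqn_irred.ne_zero).finrank, AdjoinRoot.powerBasis_dim, eqn,
    natDegree_X_pow_sub_C]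

omit [IsAlgClosed k] in
theorem class_lt (m : ℤ) : (m % (C.r : ℤ)).toNat < C.r := by
  have h1 : (0 : ℤ) < C.r := by exact_mod_cast C.r_pos
  have := Int.emod_lt_of_pos m h1
  have := Int.emod_nonneg m h1.ne'
  omega

omit [IsAlgClosed k] in
theorem class_eq (m : ℤ) : m % (C.r : ℤ) = ((m % (C.r : ℤ)).toNat : ℕ) := by
  have h1 : (0 : ℤ) < C.r := by exact_mod_cast C.r_pos
  exact (Int.toNat_of_nonneg (Int.emod_nonneg m h1.ne')).symm

omit [IsAlgClosed k] in
theorem shift_class (m : ℤ) (c : Fin C.r) : ∃ d : ℕ, d < C.r ∧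
    (m + d * (1 - (C.n : ℤ))) % (C.r : ℤ) = (c : ℕ) := by
  refine ⟨(((c : ℕ) - m) % (C.r : ℤ)).toNat, class_lt _, ?_⟩
  rw [← class_eq]
  have h1 : ((c : ℕ) : ℤ) = ((c : ℕ) : ℤ) % (C.r : ℤ) :=
    (Int.emod_eq_of_lt (Int.natCast_nonneg _) (by exact_mod_cast c.2)).symm
  rw [h1, ← h1, Int.emod_def ((c : ℕ) - m), n]
  push_cast
  rw [show m + (((c : ℕ) : ℤ) - m - C.r * ((((c : ℕ) : ℤ) - m) / C.r)) * (1 - (C.r : ℤ) * C.nu) =
    ((c : ℕ) : ℤ) + C.r * (-((((c : ℕ) : ℤ) - m) / C.r) -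
      (((c : ℕ) : ℤ) - m - C.r * ((((c : ℕ) : ℤ) - m) / C.r)) * C.nu) by ring,
    Int.add_mul_emod_self_left, ← h1]

end RB

open RB

/-- reduced basis, with its coordinate functionals -/
theorem exists_RB {P : C.Pt} (hP : P.IsRam) (X : C.Div) :
    ∃ (b : Fin C.r → C.K) (co : Fin C.r → (C.K →ₗ[RatFunc k] RatFunc k)),
      (∀ c, b c ∈ C.Moff P X) ∧ (∀ c, b c ≠ 0) ∧
      (∀ c, P.ord (b c) % (C.r : ℤ) = (c : ℕ)) ∧
      (∀ s ∈ C.Moff P X, s ≠ 0 → ∀ c : Fin C.r, P.ord s % (C.r : ℤ) = (c : ℕ) →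
        P.ord s ≤ P.ord (b c)) ∧
      (∀ c c', P.ord (b c') ≤ P.ord (b c) + ((C.r - 1) * (C.n - 1) : ℕ)) ∧
      (∀ s, s = ∑ c, C.rat (co c s) * b c) ∧
      (∀ c c', co c (b c') = if c = c' then 1 else 0) ∧
      (∀ s ∈ C.Moff P X, ∀ c, C.rat (co c s) ∈ C.Moff P 0) ∧
      ∀ (m : ℤ) (s : C.K), s ∈ P.V m → ∀ c, C.rat (co c s) * b c ∈ P.V m := by
  classical
  obtain ⟨xi, ya, hx0, hxM, hxo, hy0, hyM, hyo⟩ := exists_xi hP
  obtain ⟨Bd, hBd⟩ := exists_bound P X
  obtain ⟨Pi, hPi⟩ := exists_inf C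
  obtain ⟨s0, hs0, hs0'⟩ := approx hP X (ne_of_inf hP hPi)
  have hs00 : s0 ≠ 0 := by rintro rfl; exact hs0' (map_zero _)
  have hshift : ∀ s ∈ C.Moff P X, s ≠ 0 → ∀ c : Fin C.r, ∃ d : ℕ, d < C.r ∧
      ya ^ d * s ∈ C.Moff P X ∧ ya ^ d * s ≠ 0 ∧
      P.ord (ya ^ d * s) = P.ord s + d * (1 - (C.n : ℤ)) ∧
      P.ord (ya ^ d * s) % (C.r : ℤ) = (c : ℕ) := by
    intro s hs h0 c
    obtain ⟨d, hd, hd'⟩ := shift_class (P.ord s) c
    have h1 : P.ord (ya ^ d * s) = P.ord s + d * (1 - (C.n : ℤ)) := by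
      rw [ord_mul P (pow_ne_zero _ hy0) h0, ord_pow P hy0, hyo, add_comm]
    exact ⟨d, hd, Moff_mul (Moff_pow hyM d) hs, mul_ne_zero (pow_ne_zero _ hy0) h0, h1, h1 ▸ hd'⟩
  have hb : ∀ c : Fin C.r, ∃ b ∈ C.Moff P X, b ≠ 0 ∧ P.ord b % (C.r : ℤ) = (c : ℕ) ∧
      ∀ s ∈ C.Moff P X, s ≠ 0 → P.ord s % (C.r : ℤ) = (c : ℕ) → P.ord s ≤ P.ord b := by
    intro c
    obtain ⟨m, ⟨b, h1, h2, h3, rfl⟩, h4⟩ := Int.exists_greatest_of_bdd
      (P := fun m => ∃ s ∈ C.Moff P X, s ≠ 0 ∧ P.ord s % (C.r : ℤ) = (c : ℕ) ∧ P.ord s = m)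
      ⟨Bd, fun m ⟨s, h1, h2, _, h4⟩ => h4 ▸ hBd s h1 h2⟩ (by
        obtain ⟨d, -, h1, h2, -, h4⟩ := hshift s0 hs0 hs00 c
        exact ⟨_, _, h1, h2, h4, rfl⟩)
    exact ⟨b, h1, h2, h3, fun s k1 k2 k3 => h4 _ ⟨s, k1, k2, k3, rfl⟩⟩
  choose b hbM hb0 hbc hbmax using hb
  have hT : ∀ (q : Fin C.r → RatFunc k) (c : Fin C.r), C.rat (q c) * b c ≠ 0 →
      P.ord (C.rat (q c) * b c) % (C.r : ℤ) = (c : ℕ) := by
    intro q c h
    have h1 : C.rat (q c) ≠ 0 := left_ne_zero_of_mul h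
    obtain ⟨t, ht⟩ := dvd_ord_rat hP ((map_ne_zero_iff _ C.rat.injective).1 h1)
    rw [ord_mul P h1 (hb0 c), ht, add_comm, Int.add_mul_emod_self_left, hbc]
  have hli : LinearIndependent (RatFunc k) b := by
    rw [Fintype.linearIndependent_iff]
    intro q hq c
    by_contra hc
    have h1 : C.rat (q c) * b c ≠ 0 :=
      mul_ne_zero ((map_ne_zero_iff _ C.rat.injective).2 hc) (hb0 c)
    have h2 := mem_V_of_sum (hT q) (m := P.ord (C.rat (q c) * b c) + 1) (by
      simp only [← Algebra.smul_def]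
      rw [hq]
      exact Submodule.zero_mem _) c
    have := (mem_V h1).1 h2
    omega
  have : Nonempty (Fin C.r) := ⟨⟨0, C.r_pos⟩⟩
  let B := basisOfLinearIndependentOfCardEqFinrank hli (by rw [finrank_K, Fintype.card_fin])
  have hB : ∀ c, B c = b c := fun c =>
    congrFun (coe_basisOfLinearIndependentOfCardEqFinrank hli _) c
  have hsum : ∀ s, s = ∑ c, C.rat (B.coord c s) * b c := by
    intro s
    conv_lhs => rw [← B.sum_repr s]
    exact Finset.sum_congr rfl fun c _ => by rw [hB, Algebra.smul_def]; rfl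
  have hco : ∀ c c', B.coord c (b c') = if c = c' then 1 else 0 := by
    intro c c'
    rw [← hB, Module.Basis.coord_apply, B.repr_self, Finsupp.single_apply]
    simp only [eq_comm]
  have hspan : ∀ j : ℕ, ∀ s ∈ C.Moff P X, s ∈ P.V (Bd + 1 - j) →
      ∀ c, C.rat (B.coord c s) ∈ C.Moff P 0 := by
    intro j
    induction j with
    | zero =>
      intro s hs h c
      have h0 : s = 0 := by
        by_contra h0
        have := (mem_V h0).1 h
        have := hBd s hs h0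
        omega
      rw [h0, map_zero, map_zero]
      exact Submodule.zero_mem _
    | succ j ih =>
      intro s hs h c
      by_cases h1 : s ∈ P.V (Bd + 1 - j)
      · exact ih s hs h1 c
      have h0 : s ≠ 0 := fun e => h1 (e ▸ Submodule.zero_mem _)
      have ho : P.ord s = Bd - j := by
        have := (mem_V h0).1 h
        have := not_le.1 fun e => h1 ((mem_V h0).2 e)
        omega
      let c1 : Fin C.r := ⟨_, class_lt (P.ord s)⟩
      have hc1 : P.ord s % (C.r : ℤ) = (c1 : ℕ) := class_eq _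
      have hle := hbmax c1 s hs h0 hc1
      obtain ⟨t, ht⟩ : (C.r : ℤ) ∣ P.ord (b c1) - P.ord s :=
        Int.dvd_of_emod_eq_zero (Int.emod_eq_emod_iff_emod_sub_eq_zero.1 ((hbc c1).trans hc1.symm))
      have hr : (0 : ℤ) < C.r := by exact_mod_cast C.r_pos
      have ht0 : 0 ≤ t := nonneg_of_mul_nonneg_right (ht ▸ sub_nonneg.2 hle) hr |> fun h => h
      obtain ⟨d, rfl⟩ := Int.eq_ofNat_of_zero_le ht0
      have hw0 : C.rat xi ^ d * b c1 ≠ 0 := mul_ne_zero (pow_ne_zero _ hx0) (hb0 c1)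
      have hwo : P.ord (C.rat xi ^ d * b c1) = P.ord s := by
        rw [ord_mul P (pow_ne_zero _ hx0) (hb0 c1), ord_pow P hx0, hxo]
        linarith
      have hwl := lc_ord_ne P hw0
      rw [hwo] at hwl
      set κ := P.lc (P.ord s) s / P.lc (P.ord s) (C.rat xi ^ d * b c1) with hκ
      have h2 : s - κ • (C.rat xi ^ d * b c1) ∈ P.V (Bd + 1 - j) := by
        rw [show Bd + 1 - j = P.ord s + 1 by omega, V_succ]
        refine ⟨Submodule.sub_mem _ ((mem_V h0).2 le_rfl)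
          (Submodule.smul_mem _ _ ((mem_V hw0).2 hwo.ge)), ?_⟩
        rw [map_sub, map_smul, hκ, smul_eq_mul, div_mul_cancel₀ _ hwl, sub_self]
      have h3 := ih _ (Submodule.sub_mem _ hs
        (Submodule.smul_mem _ κ (Moff_mul (Moff_pow hxM d) (hbM c1)))) h2 c
      have h4 : κ • (C.rat xi ^ d * b c1) = (κ • xi ^ d) • b c1 := by
        rw [smul_assoc, Algebra.smul_def (xi ^ d), map_pow]
      rw [h4, map_sub, map_smul, hco, map_sub] at h3
      have h5 : C.rat ((κ • xi ^ d) • if c = c1 then (1 : RatFunc k) else 0) ∈ C.Moff P 0 := by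
        split_ifs
        · rw [smul_eq_mul, mul_one, Algebra.smul_def, map_mul, map_pow,
            ← IsScalarTower.algebraMap_apply, ← Algebra.smul_def]
          exact Submodule.smul_mem _ _ (Moff_pow hxM d)
        · rw [smul_zero, map_zero]
          exact Submodule.zero_mem _
      have := Submodule.add_mem _ h3 h5
      rwa [sub_add_cancel] at this
  refine ⟨b, B.coord, hbM, hb0, hbc, fun s h1 h2 c h3 => hbmax c s h1 h2 h3, fun c c' => ?_,
    hsum, hco, fun s hs c => ?_, fun m s hs c => ?_⟩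
  · obtain ⟨d, hd, h1, h2, h3, h4⟩ := hshift (b c') (hbM c') (hb0 c') c
    have h5 := hbmax c _ h1 h2 h4
    have h6 : (d : ℤ) * ((C.n : ℤ) - 1) ≤ ((C.r - 1) * (C.n - 1) : ℕ) := by
      rw [← Nat.cast_pred C.n_pos]
      exact_mod_cast Nat.mul_le_mul_right _ (Nat.le_sub_one_of_lt hd)
    linarith
  · by_cases h0 : s = 0
    · rw [h0, map_zero, map_zero]
      exact Submodule.zero_mem _
    · refine hspan (Bd + 1 - P.ord s).toNat s hs ((mem_V h0).2 ?_) c
      omega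
  · exact mem_V_of_sum (hT fun c => B.coord c s) (hsum s ▸ hs) c

namespace RB

/-- every unit of an effective divisor is one linear condition -/
theorem exists_mem_L_sub : ∀ (d : ℕ) (D E : C.Div) (W : Submodule k C.K) [FiniteDimensional k W],
    0 ≤ D → C.deg D = d → W ≤ C.L E → d < Module.finrank k W →
      ∃ s ∈ C.L (E - D), s ≠ 0 := by
  intro d
  induction d with
  | zero =>
    intro D E W _ hD hd hW hlt
    have h0 : D = 0 := by
      ext Q
      by_contra hQ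
      have h1 : 0 ≤ D - Finsupp.single Q 1 := by
        intro Q'
        rw [Finsupp.zero_apply, Finsupp.sub_apply]
        have := hD Q'
        rw [Finsupp.zero_apply] at this hQ
        by_cases e : Q' = Q
        · subst e
          rw [Finsupp.single_eq_same]
          omega
        · rw [Finsupp.single_eq_of_ne e]
          omega
      have := deg_nonneg h1
      rw [map_sub, hd, deg_single] at this
      omega
    obtain ⟨s, hs, hs0⟩ := Submodule.exists_mem_ne_zero_of_ne_bot (p := W) (by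
      rintro rfl
      simp at hlt)
    exact ⟨s, by rw [h0, sub_zero]; exact hW hs, hs0⟩
  | succ d ih =>
    intro D E W _ hD hd hW hlt
    obtain ⟨Q, hQ⟩ : ∃ Q, D Q ≠ 0 := by
      by_contra hc
      push Not at hc
      rw [show D = 0 from Finsupp.ext hc, map_zero] at hd
      omega
    have h1 : 0 ≤ D - Finsupp.single Q 1 := by
      intro Q'
      rw [Finsupp.zero_apply, Finsupp.sub_apply]
      have := hD Q'
      rw [Finsupp.zero_apply] at this
      by_cases e : Q' = Q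
      · subst e
        rw [Finsupp.single_eq_same]
        omega
      · rw [Finsupp.single_eq_of_ne e]
        omega
    let φ : W →ₗ[k] k := (Q.lc (-E Q)).domRestrict W
    have h2 := φ.finrank_range_add_finrank_ker
    have h3 : Module.finrank k (LinearMap.range φ) ≤ 1 :=
      (Submodule.finrank_le _).trans (Module.finrank_self k).le
    obtain ⟨s, hs, hs0⟩ := ih (D - Finsupp.single Q 1) (E - Finsupp.single Q 1)
      ((LinearMap.ker φ).map W.subtype) h1 (by rw [map_sub, hd, deg_single]; omega) (by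
        rintro _ ⟨w, hw, rfl⟩
        have h4 := (mem_L C).1 (hW w.2)
        rw [mem_L]
        intro Q'
        rw [Finsupp.sub_apply]
        by_cases e : Q' = Q
        · subst e
          rw [Finsupp.single_eq_same, show -(E Q' - 1) = -E Q' + 1 by ring, V_succ]
          exact ⟨h4 Q', hw⟩
        · rw [Finsupp.single_eq_of_ne e, sub_zero]
          exact h4 Q') (by rw [Submodule.finrank_map_subtype_eq]; omega)
    exact ⟨s, by rwa [sub_sub_sub_cancel_right] at hs, hs0⟩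

theorem exists_space (C : Cv k) (N m : ℕ) (h : N + (C.r - 1) * C.nu ≤ m + 1) :
    ∃ W : Submodule k C.K, FiniteDimensional k W ∧ W ≤ C.L ((m : ℤ) • C.H) ∧
      Module.finrank k W = N * C.r := by
  classical
  have h1 : LinearIndependent k fun a : Fin N => algebraMap k[X] (RatFunc k) (X ^ (a : ℕ)) := by
    have h2 : LinearIndependent k fun a : ℕ => (X ^ a : k[X]) := by
      have := (basisMonomials k).linearIndependent
      simpa only [coe_basisMonomials, monomial_one_right_eq_X_pow] using this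
    exact (h2.comp (fun a : Fin N => (a : ℕ)) Fin.val_injective).map'
      (IsScalarTower.toAlgHom k k[X] (RatFunc k)).toLinearMap
      (LinearMap.ker_eq_bot.2 (IsFractionRing.injective k[X] (RatFunc k)))
  have hdim : (AdjoinRoot.powerBasis C.eqn_irred.ne_zero).dim = C.r := by
    rw [AdjoinRoot.powerBasis_dim, eqn, natDegree_X_pow_sub_C]
  have h2 : LinearIndependent (RatFunc k) fun b : Fin C.r => C.y ^ (b : ℕ) := by
    have := (AdjoinRoot.powerBasis C.eqn_irred.ne_zero).basis.linearIndependent.comp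
      (Fin.cast hdim.symm) (Fin.cast_injective _)
    simp only [PowerBasis.coe_basis, Function.comp_def, Fin.val_cast] at this
    exact this
  have h3 := linearIndependent_smul h1 h2
  refine ⟨Submodule.span k (Set.range _), FiniteDimensional.span_of_finite k (Set.finite_range _),
    Submodule.span_le.2 ?_, by rw [finrank_span_eq_card h3]; simp⟩
  rintro _ ⟨⟨a, b⟩, rfl⟩
  have hx : C.pol (X ^ (a : ℕ)) ≠ 0 := C.pol_ne (pow_ne_zero _ X_ne_zero)
  have hy : C.y ^ (b : ℕ) ≠ 0 := pow_ne_zero _ C.y_ne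
  change algebraMap k[X] (RatFunc k) (X ^ (a : ℕ)) • C.y ^ (b : ℕ) ∈ C.L _
  rw [Algebra.smul_def, rat_pol, mem_L]
  intro Q
  rw [mem_V (mul_ne_zero hx hy), ord_mul Q hx hy, ord_pow Q C.y_ne, ord_y, Finsupp.smul_apply,
    H_apply']
  cases Q with
  | aff x0 y0 e =>
    rw [ord_pol_aff x0 y0 e (pow_ne_zero _ X_ne_zero), if_neg (show ¬ (Pt.aff x0 y0 e : C.Pt).IsInf from id),
      Pt.oy]
    split_ifs <;> simp <;> positivity
  | inf w e =>
    rw [ord_pol_inf w e (pow_ne_zero _ X_ne_zero), if_pos (show (Pt.inf w e : C.Pt).IsInf from trivial),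
      Pt.oy, natDegree_X_pow]
    have h4 : (b : ℕ) * C.nu ≤ (C.r - 1) * C.nu :=
      Nat.mul_le_mul_right _ (Nat.le_sub_one_of_lt b.2)
    have h5 : (a : ℕ) + (b : ℕ) * C.nu ≤ m := by have := a.2; omega
    have h6 : ((a : ℕ) : ℤ) + (b : ℕ) * C.nu ≤ m := by exact_mod_cast h5
    simp only [smul_eq_mul]
    linarith

end RB

theorem bpf {D : C.Div} (hD : 0 ≤ D) {m : ℕ} (h : C.deg D + (C.r * (2 * C.n) : ℕ) ≤ (C.r * m : ℕ))
    (P : C.Pt) :
    ∃ s ∈ C.L ((m : ℤ) • C.H - D), P.lc (-(((m : ℤ) • C.H - D) P)) s ≠ 0 := by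
  classical
  obtain ⟨R, hR⟩ := exists_ram C
  obtain ⟨d, hd⟩ := Int.eq_ofNat_of_zero_le (deg_nonneg hD)
  rw [hd] at h
  have h' : d + C.r * (2 * C.n) ≤ C.r * m := by exact_mod_cast h
  obtain ⟨r1, hr1⟩ : ∃ r1, C.r = r1 + 1 := ⟨C.r - 1, by have := C.r_pos; omega⟩
  obtain ⟨n1, hn1⟩ : ∃ n1, C.n = n1 + 1 := ⟨C.n - 1, by have := C.n_pos; omega⟩
  have hn : C.n = C.r * C.nu := rfl
  have hm : 2 * C.n ≤ m := Nat.le_of_mul_le_mul_left (by omega) C.r_pos
  have hm' : r1 * C.nu ≤ m := by rw [hn, hr1] at hm; nlinarith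
  obtain ⟨N, hN⟩ : ∃ N, N + r1 * C.nu = m + 1 := ⟨m + 1 - r1 * C.nu, by omega⟩
  obtain ⟨W, hW, hWL, hWd⟩ := exists_space C N m (by rw [hr1, Nat.add_sub_cancel]; omega)
  obtain ⟨s0, hs0, hs00⟩ := exists_mem_L_sub (d + r1 * n1)
    (D + Finsupp.single R ((r1 * n1 : ℕ) : ℤ)) _ W
    (add_nonneg hD (Finsupp.single_nonneg.2 (Int.natCast_nonneg _)))
    (by rw [map_add, hd, deg_single]; push_cast; ring) hWL (by
      rw [hWd]
      have h1 : N * C.r + r1 * C.n = C.r * m + C.r := by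
        rw [hn]
        calc N * C.r + r1 * (C.r * C.nu) = (N + r1 * C.nu) * C.r := by ring
          _ = _ := by rw [hN]; ring
      rw [hn1, hr1] at h1 h'
      rw [hr1]
      nlinarith)
  set E : C.Div := (m : ℤ) • C.H - D with hE
  obtain ⟨b, co, hbM, hb0, hbc, hbmax, hsp, hsum, -, hcoM, -⟩ := exists_RB hR (-E)
  have hL : ∀ s, s ∈ C.Moff R (-E) → s ∈ R.V (-E R) → s ∈ C.L E := by
    intro s h1 h2
    rw [mem_L]
    intro Q
    by_cases e : Q = R
    · rwa [e]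
    · exact (mem_Moff C).1 h1 Q e
  have hbR : ∀ c, -E R ≤ R.ord (b c) := by
    intro c
    rw [← sub_sub, mem_L] at hs0
    have h1 : s0 ∈ C.Moff R (-E) := (mem_Moff C).2 fun Q e => by
      have := hs0 Q
      rwa [Finsupp.sub_apply, Finsupp.single_eq_of_ne e, sub_zero] at this
    have h2 := (mem_V hs00).1 (hs0 R)
    rw [Finsupp.sub_apply, Finsupp.single_eq_same] at h2
    have h3 := hbmax s0 h1 hs00 ⟨_, class_lt (R.ord s0)⟩ (class_eq _)
    have h4 := hsp c ⟨_, class_lt (R.ord s0)⟩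
    rw [hn1, Nat.add_sub_cancel, show C.r - 1 = r1 by omega] at h4
    linarith
  by_cases e : P = R
  · subst e
    obtain ⟨xi, -, hx0, hxM, hxo, -⟩ := exists_xi hR
    let c1 : Fin C.r := ⟨_, class_lt (-E P)⟩
    have hc1 : -E P % (C.r : ℤ) = (c1 : ℕ) := class_eq _
    obtain ⟨t, ht⟩ : (C.r : ℤ) ∣ P.ord (b c1) - -E P :=
      Int.dvd_of_emod_eq_zero (Int.emod_eq_emod_iff_emod_sub_eq_zero.1 ((hbc c1).trans hc1.symm))
    have hr : (0 : ℤ) < C.r := by exact_mod_cast C.r_pos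
    have ht0 : 0 ≤ t := nonneg_of_mul_nonneg_right (ht ▸ sub_nonneg.2 (hbR c1)) hr |> fun h => h
    obtain ⟨j, rfl⟩ := Int.eq_ofNat_of_zero_le ht0
    have hw0 : C.rat xi ^ j * b c1 ≠ 0 := mul_ne_zero (pow_ne_zero _ hx0) (hb0 c1)
    have hwo : P.ord (C.rat xi ^ j * b c1) = -E P := by
      rw [ord_mul P (pow_ne_zero _ hx0) (hb0 c1), ord_pow P hx0, hxo]
      linarith
    refine ⟨_, hL _ (Moff_mul (Moff_pow hxM j) (hbM c1)) ((mem_V hw0).2 hwo.ge), ?_⟩
    rw [← hwo]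
    exact lc_ord_ne P hw0
  · obtain ⟨s, hs, hs'⟩ := approx hR (-E) e
    by_contra hc
    push Not at hc
    apply hs'
    rw [hsum s, map_sum]
    refine Finset.sum_eq_zero fun c _ => ?_
    have h1 := lc_mul ((mem_Moff C).1 (hcoM s hs c) P e) ((mem_Moff C).1 (hbM c) P e)
    rw [Finsupp.zero_apply, zero_add] at h1
    rw [h1]
    exact mul_eq_zero_of_right _ (hc _ (hL _ (hbM c) ((mem_V (hb0 c)).2 (hbR c))))

end Cv

end Vale.Agent.P319
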