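import Vale.Agent.P319.Cv.StageA0
import Vale.Agent.P319.Cv.RB
import Vale.Agent.P319.Cv.H90
import Vale.Agent.P319.Cv.Norm2

/-!
P319: the first stage of the division step.
-/

open Polynomial Finset

namespace Vale.Agent.P319

namespace Cv

variable {k : Type} [Field k] [IsAlgClosed k] {C : Cv k}

namespace SA

theorem H_smul (z : C.Mu) (P : C.Pt) : C.H (z • P) = C.H P := by
  rw [H_apply, H_apply, isInf_smul]

theorem R_smul (z : C.Mu) (P : C.Pt) : C.R (z • P) = C.R P := by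
  rw [R_apply, R_apply, isRam_smul]

theorem sD_E (z : C.Mu) (D : C.Div) (mu : ℕ) {g : C.K} (hg : g ≠ 0) (l : ℕ) (P : C.Pt) :
    C.sD z (D - (mu : ℤ) • C.H - C.div g) l P =
      C.sD z D l P - l * mu * C.H P - P.ord (C.pp z g l) := by
  rw [← div_apply, div_pp' z hg, sD_apply, sD_apply, sD_apply]
  simp only [Finsupp.sub_apply, Finsupp.smul_apply, smul_eq_mul, H_smul, sum_sub_distrib,
    sum_const, card_range, nsmul_eq_mul]
  ring

open Classical in
/-- the membership conditions in terms of the coefficients of the operator -/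
theorem solM_iff {z : C.Mu} {D Xh : C.Div} {mu : ℕ} {g : C.K} (hg : g ≠ 0)
    (hX : ∀ l, C.sD z (D - (mu : ℤ) • C.H - C.div g) l = Xh - C.tD (z ^ l) Xh) (P : C.Pt) (c : ℕ)
    (η : ℕ → C.K) :
    C.SolM z D P mu ((C.r - 1) * C.nu) c (fun l => C.y ^ (C.r - 1) * C.pp z g l * η l) ↔
      ∀ l < C.r, ∀ P' : C.Pt, η l ∈ P'.V ((if P' = P then (c : ℤ) else 0) + Xh P' -
        Xh (z ^ l • P') - ((C.r : ℤ) - 1) * C.R P') := by
  refine forall₂_congr fun l _ => ?_
  rw [mem_L]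
  refine forall_congr' fun P' => ?_
  have h1 := sD_E z D mu hg l P'
  rw [hX l, Finsupp.sub_apply, tD_apply] at h1
  rw [mul_mem_V_iff (mul_ne_zero (pow_ne_zero _ C.y_ne) (pp_ne z hg l)),
    ord_mul _ (pow_ne_zero _ C.y_ne) (pp_ne z hg l), ord_pow, ord_y]
  have h2 : (Finsupp.single P (c : ℤ)) P' = if P' = P then (c : ℤ) else 0 := by
    rw [Finsupp.single_apply]
    exact if_congr eq_comm rfl rfl
  refine iff_of_eq (congrArg (fun m => η l ∈ P'.V m) ?_)
  simp only [Finsupp.sub_apply, Finsupp.smul_apply, smul_eq_mul, h2]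
  push_cast [Nat.cast_sub C.r_pos]
  linarith

theorem main {z : C.Mu} (hz : IsPrimitiveRoot z.val C.r) {a : k} (ha : C.F.eval a = 0)
    {mu : ℕ} {D : C.Div} {u : k[X]} (hu : u ≠ 0)
    (hD : ∀ b (hb : C.F.eval b = 0), b ≠ a → D (ram b hb) = 0)
    (hN : C.div (C.pol u) + ((C.r * mu : ℕ) : ℤ) • C.H = C.nD z D)
    (rho : k[X]) (hrho : ∀ a', C.F.eval a' = 0 → a' ≠ a → rho.eval a' ^ C.r = u.eval a') :
    ∃ c ≤ C.r * C.n,
      (∃ Hs : ℕ → C.K, C.SolM z D (ram a ha) mu ((C.r - 1) * C.nu) c Hs ∧ C.SolR z a rho Hs ∧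
        ∃ l < C.r, Hs l ≠ 0) ∧
      ∀ Hs : ℕ → C.K, C.SolM z D (ram a ha) mu ((C.r - 1) * C.nu) c Hs → C.SolR z a rho Hs →
        (∃ l < C.r, Hs l ≠ 0) → Hs 0 ≠ 0 ∧ C.nm z (Hs 1) = C.pol u * C.nm z (Hs 0) := by
  classical
  have hP : (ram a ha).IsRam := rfl
  have hne : ∀ a' (ha' : C.F.eval a' = 0), a' ≠ a → ram a' ha' ≠ ram a ha := fun a' ha' h e =>
    h (congrArg Pt.x0 e)
  have hua : ∀ a', C.F.eval a' = 0 → a' ≠ a → u.eval a' ≠ 0 := by
    intro a' ha' h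
    have h1 := congrArg (fun E : C.Div => E (ram a' ha')) hN
    have h2 : (ram a' ha').IsRam := rfl
    simp only [Finsupp.add_apply, Finsupp.smul_apply, div_apply, nD, sD_apply, smul_of_ram _ h2,
      hD a' ha' h, sum_const_zero, H_apply, if_neg (show ¬(ram a' ha').IsInf from fun h => h),
      smul_zero, add_zero] at h1
    exact (ord_pol_ram ha' hu).1 h1
  obtain ⟨g, hg, hg'⟩ := norm2 hz a hu rho fun a' ha' h => ⟨hrho a' ha' h, hua a' ha' h⟩
  have hg0 : g ≠ 0 := by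
    rintro rfl
    refine C.pol_ne hu ?_
    rw [← hg, nm, pp]
    exact prod_eq_zero (mem_range.2 C.r_pos) (map_zero _)
  have hrho' : ∀ a' (ha' : C.F.eval a' = 0), a' ≠ a →
      rho ≠ 0 ∧ (ram a' ha').ord (C.pol rho) = 0 := by
    intro a' ha' h
    have h1 : rho.eval a' ≠ 0 := fun e => hua a' ha' h (by
      rw [← hrho a' ha' h, e, zero_pow C.hr.ne_zero])
    have h2 : rho ≠ 0 := by rintro rfl; exact h1 eval_zero
    exact ⟨h2, (ord_pol_ram ha' h2).2 h1⟩
  obtain ⟨Xh, -, hX0, hX, -, -⟩ := h90 z (E := D - (mu : ℤ) • C.H - C.div g) (by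
    ext P'
    have h1 := congrArg (fun E : C.Div => E P') hN
    simp only [Finsupp.add_apply, Finsupp.smul_apply, div_apply, smul_eq_mul] at h1
    rw [nD, sD_E z D mu hg0, ← nm, hg, ← nD, ← h1]
    push_cast
    simp)
  obtain ⟨b, co, hb1, hb2, hb3, hb4, hb5, hb6, hb7, hb8, hb9⟩ := exists_RB hP Xh
  have : Nonempty (Fin C.r) := ⟨⟨0, C.r_pos⟩⟩
  obtain ⟨c0, hc0⟩ := Finite.exists_max fun c => (ram a ha).ord (b c)
  obtain ⟨c1, hc1⟩ := Finite.exists_min fun c => (ram a ha).ord (b c)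
  obtain ⟨β, hβ⟩ := exists_beta hz (co c1)
  have hβ0 : β ≠ 0 := by
    rintro rfl
    have := hβ (b c1)
    rw [hb7, if_pos rfl, map_one] at this
    simp [tr] at this
  have hβ1 : β ∈ (ram a ha).V (-(ram a ha).ord (b c1)) :=
    beta_at hz (hb2 c1) fun m s hs => by rw [hβ]; exact hb9 m s hs c1
  have hβ2 : ∀ P' ≠ ram a ha, β ∈ P'.V (-Xh P' - ((C.r : ℤ) - 1) * C.R P') := fun P' hP' =>
    beta_off hz ha (fun s hs => by rw [hβ]; exact hb8 s hs c1) hP'
  obtain ⟨m1, hm1⟩ : ∃ m1 : ℕ, (ram a ha).ord (b c0) = (ram a ha).ord (b c1) + m1 :=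
    ⟨((ram a ha).ord (b c0) - (ram a ha).ord (b c1)).toNat, by have := hc1 c0; omega⟩
  have hm1' : m1 ≤ (C.r - 1) * (C.n - 1) := by have := hb5 c1 c0; omega
  have hRP : ∀ P' : C.Pt, P'.IsRam → C.R P' = 1 := fun P' h => by rw [R_apply, if_pos h]
  have hc : ((C.r - 1 + m1 : ℕ) : ℤ) = C.r - 1 + m1 := by push_cast [Nat.cast_sub C.r_pos]; rfl
  refine ⟨C.r - 1 + m1, ?_, ⟨fun l => C.y ^ (C.r - 1) * C.pp z g l * (b c0 * C.tau (z ^ l) β),
    ?_, ?_, 0, C.r_pos, ?_⟩, ?_⟩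
  · have h1 := C.n_pos
    have h2 := C.r_pos
    obtain ⟨n', hn'⟩ : ∃ n', C.n = n' + 1 := ⟨C.n - 1, by omega⟩
    obtain ⟨r', hr'⟩ : ∃ r', C.r = r' + 1 := ⟨C.r - 1, by omega⟩
    rw [hn', hr'] at hm1' ⊢
    simp only [Nat.add_sub_cancel] at hm1' ⊢
    nlinarith
  · refine (solM_iff hg0 hX _ _ _).2 fun l _ P' => ?_
    by_cases hP' : P' = ram a ha
    · subst hP'
      refine V_mul' (mem_V_ord _ _) ((tau_mem_V _ _ _ _).2 (by rwa [smul_of_ram _ hP])) ?_
      rw [if_pos rfl, smul_of_ram _ hP, hRP _ hP, hc, hm1]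
      linarith
    · refine V_mul' ((mem_Moff C).1 (hb1 c0) P' hP')
        ((tau_mem_V _ _ _ _).2 (hβ2 _ (smul_ne _ hP hP'))) ?_
      rw [if_neg hP', R_smul]
      linarith
  · intro b' _ a' ha' h
    have h2 : (ram a' ha').IsRam := rfl
    have h3 : b c0 ∈ (ram a' ha').V 0 := by
      have := (mem_Moff C).1 (hb1 c0) _ (hne a' ha' h)
      rwa [hX0 _ h2] at this
    have h4 : β ∈ (ram a' ha').V (-((C.r : ℤ) - 1)) := by
      have := hβ2 _ (hne a' ha' h)
      rwa [hX0 _ h2, hRP _ h2, neg_zero, zero_sub, mul_one] at this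
    refine (solR_iff z h2 (hrho' a' ha' h).1 (hrho' a' ha' h).2 (hg' a' ha' h)
      (η := fun l => b c0 * C.tau (z ^ l) β) (fun l _ => V_mul' h3 ((tau_mem_V _ _ _ _).2
        (by rwa [smul_of_ram _ h2])) (by rw [zero_add])) b').2 ?_
    have h5 : Top z (fun l => b c0 * C.tau (z ^ l) β) (C.y ^ b') =
        b c0 * C.tr z (β * C.y ^ b') := by
      simp only [Top_apply, tr, map_mul, mul_sum, mul_assoc]
    rw [h5]
    refine V_mul' h3 (tr_mem_zero hz h2 (V_mul' h4 (mem_V_ord _ _) ?_)) le_rfl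
    rw [ord_pow, ord_y_ram h2]
    omega
  · refine mul_ne_zero (mul_ne_zero (pow_ne_zero _ C.y_ne) (pp_ne z hg0 0))
      (mul_ne_zero (hb2 c0) ((_root_.map_ne_zero _).2 hβ0))
  · intro Hs hM hR hl
    obtain ⟨η, rfl⟩ : ∃ η : ℕ → C.K, Hs = fun l => C.y ^ (C.r - 1) * C.pp z g l * η l :=
      ⟨fun l => (C.y ^ (C.r - 1) * C.pp z g l)⁻¹ * Hs l, funext fun l => by
        rw [mul_inv_cancel_left₀ (mul_ne_zero (pow_ne_zero _ C.y_ne) (pp_ne z hg0 l))]⟩
    rw [solM_iff hg0 hX] at hM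
    have hT1 : ∀ s ∈ C.Moff (ram a ha) Xh, Top z η s ∈ C.Moff (ram a ha) Xh := by
      intro s hs
      rw [mem_Moff] at hs ⊢
      intro P' hP'
      by_cases h2 : P'.IsRam
      · obtain ⟨a', ha', rfl⟩ := exists_ram h2
        have h : a' ≠ a := by rintro rfl; exact hP' rfl
        have h3 := hs _ hP'
        rw [hX0 _ h2] at h3 ⊢
        refine Top_reg hz h2 (fun b' hb' => ?_) h3
        refine (solR_iff z h2 (hrho' a' ha' h).1 (hrho' a' ha' h).2 (hg' a' ha' h)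
          (fun l hl => ?_) b').1 (hR b' hb' a' ha' h)
        have h4 := hM l hl (ram a' ha')
        rwa [if_neg hP', smul_of_ram _ h2, hRP _ h2, zero_add, sub_self, zero_sub, mul_one] at h4
      · refine Submodule.sum_mem _ fun l hl => V_mul' (hM l (mem_range.1 hl) P')
          ((tau_mem_V _ _ _ _).2 (hs _ (smul_ne _ hP hP'))) ?_
        rw [if_neg hP', R_apply, if_neg h2]
        linarith
    have hT2 : ∀ c ≠ c1, Top z η (b c) = 0 := by
      intro c hc'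
      by_contra h0
      have h1 : Top z η (b c) ∈ (ram a ha).V (m1 + (ram a ha).ord (b c)) := by
        refine Submodule.sum_mem _ fun l hl => V_mul' (hM l (mem_range.1 hl) _)
          ((tau_mem_V _ _ _ _).2 (by rw [smul_of_ram _ hP]; exact mem_V_ord _ _)) ?_
        rw [if_pos rfl, smul_of_ram _ hP, hRP _ hP, hc]
        linarith
      rw [mem_V_iff h0] at h1
      have hr : (0 : ℤ) < C.r := by exact_mod_cast C.r_pos
      have h2 := Int.emod_nonneg ((ram a ha).ord (Top z η (b c))) hr.ne'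
      have h3 := Int.emod_lt_of_pos ((ram a ha).ord (Top z η (b c))) hr
      have h4 := hb4 _ (hT1 _ (hb1 c)) h0
        ⟨((ram a ha).ord (Top z η (b c)) % C.r).toNat, by omega⟩ (by simp only; omega)
      have h5 := hc0 ⟨((ram a ha).ord (Top z η (b c)) % C.r).toNat, by omega⟩
      have h6 := hc1 c
      have h7 : (ram a ha).ord (b c) = (ram a ha).ord (b c1) := by omega
      have h8 := hb3 c
      rw [h7, hb3 c1] at h8
      exact hc' (Fin.ext (by exact_mod_cast h8.symm))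
    have hT3 : ∀ s, Top z (fun l => η l - Top z η (b c1) * C.tau (z ^ l) β) s = 0 := by
      intro s
      have h1 : Top z η s = C.rat (co c1 s) * Top z η (b c1) := by
        conv_lhs => rw [hb6 s, map_sum]
        rw [sum_eq_single c1 (fun c _ hc' => by rw [Top_rat, hT2 c hc', mul_zero])
          (fun h => (h (mem_univ _)).elim), Top_rat]
      rw [← hβ, mul_comm, tr, mul_sum, Top_apply z η s, ← sub_eq_zero, ← sum_sub_distrib] at h1
      rw [← h1, Top_apply]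
      exact sum_congr rfl fun l _ => by rw [map_mul]; ring
    have hη : ∀ l < C.r, η l = Top z η (b c1) * C.tau (z ^ l) β := fun l hl =>
      sub_eq_zero.1 (Top_eq_zero hz hT3 hl)
    have hA : Top z η (b c1) ≠ 0 := by
      obtain ⟨l, hl, h0⟩ := hl
      intro e
      exact h0 (by simp only [hη l hl, e, zero_mul, mul_zero])
    have e0 : C.pp z g 0 = 1 := by simp [pp]
    have e1 : C.pp z g 1 = g := by simp [pp, tau_one]
    simp only [hη 0 C.r_pos, hη 1 C.hr.one_lt, e0, e1, pow_zero, pow_one, tau_one, nm_mul,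
      nm_tau z hβ0, hg, mul_one]
    exact ⟨mul_ne_zero (pow_ne_zero _ C.y_ne) (mul_ne_zero hA hβ0), by ring⟩

end SA

theorem stageA {z : C.Mu} (hz : IsPrimitiveRoot z.val C.r) {a : k} (ha : C.F.eval a = 0)
    {mu : ℕ} {D : C.Div} {u : k[X]} (hu : u ≠ 0)
    (hD : ∀ b (hb : C.F.eval b = 0), b ≠ a → D (ram b hb) = 0)
    (hN : C.div (C.pol u) + ((C.r * mu : ℕ) : ℤ) • C.H = C.nD z D)
    (rho : k[X]) (hrho : ∀ a', C.F.eval a' = 0 → a' ≠ a → rho.eval a' ^ C.r = u.eval a') :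
    ∃ c ≤ C.r * C.n,
      (∃ Hs : ℕ → C.K, C.SolM z D (ram a ha) mu ((C.r - 1) * C.nu) c Hs ∧ C.SolR z a rho Hs ∧
        ∃ l < C.r, Hs l ≠ 0) ∧
      ∀ Hs : ℕ → C.K, C.SolM z D (ram a ha) mu ((C.r - 1) * C.nu) c Hs → C.SolR z a rho Hs →
        (∃ l < C.r, Hs l ≠ 0) → Hs 0 ≠ 0 ∧ C.nm z (Hs 1) = C.pol u * C.nm z (Hs 0) :=
  SA.main hz ha hu hD hN rho hrho

end Cv

end Vale.Agent.P319
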