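import Vale.Agent.P319.Cv.H90

/-!
P319: the second stage of the division step.
-/

open Polynomial Finset

namespace Vale.Agent.P319

namespace Cv

variable {k : Type} [Field k] [IsAlgClosed k] {C : Cv k}

namespace StageB

theorem sD_smul_H (z : C.Mu) (m : ℤ) (l : ℕ) : C.sD z (m • C.H) l = (l * m) • C.H := by
  rw [sD_zsmul, sD_H, smul_smul, mul_comm]

omit [IsAlgClosed k] in
theorem sD_le_nD (z : C.Mu) {E Z : C.Div} (h : E ≤ Z) (hZ : 0 ≤ Z) {l : ℕ} (hl : l ≤ C.r) :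
    C.sD z E l ≤ C.nD z Z := (sD_mono z h l).trans (sD_le_sD z hZ hl)

omit [IsAlgClosed k] in
theorem solB_pp (z : C.Mu) {h0 : C.K} (hh : h0 ≠ 0) (h1 s : C.K) :
    C.SolB z h0 h1 fun l => s * C.pp z (h1 / h0) l := fun l _ => by
  have := tau_ne (z ^ l) hh
  beta_reduce
  rw [pp_succ, map_div₀]
  field_simp

omit [IsAlgClosed k] in
theorem eq_of_solB {z : C.Mu} {h0 h1 : C.K} (hh : h0 ≠ 0) {Hs : ℕ → C.K} (h : C.SolB z h0 h1 Hs)
    {l : ℕ} (hl : l < C.r) : Hs l = Hs 0 * C.pp z (h1 / h0) l := by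
  induction l with
  | zero => simp
  | succ l ih =>
    have h2 := tau_ne (z ^ l) hh
    have h3 := h l hl
    rw [ih (by omega)] at h3
    rw [pp_succ, map_div₀, ← mul_assoc, ← mul_div_assoc, ← h3, mul_div_cancel_right₀ _ h2]

end StageB

open StageB

theorem stageB {z : C.Mu} (_hz : IsPrimitiveRoot z.val C.r) {P : C.Pt} (_hP : P.IsRam)
    {mu t : ℕ} {D : C.Div} {u : k[X]} (hu : u ≠ 0)
    (hN : C.div (C.pol u) + ((C.r * mu : ℕ) : ℤ) • C.H = C.nD z D)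
    {h0 h1 : C.K} (hh : h0 ≠ 0) (hn : C.nm z h1 = C.pol u * C.nm z h0)
    (k0 : h0 ∈ C.L ((t : ℤ) • C.H)) (k1 : h1 ∈ C.L (((t + mu : ℕ) : ℤ) • C.H - D)) :
    ∃ Xh : C.Div, 0 ≤ Xh ∧ C.deg Xh ≤ (C.r * (C.r * t) : ℕ) ∧ (∀ P' : C.Pt, P'.IsRam → Xh P' = 0) ∧
      C.Triv (D - (Xh - C.tD z Xh)) ∧
      ∀ (T c : ℕ) (s : C.K), s ∈ C.L ((T : ℤ) • C.H - (Xh + Finsupp.single P (c : ℤ))) ↔
        ∃ Hs : ℕ → C.K, Hs 0 = s ∧ C.SolM z D P mu T c Hs ∧ C.SolB z h0 h1 Hs := by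
  have hh1 : h1 ≠ 0 := by
    rintro rfl
    refine mul_ne_zero (C.pol_ne hu) (nm_ne z hh) (hn.symm.trans ?_)
    exact Finset.prod_eq_zero (Finset.mem_range.2 C.r_pos) (map_zero _)
  have hg : h1 / h0 ≠ 0 := div_ne_zero hh1 hh
  have hng : C.nm z (h1 / h0) = C.pol u := by
    rw [nm_div, hn, mul_div_cancel_right₀ _ (nm_ne z hh)]
  set E : C.Div := D - (mu : ℤ) • C.H - C.div (h1 / h0) with hEdef
  have hsE : ∀ l, C.sD z E l =
      C.sD z D l - ((l : ℤ) * mu) • C.H - C.div (C.pp z (h1 / h0) l) := fun l => by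
    rw [hEdef, sD_sub, sD_sub, sD_smul_H, div_pp' z hg]
  have hE : C.nD z E = 0 := by
    have h2 : C.div (C.pp z (h1 / h0) C.r) = C.div (C.pol u) := congrArg C.div hng
    rw [nD, hsE, h2, ← nD, ← hN]
    push_cast
    abel
  obtain ⟨Xh, x1, x2, x3, x4, x5⟩ := h90 z hE
  have hZ : 0 ≤ C.div h0 + (t : ℤ) • C.H := (mem_L_iff hh).1 k0
  have hEZ : E ≤ C.div h0 + (t : ℤ) • C.H := by
    have h2 := (mem_L_iff hh1).1 k1
    rw [← sub_nonneg]
    convert h2 using 1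
    rw [hEdef, div_div hh1 hh]
    push_cast
    rw [add_smul]
    abel
  have key : ∀ (T c : ℕ) {s : C.K}, s ≠ 0 → ∀ l : ℕ,
      (s * C.pp z (h1 / h0) l ∈
        C.L (((T + l * mu : ℕ) : ℤ) • C.H - C.sD z D l - Finsupp.single P (c : ℤ)) ↔
      C.sD z E l ≤ C.div s + (T : ℤ) • C.H - Finsupp.single P (c : ℤ)) := fun T c s hs l => by
    rw [mem_L_iff (mul_ne_zero hs (pp_ne z hg l)), div_mul hs (pp_ne z hg l),
      ← sub_nonneg (b := C.sD z E l), hsE]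
    refine iff_of_eq (congrArg _ ?_)
    push_cast
    rw [add_smul]
    abel
  refine ⟨Xh, x1, ?_, x2, ⟨h1 / h0, hg, mu, ?_⟩, fun T c s => ?_⟩
  · have h2 := deg_mono (x5 _ fun l hl => sD_le_nD z hEZ hZ hl.le)
    rw [deg_nD, map_add, deg_div, map_zsmul, deg_H] at h2
    refine h2.trans (le_of_eq ?_)
    simp only [smul_eq_mul]
    push_cast
    ring
  · have h2 := x3 1
    rw [pow_one] at h2
    rw [← h2, sD_one, hEdef]
    abel
  · rcases eq_or_ne s 0 with rfl | hs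
    · refine iff_of_true (zero_mem _) ⟨fun _ => 0, rfl, fun l _ => zero_mem _, fun l _ => ?_⟩
      simp
    have h2 : s ∈ C.L ((T : ℤ) • C.H - (Xh + Finsupp.single P (c : ℤ))) ↔
        Xh ≤ C.div s + (T : ℤ) • C.H - Finsupp.single P (c : ℤ) := by
      rw [mem_L_iff hs, ← sub_nonneg (b := Xh)]
      refine iff_of_eq (congrArg _ ?_)
      abel
    rw [h2]
    constructor
    · intro h
      exact ⟨fun l => s * C.pp z (h1 / h0) l, by simp,
        fun l hl => (key T c hs l).2 ((x4 l hl).trans h), solB_pp z hh h1 s⟩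
    · rintro ⟨Hs, rfl, hM, hB⟩
      refine x5 _ fun l hl => (key T c hs l).1 ?_
      rw [← eq_of_solB hh hB hl]
      exact hM l hl

end Cv

end Vale.Agent.P319
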