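import Vale.Agent.P319.Cv.Divs
import Vale.Agent.P319.Cv.Norm1

/-!
P319: rationality of the roots at the ramified points.
-/

open Polynomial Finset

namespace Vale.Agent.P319

namespace Cv

variable {k : Type} [Field k] [IsAlgClosed k] {C : Cv k}

namespace RatAux

omit [IsAlgClosed k] in
theorem exists_cob (z : C.Mu) {E : C.Div} (hE : C.nD z E = 0) :
    ∃ X : C.Div, E = X - C.tD z X := by
  have hr := C.r_pos
  have hne : (range C.r).Nonempty := ⟨0, mem_range.2 hr⟩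
  set X := (range C.r).sup' hne (C.sD z E) with hX
  have h1 : ∀ l < C.r, C.sD z E (l + 1) ≤ E + C.tD z X := fun l hl => by
    rw [sD_succ']
    exact add_le_add_right (tD_mono z (le_sup' (C.sD z E) (mem_range.2 hl))) _
  have h2 : X ≤ E + C.tD z X := sup'_le _ _ fun l hl => by
    rcases l with _ | l
    · have := h1 (C.r - 1) (by omega)
      rwa [Nat.sub_add_cancel hr, ← nD, hE, ← sD_zero z E] at this
    · exact h1 l (by have := mem_range.1 hl; omega)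
  have hd : C.deg E = 0 := by
    have := deg_nD z E
    rw [hE, map_zero] at this
    exact (mul_eq_zero.1 this.symm).resolve_left (by exact_mod_cast hr.ne')
  exact ⟨X, eq_sub_of_add_eq (eq_of_le_of_deg h2 (by rw [map_add, hd, deg_tD, zero_add])).symm⟩

theorem dv_cont {σ : k ≃+* k} (hσ : C.Fix σ) {B : C.K[X]} {X : C.Div} (h : C.Cont B X)
    (hB : ∀ j, hσ.fn (B.coeff j) = B.coeff j) : hσ.dv X = X := by
  refine eq_of_le_of_deg (fun Q => ?_) (hσ.deg_dv X).ge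
  obtain ⟨P, rfl⟩ := hσ.pt_surj Q
  obtain ⟨j, hj⟩ := h.2 P
  rw [← hσ.lc_fn_ne_iff, hB] at hj
  rw [hσ.dv_pt]
  by_contra hc
  exact hj (Pt.lc_eq_zero (mem_L'.1 (h.1 j) _) (by omega))

end RatAux

open RatAux

theorem rational {σ : k ≃+* k} (hσ : C.Fix σ) {z : C.Mu} (hz : IsPrimitiveRoot z.val C.r) {a : k}
    {mu mB : ℕ} {D : C.Div} {u : k[X]} {B : k[X][X][X]} (h : C.Pres a mu mB D u B)
    (hu : u.map (σ : k →+* k) = u) (hB : B.map (mapRingHom (mapRingHom (σ : k →+* k))) = B)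
    (hX : ∀ X, C.Triv (D - (X - C.tD z X)) → C.Triv (hσ.dv X - X))
    {g : k} (h1 : σ (g ^ C.r) = g ^ C.r) (h2 : σ g ≠ g) :
    ∃ m < C.r, ∀ a', C.F.eval a' = 0 → a' ≠ a →
      ∃ θ : k, σ θ = θ ∧ θ ≠ 0 ∧ θ ^ C.r = (g ^ C.r) ^ m * u.eval a' := by
  obtain ⟨g0, hg0⟩ := C.norm1 (Mu.ne_one_of_prim hz) u
  have hg : g0 ≠ 0 := by
    rintro rfl
    apply C.pol_ne h.u_ne
    rw [← hg0, nm, ← Nat.succ_pred_eq_of_pos C.r_pos, pp_succ', zero_mul]
  have hD : hσ.dv D = D := by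
    have := dv_cont hσ h.cont fun j => by
      rw [coeff_map, hσ.fn_ev]
      conv_rhs => rw [← hB, coeff_map]
      rfl
    rwa [map_sub, map_zsmul, hσ.dv_H, sub_right_inj] at this
  obtain ⟨X, hE⟩ := exists_cob z (E := D - (mu : ℤ) • C.H - C.div g0) (by
    rw [nD, sD_sub, sD_sub, sD_zsmul, sD_H, ← div_pp' z hg, ← nD, ← h.norm z hz, ← nm, hg0,
      smul_smul]
    push_cast
    rw [mul_comm]
    abel)
  obtain ⟨s, hs, m0, hs1⟩ := hX X ⟨g0, hg, mu, by rw [← hE]; abel⟩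
  obtain ⟨κ, -, hκ⟩ := exists_cst_of_div_eq (mul_ne_zero (hσ.fn_ne hg) hs)
    (mul_ne_zero hg (tau_ne z hs)) (by
      have e1 := congrArg hσ.dv hE
      have e2 := congrArg (C.tD z) hs1
      rw [map_sub, map_sub, map_zsmul, hσ.dv_H, hD, map_sub, hσ.dv_tD] at e1
      rw [map_sub, map_add, map_zsmul, tD_H] at e2
      rw [div_mul (hσ.fn_ne hg) hs, div_mul hg (tau_ne z hs), hσ.div_fn, div_tau]
      linear_combination (norm := abel) hE - e1 - hs1 + e2)
  have key : ∀ a' (ha' : C.F.eval a' = 0), a' ≠ a → ∃ ρ : k, ρ ≠ 0 ∧ σ ρ = κ * ρ ∧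
      ρ ^ C.r = u.eval a' := by
    intro a' ha' hne
    have hP : (ram a' ha' : C.Pt).IsRam := rfl
    have o1 : (ram a' ha' : C.Pt).ord g0 = 0 := by
      have := DFunLike.congr_fun hE (ram a' ha')
      simp only [Finsupp.sub_apply, Finsupp.smul_apply, div_apply, tD_apply, hP.smul_eq,
        H_ram hP, h.ram a' ha' hne] at this
      simpa using this
    have o2 : (ram a' ha' : C.Pt).ord s = 0 := by
      have := DFunLike.congr_fun hs1 (ram a' ha')
      simp only [Finsupp.sub_apply, Finsupp.add_apply, Finsupp.smul_apply, div_apply,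
        hσ.dv_ram X hP, H_ram hP] at this
      simpa using this.symm
    have v1 : g0 ∈ (ram a' ha' : C.Pt).V 0 := o1 ▸ Pt.mem_V_ord g0
    have v2 : s ∈ (ram a' ha' : C.Pt).V 0 := o2 ▸ Pt.mem_V_ord s
    have v3 : hσ.fn g0 ∈ (ram a' ha' : C.Pt).V 0 := by
      rw [← hσ.pt_ram hP, hσ.fn_mem_iff]
      exact v1
    refine ⟨(ram a' ha' : C.Pt).lc 0 g0, Pt.lc_ne_of_ord hg o1, ?_, ?_⟩
    · have e := congrArg ((ram a' ha' : C.Pt).lc 0) hκ
      rw [Pt.lc_mul_zero v3 v2, Pt.lc_cst_mul, Pt.lc_mul_zero v1 ((tau_mem_ram z hP).2 v2),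
        lc_zero_tau, hP.smul_eq, hσ.lc_zero_fn_ram hP, ← mul_assoc] at e
      exact mul_right_cancel₀ (Pt.lc_ne_of_ord hs o2) e
    · rw [← (pp_mem_ram z hP v1 C.r).2, ← nm, hg0, Pt.lc_pol hP.not_inf]
      rfl
  by_cases hex : ∃ a', C.F.eval a' = 0 ∧ a' ≠ a
  swap
  · exact ⟨0, C.r_pos, fun a' ha' hne => absurd ⟨a', ha', hne⟩ hex⟩
  have hκr : κ ^ C.r = 1 := by
    obtain ⟨a', ha', hne⟩ := hex
    obtain ⟨ρ, r1, r2, r3⟩ := key a' ha' hne
    have e : σ (u.eval a') = u.eval a' := by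
      conv_rhs => rw [← hu, ← hσ.root a' ha']
      exact (eval_map_apply (σ : k →+* k) a').symm
    rw [← r3, map_pow, r2, mul_pow] at e
    exact mul_right_cancel₀ (pow_ne_zero _ r1) (e.trans (one_mul _).symm)
  have hg' : g ≠ 0 := by
    rintro rfl
    exact h2 (map_zero σ)
  obtain ⟨w, hw⟩ := Mu.exists_val (C := C) (z := σ g / g)
    (by rw [_root_.div_pow, ← map_pow, h1, div_self (pow_ne_zero _ hg')])
  obtain ⟨w', hw'⟩ := Mu.exists_val (C := C) hκr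
  have hw1 : w ≠ 1 := fun e => h2 (by rwa [e, Mu.val_one, eq_comm, div_eq_one_iff_eq hg'] at hw)
  obtain ⟨m, hm, hm'⟩ := Mu.exists_pow hw1 w'⁻¹
  refine ⟨m, hm, fun a' ha' hne => ?_⟩
  obtain ⟨ρ, r1, r2, r3⟩ := key a' ha' hne
  refine ⟨g ^ m * ρ, ?_, mul_ne_zero (pow_ne_zero _ hg') r1, by
    rw [mul_pow, r3, ← pow_mul, ← pow_mul, mul_comm m]⟩
  have e1 : σ g = w.val * g := by rw [hw, div_mul_cancel₀ _ hg']
  have e2 : w.val ^ m * κ = 1 := by
    rw [← Mu.val_pow, hm', ← hw', ← Mu.val_mul, inv_mul_cancel, Mu.val_one]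
  rw [map_mul, map_pow, r2, e1, mul_pow]
  linear_combination g ^ m * ρ * e2

end Cv

end Vale.Agent.P319
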