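import Vale.Agent.P319.Cv.Basic

/-!
P319: orders and leading coefficients at the places of the curve.
-/

open Polynomial Finset

namespace Vale.Agent.P319

namespace Cv

variable {k : Type} [Field k] {c : Cv k}

/-! ### points -/

@[simp] theorem not_isInf_aff {x0 y0 : k} {h} : ¬ (Pt.aff x0 y0 h : c.Pt).IsInf := id

@[simp] theorem isInf_inf {w : k} {h} : (Pt.inf w h : c.Pt).IsInf := trivial

@[simp] theorem isRam_aff {x0 y0 : k} {h} : (Pt.aff x0 y0 h : c.Pt).IsRam ↔ y0 = 0 := Iff.rfl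

@[simp] theorem not_isRam_inf {w : k} {h} : ¬ (Pt.inf w h : c.Pt).IsRam := id

@[simp] theorem x0_aff {x0 y0 : k} {h} : (Pt.aff x0 y0 h : c.Pt).x0 = x0 := rfl

/-- the ordinate of an affine point -/
def Pt.y0 : c.Pt → k
  | .aff _ y0 _ => y0
  | .inf w _ => w

@[simp] theorem y0_aff {x0 y0 : k} {h} : (Pt.aff x0 y0 h : c.Pt).y0 = y0 := rfl

@[simp] theorem y0_inf {w : k} {h} : (Pt.inf w h : c.Pt).y0 = w := rfl

theorem Pt.y0_pow {P : c.Pt} (hP : ¬ P.IsInf) : P.y0 ^ c.r = c.F.eval P.x0 := by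
  cases P with
  | aff x0 y0 h => exact h
  | inf w h => exact absurd isInf_inf hP

theorem Pt.y0_pow_inf {P : c.Pt} (hP : P.IsInf) : P.y0 ^ c.r = c.F.leadingCoeff := by
  cases P with
  | aff x0 y0 h => exact absurd hP not_isInf_aff
  | inf w h => exact h

theorem Pt.IsRam.not_inf {P : c.Pt} (hP : P.IsRam) : ¬ P.IsInf := by
  cases P with
  | aff x0 y0 h => exact not_isInf_aff
  | inf w h => exact absurd hP not_isRam_inf

theorem Pt.IsInf.not_ram {P : c.Pt} (hP : P.IsInf) : ¬ P.IsRam := fun h => h.not_inf hP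

theorem Pt.isRam_iff {P : c.Pt} : P.IsRam ↔ P.y0 = 0 := by
  cases P with
  | aff x0 y0 h => rfl
  | inf w h =>
    refine ⟨fun h' => absurd h' not_isRam_inf, fun h' => ?_⟩
    rw [y0_inf] at h'
    rw [h', zero_pow c.hr.ne_zero] at h
    exact absurd h.symm c.lead_ne

theorem Pt.isRam_iff_eval {P : c.Pt} (hP : ¬ P.IsInf) : P.IsRam ↔ c.F.eval P.x0 = 0 := by
  rw [Pt.isRam_iff, ← Pt.y0_pow hP, pow_eq_zero_iff c.hr.ne_zero]

theorem Pt.IsRam.eval {P : c.Pt} (hP : P.IsRam) : c.F.eval P.x0 = 0 :=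
  (Pt.isRam_iff_eval hP.not_inf).1 hP

theorem Pt.ext_aff {P Q : c.Pt} (hP : ¬ P.IsInf) (hQ : ¬ Q.IsInf) (hx : P.x0 = Q.x0)
    (hy : P.y0 = Q.y0) : P = Q := by
  cases P with
  | inf w h => exact absurd isInf_inf hP
  | aff x0 y0 h =>
    cases Q with
    | inf w h => exact absurd isInf_inf hQ
    | aff x1 y1 h' =>
      simp only [x0_aff, y0_aff] at hx hy
      subst hx hy
      rfl

theorem Pt.ext_inf {P Q : c.Pt} (hP : P.IsInf) (hQ : Q.IsInf) (hy : P.y0 = Q.y0) : P = Q := by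
  cases P with
  | aff x0 y0 h => exact absurd hP not_isInf_aff
  | inf w h =>
    cases Q with
    | aff x0 y0 h => exact absurd hQ not_isInf_aff
    | inf w' h' =>
      simp only [y0_inf] at hy
      subst hy
      rfl

@[simp] theorem isRam_ram (a : k) (ha) : (ram a ha : c.Pt).IsRam := rfl

@[simp] theorem not_isInf_ram (a : k) (ha) : ¬ (ram a ha : c.Pt).IsInf := id

@[simp] theorem x0_ram (a : k) (ha) : (ram a ha : c.Pt).x0 = a := rfl

@[simp] theorem y0_ram (a : k) (ha) : (ram a ha : c.Pt).y0 = 0 := rfl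

theorem Pt.IsRam.eq_ram {P : c.Pt} (hP : P.IsRam) : P = ram P.x0 hP.eval :=
  Pt.ext_aff hP.not_inf (not_isInf_ram _ _) rfl (Pt.isRam_iff.1 hP)

theorem Pt.IsRam.eq_of_x0 {P Q : c.Pt} (hP : P.IsRam) (hQ : ¬ Q.IsInf) (h : P.x0 = Q.x0) :
    P = Q :=
  Pt.ext_aff hP.not_inf hQ h (by
    rw [Pt.isRam_iff.1 hP, Pt.isRam_iff.1 ((Pt.isRam_iff_eval hQ).2 (h ▸ hP.eval))])

theorem Pt.IsRam.e_eq {P : c.Pt} (hP : P.IsRam) : P.e = c.r := if_pos hP

theorem Pt.e_eq_one {P : c.Pt} (hP : ¬ P.IsRam) : P.e = 1 := if_neg hP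

@[simp] theorem isInf_smul (z : c.Mu) (P : c.Pt) : (z • P).IsInf ↔ P.IsInf := by
  cases P <;> rfl

@[simp] theorem x0_smul (z : c.Mu) (P : c.Pt) : (z • P).x0 = P.x0 := by cases P <;> rfl

@[simp] theorem y0_smul (z : c.Mu) (P : c.Pt) : (z • P).y0 = z.val * P.y0 := by cases P <;> rfl

@[simp] theorem isRam_smul (z : c.Mu) (P : c.Pt) : (z • P).IsRam ↔ P.IsRam := by
  rw [Pt.isRam_iff, Pt.isRam_iff, y0_smul, mul_eq_zero, or_iff_right z.val_ne]

@[simp] theorem e_smul (z : c.Mu) (P : c.Pt) : (z • P).e = P.e := by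
  by_cases h : P.IsRam
  · rw [h.e_eq, ((isRam_smul z P).2 h).e_eq]
  · rw [Pt.e_eq_one h, Pt.e_eq_one (by simpa using h)]

theorem Pt.IsRam.smul_eq {P : c.Pt} (hP : P.IsRam) (z : c.Mu) : z • P = P :=
  (hP.eq_of_x0 (by simpa using hP.not_inf) (by simp)).symm

theorem smul_inj {P : c.Pt} (hP : ¬ P.IsRam) {z w : c.Mu} (h : z • P = w • P) : z = w := by
  have := congrArg Pt.y0 h
  rw [y0_smul, y0_smul] at this
  exact Mu.val_injective (mul_right_cancel₀ (fun e => hP (Pt.isRam_iff.2 e)) this)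

theorem exists_smul_aff {P Q : c.Pt} (hP : ¬ P.IsInf) (hQ : ¬ Q.IsInf) (h : P.x0 = Q.x0) :
    ∃ z : c.Mu, z • P = Q := by
  by_cases hr : P.IsRam
  · exact ⟨1, by rw [one_smul]; exact hr.eq_of_x0 hQ h⟩
  · obtain ⟨z, hz⟩ := Mu.exists_mul_eq (c := c) (a := P.y0) (b := Q.y0)
      (fun e => hr (Pt.isRam_iff.2 e)) (by rw [Pt.y0_pow hP, Pt.y0_pow hQ, h])
    exact ⟨z, Pt.ext_aff (by simpa using hP) hQ (by simpa using h) (by simpa using hz)⟩

theorem exists_smul_inf {P Q : c.Pt} (hP : P.IsInf) (hQ : Q.IsInf) : ∃ z : c.Mu, z • P = Q := by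
  obtain ⟨z, hz⟩ := Mu.exists_mul_eq (c := c) (a := P.y0) (b := Q.y0)
    (fun e => hP.not_ram (Pt.isRam_iff.2 e)) (by rw [Pt.y0_pow_inf hP, Pt.y0_pow_inf hQ])
  exact ⟨z, Pt.ext_inf (by simpa using hP) hQ (by simpa using hz)⟩

theorem oy_ram {P : c.Pt} (hP : P.IsRam) : P.oy = 1 := by
  cases P with
  | aff x0 y0 h => exact if_pos hP
  | inf w h => exact absurd hP not_isRam_inf

theorem oy_unram {P : c.Pt} (hP : ¬ P.IsInf) (hP' : ¬ P.IsRam) : P.oy = 0 := by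
  cases P with
  | aff x0 y0 h => exact if_neg hP'
  | inf w h => exact absurd isInf_inf hP

theorem oy_inf {P : c.Pt} (hP : P.IsInf) : P.oy = -(c.nu : ℤ) := by
  cases P with
  | aff x0 y0 h => exact absurd hP not_isInf_aff
  | inf w h => rfl

theorem xs_aff {P : c.Pt} (hP : ¬ P.IsInf) :
    P.xs = HahnSeries.C P.x0 + HahnSeries.single (P.e : ℤ) 1 := by
  cases P with
  | aff x0 y0 h => rfl
  | inf w h => exact absurd isInf_inf hP

theorem xs_inf {P : c.Pt} (hP : P.IsInf) : P.xs = HahnSeries.single (-1 : ℤ) 1 := by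
  cases P with
  | aff x0 y0 h => exact absurd hP not_isInf_aff
  | inf w h => rfl

variable [IsAlgClosed k]

variable (c) in
theorem exists_aff (x0 : k) : ∃ P : c.Pt, ¬ P.IsInf ∧ P.x0 = x0 := by
  obtain ⟨y0, hy⟩ := IsAlgClosed.exists_pow_nat_eq (c.F.eval x0) c.r_pos
  exact ⟨.aff x0 y0 hy, not_isInf_aff, rfl⟩

variable (c) in
theorem exists_inf : ∃ P : c.Pt, P.IsInf := by
  obtain ⟨y0, hy⟩ := IsAlgClosed.exists_pow_nat_eq c.F.leadingCoeff c.r_pos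
  exact ⟨.inf y0 hy, isInf_inf⟩

/-! ### the filtration at a point -/

namespace Pt

variable {P : c.Pt}

theorem mem_V {m : ℤ} {s : c.K} : s ∈ P.V m ↔ ∀ j < m, P.lc j s = 0 := Iff.rfl

theorem lc_def (m : ℤ) (s : c.K) : P.lc m s = (P.iota s).coeff m := rfl

theorem V_anti {m m' : ℤ} (h : m ≤ m') : P.V m' ≤ P.V m := fun _ hs j hj => hs j (hj.trans_le h)

theorem mem_V_of_le {m m' : ℤ} {s : c.K} (hs : s ∈ P.V m') (h : m ≤ m') : s ∈ P.V m :=
  V_anti h hs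

theorem mem_V_succ {m : ℤ} {s : c.K} : s ∈ P.V (m + 1) ↔ s ∈ P.V m ∧ P.lc m s = 0 :=
  ge_succ_iff

theorem lc_eq_zero {m m' : ℤ} {s : c.K} (hs : s ∈ P.V m') (h : m < m') : P.lc m s = 0 := hs m h

theorem mem_V_ord (s : c.K) : s ∈ P.V (P.ord s) := ge_order _

theorem lc_ord_ne {s : c.K} (hs : s ≠ 0) : P.lc (P.ord s) s ≠ 0 := fun h =>
  hs ((map_eq_zero P.iota).1 (HahnSeries.coeff_order_eq_zero.1 h))

theorem mem_V_iff_le {m : ℤ} {s : c.K} (hs : s ≠ 0) : s ∈ P.V m ↔ m ≤ P.ord s :=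
  ⟨fun h => not_lt.1 fun h1 => lc_ord_ne hs (h _ h1), fun h => mem_V_of_le (mem_V_ord s) h⟩

theorem ne_zero_of_lc {m : ℤ} {s : c.K} (h : P.lc m s ≠ 0) : s ≠ 0 := by
  rintro rfl
  exact h (map_zero _)

theorem ord_eq_of_lc {m : ℤ} {s : c.K} (hs : s ∈ P.V m) (h : P.lc m s ≠ 0) : P.ord s = m :=
  order_eq_of_ge hs h

theorem lc_ne_of_not_mem {m : ℤ} {s : c.K} (hs : s ∈ P.V m) (h : s ∉ P.V (m + 1)) :
    P.lc m s ≠ 0 := fun e => h (mem_V_succ.2 ⟨hs, e⟩)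

theorem not_mem_of_lc {m : ℤ} {s : c.K} (h : P.lc m s ≠ 0) : s ∉ P.V (m + 1) :=
  fun e => h (mem_V_succ.1 e).2

theorem ord_eq_of_not_mem {m : ℤ} {s : c.K} (hs : s ∈ P.V m) (h : s ∉ P.V (m + 1)) :
    s ≠ 0 ∧ P.ord s = m :=
  ⟨ne_zero_of_lc (lc_ne_of_not_mem hs h), ord_eq_of_lc hs (lc_ne_of_not_mem hs h)⟩

theorem lc_ne_of_ord {m : ℤ} {s : c.K} (hs : s ≠ 0) (h : P.ord s = m) : P.lc m s ≠ 0 :=
  h ▸ lc_ord_ne hs

theorem not_mem_V_ord_succ {s : c.K} (hs : s ≠ 0) : s ∉ P.V (P.ord s + 1) :=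
  not_mem_of_lc (lc_ord_ne hs)

@[simp] theorem ord_zero : P.ord 0 = 0 := by simp [ord]

theorem mul_mem {m n : ℤ} {s t : c.K} (hs : s ∈ P.V m) (ht : t ∈ P.V n) :
    s * t ∈ P.V (m + n) := by
  change Ge _ _
  rw [map_mul]
  exact Ge.mul hs ht

theorem mul_mem' {m n l : ℤ} {s t : c.K} (hs : s ∈ P.V m) (ht : t ∈ P.V n) (h : l ≤ m + n) :
    s * t ∈ P.V l := mem_V_of_le (mul_mem hs ht) h

theorem lc_mul {m n : ℤ} {s t : c.K} (hs : s ∈ P.V m) (ht : t ∈ P.V n) :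
    P.lc (m + n) (s * t) = P.lc m s * P.lc n t := by
  rw [lc_def, map_mul]
  exact Ge.coeff_mul hs ht

theorem lc_mul' {m n l : ℤ} {s t : c.K} (hs : s ∈ P.V m) (ht : t ∈ P.V n) (h : l = m + n) :
    P.lc l (s * t) = P.lc m s * P.lc n t := h ▸ lc_mul hs ht

theorem lc_mul_zero {s t : c.K} (hs : s ∈ P.V 0) (ht : t ∈ P.V 0) :
    P.lc 0 (s * t) = P.lc 0 s * P.lc 0 t := lc_mul' hs ht rfl

theorem mul_mem_zero {s t : c.K} (hs : s ∈ P.V 0) (ht : t ∈ P.V 0) : s * t ∈ P.V 0 :=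
  mul_mem' hs ht le_rfl

theorem mul_mem_left {m : ℤ} {s t : c.K} (hs : s ∈ P.V 0) (ht : t ∈ P.V m) : s * t ∈ P.V m :=
  mul_mem' hs ht (zero_add m).ge

theorem mul_mem_right {m : ℤ} {s t : c.K} (hs : s ∈ P.V m) (ht : t ∈ P.V 0) : s * t ∈ P.V m :=
  mul_mem' hs ht (add_zero m).ge

theorem cst_mem (a : k) : c.cst a ∈ P.V 0 := by
  change Ge _ _
  rw [iota_cst]
  exact ge_C a

@[simp] theorem lc_cst (a : k) : P.lc 0 (c.cst a) = a := by
  rw [lc_def, iota_cst, HahnSeries.C_apply, HahnSeries.coeff_single_same]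

theorem one_mem : (1 : c.K) ∈ P.V 0 := by simpa using cst_mem (P := P) 1

@[simp] theorem lc_one : P.lc 0 1 = 1 := by
  have := lc_cst (P := P) 1
  rwa [map_one] at this

theorem cst_mul_mem {m : ℤ} (a : k) {s : c.K} (hs : s ∈ P.V m) : c.cst a * s ∈ P.V m :=
  mul_mem_left (cst_mem a) hs

theorem lc_cst_mul (m : ℤ) (a : k) (s : c.K) : P.lc m (c.cst a * s) = a * P.lc m s := by
  rw [← smul_eq, map_smul, smul_eq_mul]

@[simp] theorem ord_cst (a : k) : P.ord (c.cst a) = 0 := by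
  rcases eq_or_ne a 0 with rfl | hc
  · simp
  · exact ord_eq_of_lc (cst_mem a) (by simpa using hc)

@[simp] theorem ord_one : P.ord 1 = 0 := by
  have := ord_cst (P := P) 1
  rwa [map_one] at this

theorem ord_mul {s t : c.K} (hs : s ≠ 0) (ht : t ≠ 0) : P.ord (s * t) = P.ord s + P.ord t :=
  ord_eq_of_lc (mul_mem (mem_V_ord s) (mem_V_ord t)) (by
    rw [lc_mul (mem_V_ord s) (mem_V_ord t)]
    exact mul_ne_zero (lc_ord_ne hs) (lc_ord_ne ht))

theorem ord_inv (s : c.K) : P.ord s⁻¹ = -P.ord s := by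
  rcases eq_or_ne s 0 with rfl | hs
  · simp
  · have := ord_mul (P := P) hs (inv_ne_zero hs)
    rw [mul_inv_cancel₀ hs, ord_one] at this
    omega

theorem ord_div {s t : c.K} (hs : s ≠ 0) (ht : t ≠ 0) : P.ord (s / t) = P.ord s - P.ord t := by
  rw [div_eq_mul_inv, ord_mul hs (inv_ne_zero ht), ord_inv, sub_eq_add_neg]

theorem ord_pow (s : c.K) (n : ℕ) : P.ord (s ^ n) = n * P.ord s := by
  rcases eq_or_ne s 0 with rfl | hs
  · rcases n with _ | n <;> simp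
  · induction n with
    | zero => simp
    | succ n ih => rw [pow_succ, ord_mul (pow_ne_zero _ hs) hs, ih]; push_cast; ring

theorem ord_zpow (s : c.K) (n : ℤ) : P.ord (s ^ n) = n * P.ord s := by
  rcases n with n | n
  · simpa using ord_pow s n
  · rw [zpow_negSucc, ord_inv, ord_pow, Int.negSucc_eq]
    push_cast
    ring

theorem ord_prod {ι : Type*} (T : Finset ι) (f : ι → c.K) (hf : ∀ i ∈ T, f i ≠ 0) :
    P.ord (∏ i ∈ T, f i) = ∑ i ∈ T, P.ord (f i) := by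
  classical
  induction T using Finset.induction_on with
  | empty => simp
  | insert a T ha ih =>
    rw [Finset.prod_insert ha, Finset.sum_insert ha, ord_mul (hf a (by simp))
      (Finset.prod_ne_zero_iff.2 fun i hi => hf i (by simp [hi])),
      ih fun i hi => hf i (by simp [hi])]

theorem ord_cst_mul {a : k} (ha : a ≠ 0) (s : c.K) : P.ord (c.cst a * s) = P.ord s := by
  rcases eq_or_ne s 0 with rfl | hs
  · simp
  · rw [ord_mul ((_root_.map_ne_zero c.cst).2 ha) hs, ord_cst, zero_add]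

theorem ord_smul {a : k} (ha : a ≠ 0) (s : c.K) : P.ord (a • s) = P.ord s := by
  rw [smul_eq, ord_cst_mul ha]

theorem ord_neg (s : c.K) : P.ord (-s) = P.ord s := by
  simpa using ord_smul (P := P) (neg_ne_zero.2 (one_ne_zero' k)) s

theorem prod_mem_lc {ι : Type*} (T : Finset ι) (f : ι → c.K) (m : ι → ℤ)
    (hf : ∀ i ∈ T, f i ∈ P.V (m i)) : ∏ i ∈ T, f i ∈ P.V (∑ i ∈ T, m i) ∧
      P.lc (∑ i ∈ T, m i) (∏ i ∈ T, f i) = ∏ i ∈ T, P.lc (m i) (f i) := by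
  classical
  induction T using Finset.induction_on with
  | empty => simpa using one_mem
  | insert a T ha ih =>
    obtain ⟨h1, h2⟩ := ih fun i hi => hf i (by simp [hi])
    rw [Finset.prod_insert ha, Finset.sum_insert ha, Finset.prod_insert ha,
      lc_mul (hf a (by simp)) h1, h2]
    exact ⟨mul_mem (hf a (by simp)) h1, rfl⟩

theorem prod_mem {ι : Type*} (T : Finset ι) (f : ι → c.K) (m : ι → ℤ)
    (hf : ∀ i ∈ T, f i ∈ P.V (m i)) : ∏ i ∈ T, f i ∈ P.V (∑ i ∈ T, m i) :=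
  (prod_mem_lc T f m hf).1

theorem prod_mem_zero {ι : Type*} (T : Finset ι) (f : ι → c.K) (hf : ∀ i ∈ T, f i ∈ P.V 0) :
    ∏ i ∈ T, f i ∈ P.V 0 := by simpa using prod_mem T f (fun _ => 0) hf

theorem lc_prod_zero {ι : Type*} (T : Finset ι) (f : ι → c.K) (hf : ∀ i ∈ T, f i ∈ P.V 0) :
    P.lc 0 (∏ i ∈ T, f i) = ∏ i ∈ T, P.lc 0 (f i) := by
  simpa using (prod_mem_lc T f (fun _ => 0) hf).2

theorem pow_mem {m : ℤ} {s : c.K} (hs : s ∈ P.V m) (n : ℕ) : s ^ n ∈ P.V (n * m) := by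
  change Ge _ _
  rw [map_pow]
  exact (Ge.pow hs n).1

theorem lc_pow {m : ℤ} {s : c.K} (hs : s ∈ P.V m) (n : ℕ) :
    P.lc (n * m) (s ^ n) = P.lc m s ^ n := by
  rw [lc_def, map_pow]
  exact (Ge.pow hs n).2

theorem pow_mem_zero {s : c.K} (hs : s ∈ P.V 0) (n : ℕ) : s ^ n ∈ P.V 0 := by
  simpa using pow_mem hs n

theorem lc_pow_zero {s : c.K} (hs : s ∈ P.V 0) (n : ℕ) : P.lc 0 (s ^ n) = P.lc 0 s ^ n := by
  simpa using lc_pow hs n

theorem inv_mem {m : ℤ} {s : c.K} (hs : s ∈ P.V m) (h : P.lc m s ≠ 0) : s⁻¹ ∈ P.V (-m) := by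
  rw [mem_V_iff_le (inv_ne_zero (ne_zero_of_lc h)), ord_inv, ord_eq_of_lc hs h]

theorem inv_mem_ord (s : c.K) : s⁻¹ ∈ P.V (-P.ord s) := ord_inv (P := P) s ▸ mem_V_ord s⁻¹

theorem lc_inv {m : ℤ} {s : c.K} (hs : s ∈ P.V m) (h : P.lc m s ≠ 0) :
    P.lc (-m) s⁻¹ = (P.lc m s)⁻¹ := by
  have := lc_mul hs (inv_mem hs h)
  rw [mul_inv_cancel₀ (ne_zero_of_lc h), add_neg_cancel, lc_one] at this
  exact eq_inv_of_mul_eq_one_right this.symm

theorem inv_mem_zero {s : c.K} (hs : s ∈ P.V 0) (h : P.lc 0 s ≠ 0) : s⁻¹ ∈ P.V 0 := by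
  simpa using inv_mem hs h

theorem lc_inv_zero {s : c.K} (hs : s ∈ P.V 0) (h : P.lc 0 s ≠ 0) :
    P.lc 0 s⁻¹ = (P.lc 0 s)⁻¹ := by simpa using lc_inv hs h

/-- the quotient of two functions -/
theorem div_mem_lc {m n : ℤ} {s t : c.K} (hs : s ∈ P.V m) (ht : t ∈ P.V n) (h : P.lc n t ≠ 0) :
    s / t ∈ P.V (m - n) ∧ P.lc (m - n) (s / t) = P.lc m s / P.lc n t := by
  rw [div_eq_mul_inv, div_eq_mul_inv, sub_eq_add_neg, lc_mul hs (inv_mem ht h), lc_inv ht h]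
  exact ⟨mul_mem hs (inv_mem ht h), rfl⟩

/-- cancel a factor -/
theorem mem_V_of_mul {m : ℤ} {s t : c.K} (ht : t ≠ 0) (h : s * t ∈ P.V (m + P.ord t)) :
    s ∈ P.V m := by
  rcases eq_or_ne s 0 with rfl | hs
  · exact zero_mem _
  · rw [mem_V_iff_le (mul_ne_zero hs ht), ord_mul hs ht] at h
    exact (mem_V_iff_le hs).2 (by omega)

theorem mul_mem_iff {m : ℤ} {s t : c.K} (ht : t ≠ 0) :
    s * t ∈ P.V (m + P.ord t) ↔ s ∈ P.V m :=
  ⟨mem_V_of_mul ht, fun h => mul_mem h (mem_V_ord t)⟩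

theorem mem_V_of_mul' {m n : ℤ} {s t : c.K} (ht : t ≠ 0) (h : s * t ∈ P.V n)
    (hm : m + P.ord t ≤ n) : s ∈ P.V m := mem_V_of_mul ht (mem_V_of_le h hm)

/-- a sum with one term of least order -/
theorem add_mem_lc {m : ℤ} {s t : c.K} (hs : s ∈ P.V m)
    (ht : t ∈ P.V (m + 1)) : s + t ∈ P.V m ∧ P.lc m (s + t) = P.lc m s := by
  obtain ⟨h1, h2⟩ := mem_V_succ.1 ht
  exact ⟨add_mem hs h1, by rw [map_add, h2, add_zero]⟩

/-! ### polynomials and `y` -/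

theorem pol_mem (hP : ¬ P.IsInf) (u : k[X]) : c.pol u ∈ P.V 0 := by
  change Ge _ _
  rw [iota_pol, xs_aff hP]
  exact (eval₂_near _ ((ge_single _ _).mono (by exact_mod_cast P.e_pos)) u).1

theorem lc_pol (hP : ¬ P.IsInf) (u : k[X]) : P.lc 0 (c.pol u) = u.eval P.x0 := by
  rw [lc_def, iota_pol, xs_aff hP]
  exact (eval₂_near _ ((ge_single _ _).mono (by exact_mod_cast P.e_pos)) u).2

theorem ord_pol (hP : ¬ P.IsInf) (u : k[X]) :
    P.ord (c.pol u) = P.e * u.rootMultiplicity P.x0 := by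
  rcases eq_or_ne u 0 with rfl | hu
  · simp
  obtain ⟨h1, h2, h3⟩ := eval₂_aff P.x0 P.e_pos hu
  rw [ord, iota_pol, xs_aff hP, mul_comm]
  exact order_eq_of_ge h1 (h2 ▸ h3)

theorem ord_pol_of_eval (hP : ¬ P.IsInf) {u : k[X]} (h : u.eval P.x0 ≠ 0) :
    P.ord (c.pol u) = 0 := by
  rw [ord_pol hP, rootMultiplicity_eq_zero h, Nat.cast_zero, mul_zero]

theorem pol_mem_iff (hP : ¬ P.IsInf) (u : k[X]) (m : ℕ) :
    c.pol u ∈ P.V (P.e * m) ↔ (X - C P.x0) ^ m ∣ u := by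
  rcases eq_or_ne u 0 with rfl | hu
  · simp
  rw [mem_V_iff_le (c.pol_ne hu), ord_pol hP, ← le_rootMultiplicity_iff hu,
    mul_le_mul_iff_right₀ (by exact_mod_cast P.e_pos), Nat.cast_le]

theorem pol_mem_e (hP : ¬ P.IsInf) {u : k[X]} (h : u.eval P.x0 = 0) : c.pol u ∈ P.V P.e := by
  have := (pol_mem_iff hP u 1).2 (by rwa [pow_one, dvd_iff_isRoot])
  simpa using this

theorem ord_X_sub (hP : ¬ P.IsInf) : P.ord (c.pol (X - C P.x0)) = P.e := by
  rw [ord_pol hP, rootMultiplicity_X_sub_C_self, Nat.cast_one, mul_one]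

theorem lc_pol_inf (hP : P.IsInf) (u : k[X]) (d : ℕ) : P.lc (-d) (c.pol u) = u.coeff d := by
  rw [lc_def, iota_pol, xs_inf hP, coeff_eval₂_inf, if_pos (by omega)]
  simp

theorem pol_mem_inf (hP : P.IsInf) {u : k[X]} {d : ℕ} (h : u.natDegree ≤ d) :
    c.pol u ∈ P.V (-d) := by
  refine mem_V_of_le (m' := -u.natDegree) ?_ (by omega)
  change Ge _ _
  rw [iota_pol, xs_inf hP]
  exact (eval₂_inf u).1

theorem ord_pol_inf (hP : P.IsInf) (u : k[X]) : P.ord (c.pol u) = -u.natDegree := by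
  rcases eq_or_ne u 0 with rfl | hu
  · simp
  exact ord_eq_of_lc (pol_mem_inf hP le_rfl) (by
    rw [lc_pol_inf hP]
    exact leadingCoeff_ne_zero.2 hu)

theorem pol_mem_inf_iff (hP : P.IsInf) {u : k[X]} (hu : u ≠ 0) {m : ℤ} :
    c.pol u ∈ P.V (-m) ↔ (u.natDegree : ℤ) ≤ m := by
  rw [mem_V_iff_le (c.pol_ne hu), ord_pol_inf hP, neg_le_neg_iff]

theorem y_mem : c.y ∈ P.V P.oy := by
  change Ge _ _
  rw [iota_y]
  exact P.exists_ys.choose_spec.2.1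

theorem lc_y_ne : P.lc P.oy c.y ≠ 0 := by
  rw [lc_def, iota_y]
  exact P.exists_ys.choose_spec.2.2.1

theorem ord_y : P.ord c.y = P.oy := ord_eq_of_lc y_mem lc_y_ne

theorem ord_y_pow (b : ℕ) : P.ord (c.y ^ b) = b * P.oy := by rw [ord_pow, ord_y]

theorem y_pow_mem (b : ℕ) : c.y ^ b ∈ P.V (b * P.oy) := pow_mem y_mem b

omit [IsAlgClosed k] in
theorem oy_nonneg (hP : ¬ P.IsInf) : 0 ≤ P.oy := by
  by_cases h : P.IsRam
  · rw [oy_ram h]; norm_num
  · rw [oy_unram hP h]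

theorem y_mem_zero (hP : ¬ P.IsInf) : c.y ∈ P.V 0 := mem_V_of_le y_mem (oy_nonneg hP)

theorem lc_y (hP : ¬ P.IsInf) : P.lc 0 c.y = P.y0 := by
  by_cases h : P.IsRam
  · rw [isRam_iff.1 h]
    exact lc_eq_zero y_mem (by rw [oy_ram h]; norm_num)
  · cases P with
    | inf w h => exact absurd isInf_inf hP
    | aff x0 y0 h' =>
      rw [lc_def, iota_y]
      exact (exists_ys _).choose_spec.2.2.2.1 x0 y0 h' rfl h

theorem lc_y_inf (hP : P.IsInf) : P.lc (-(c.nu : ℤ)) c.y = P.y0 := by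
  cases P with
  | aff x0 y0 h' => exact absurd hP not_isInf_aff
  | inf w h =>
    rw [lc_def, iota_y]
    exact (exists_ys _).choose_spec.2.2.2.2 w h rfl

theorem lc_y_unram (hP : ¬ P.IsRam) : P.lc P.oy c.y = P.y0 := by
  by_cases h : P.IsInf
  · rw [oy_inf h, lc_y_inf h]
  · rw [oy_unram h hP, lc_y h]

theorem ev_mem_lc (hP : ¬ P.IsInf) (G : k[X][X]) :
    c.ev G ∈ P.V 0 ∧ P.lc 0 (c.ev G) = (G.eval (C P.y0)).eval P.x0 := by
  induction G using Polynomial.induction_on' with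
  | add p q hp hq =>
    rw [map_add, map_add, eval_add, eval_add, hp.2, hq.2]
    exact ⟨add_mem hp.1 hq.1, rfl⟩
  | monomial b u =>
    have h1 := pow_mem_zero (y_mem_zero hP) b
    rw [ev_monomial, lc_mul_zero (pol_mem hP u) h1, lc_pol hP, lc_pow_zero (y_mem_zero hP),
      lc_y hP]
    exact ⟨mul_mem_zero (pol_mem hP u) h1, by simp⟩

theorem ev_mem (hP : ¬ P.IsInf) (G : k[X][X]) : c.ev G ∈ P.V 0 := (ev_mem_lc hP G).1

theorem lc_ev (hP : ¬ P.IsInf) (G : k[X][X]) :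
    P.lc 0 (c.ev G) = (G.eval (C P.y0)).eval P.x0 := (ev_mem_lc hP G).2

theorem lc_ev_ram (hP : P.IsRam) (G : k[X][X]) : P.lc 0 (c.ev G) = (G.coeff 0).eval P.x0 := by
  rw [lc_ev hP.not_inf, isRam_iff.1 hP, C_0, ← coeff_zero_eq_eval_zero]

/-- the order of a rational function of `x` is a multiple of the ramification index -/
theorem e_dvd_ord_rat (hP : ¬ P.IsInf) (q : RatFunc k) : (P.e : ℤ) ∣ P.ord (c.rat q) := by
  rcases eq_or_ne q 0 with rfl | hq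
  · simp
  rw [rat_eq, ord_div (c.pol_ne (RatFunc.num_ne_zero hq)) (c.pol_ne q.denom_ne_zero),
    ord_pol hP, ord_pol hP, ← mul_sub]
  exact dvd_mul_right _ _

theorem rat_mem_of_ram (hP : P.IsRam) {q : RatFunc k} {m j : ℤ} (h : c.rat q ∈ P.V m)
    (hm : c.r * (j - 1) < m) : c.rat q ∈ P.V (c.r * j) := by
  rcases eq_or_ne q 0 with rfl | hq
  · simp
  have h0 : c.rat q ≠ 0 := (_root_.map_ne_zero c.rat).2 hq
  obtain ⟨l, hl⟩ := e_dvd_ord_rat hP.not_inf q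
  rw [mem_V_iff_le h0, hl, hP.e_eq] at h ⊢
  have h1 : (0 : ℤ) < c.r := by exact_mod_cast c.r_pos
  have h2 : j - 1 < l := lt_of_mul_lt_mul_left (hm.trans_le h) h1.le
  exact mul_le_mul_of_nonneg_left (by omega) h1.le

theorem rat_mem_zero_of_ram (hP : P.IsRam) {q : RatFunc k} {m : ℤ} (h : c.rat q ∈ P.V m)
    (hm : -(c.r : ℤ) < m) : c.rat q ∈ P.V 0 := by
  simpa using rat_mem_of_ram hP (j := 0) h (by simpa using hm)

end Pt

/-! ### transport of places -/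

/-- `φ` carries the place `P` to the place `P'` -/
def Tw (P P' : c.Pt) (φ : c.K →+* c.K) (σ : k →+* k) (a : k) : Prop :=
  a ≠ 0 ∧ ∀ (s : c.K) (m : ℤ), P'.lc m (φ s) = a ^ m * σ (P.lc m s)

theorem Tw.mem_V {P P' : c.Pt} {φ : c.K →+* c.K} {σ : k →+* k} {a : k} (h : Tw P P' φ σ a)
    {m : ℤ} {s : c.K} : φ s ∈ P'.V m ↔ s ∈ P.V m := by
  simp only [Pt.mem_V, h.2, mul_eq_zero, zpow_ne_zero _ h.1, false_or, map_eq_zero]

theorem Tw.ord {P P' : c.Pt} {φ : c.K →+* c.K} {σ : k →+* k} {a : k} (h : Tw P P' φ σ a)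
    (s : c.K) : P'.ord (φ s) = P.ord s := by
  rcases eq_or_ne s 0 with rfl | hs
  · simp
  · refine Pt.ord_eq_of_lc (h.mem_V.2 (Pt.mem_V_ord s)) ?_
    rw [h.2]
    exact mul_ne_zero (zpow_ne_zero _ h.1) ((_root_.map_ne_zero σ).2 (Pt.lc_ord_ne hs))

/-- criterion for `Tw` -/
theorem tw_of {P P' : c.Pt} {φ : c.K →+* c.K} {σ : k →+* k} {a : k} (ha : a ≠ 0)
    (h0 : ∀ b, φ (c.cst b) = c.cst (σ b)) (hX : φ (c.pol X) = c.pol X)
    (hx : P'.xs = twist σ a ha P.xs) (hF : φ (c.pol c.F) = c.pol c.F)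
    (hσ : c.F.map σ = c.F) (hy : φ c.y ∈ P'.V P.oy)
    (hl : P'.lc P.oy (φ c.y) = a ^ P.oy * σ (P.lc P.oy c.y)) : Tw P P' φ σ a := by
  have key : P'.iota.comp φ = (twist σ a ha).comp P.iota := by
    refine hom_ext' (fun b => ?_) ?_ ?_
    · simp only [RingHom.comp_apply, h0, Pt.iota_cst, twist_C]
    · simp only [RingHom.comp_apply, hX, Pt.iota_pol, eval₂_X, hx]
    · simp only [RingHom.comp_apply]
      refine root_unique c.hrk (m := P.oy) ?_ hy ((ge_twist _ _ _ _ _).2 Pt.y_mem) hl ?_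
      · rw [← map_pow, ← map_pow, ← map_pow, ← map_pow, y_pow, hF, Pt.iota_pol, Pt.iota_pol, hx,
          hom_eval₂]
        conv_lhs => rw [← hσ, eval₂_map]
        congr 1
        ext1 b
        simp only [RingHom.comp_apply, twist_C]
      · rw [← Pt.lc_def, hl]
        exact mul_ne_zero (zpow_ne_zero _ ha) ((_root_.map_ne_zero σ).2 Pt.lc_y_ne)
  exact ⟨ha, fun s m => congrArg (fun f => HahnSeries.coeff f m) (RingHom.congr_fun key s)⟩

omit [IsAlgClosed k] in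
theorem oy_smul (z : c.Mu) (P : c.Pt) : (z • P).oy = P.oy := by
  by_cases h : P.IsInf
  · rw [oy_inf h, oy_inf (by simpa using h)]
  · by_cases h' : P.IsRam
    · rw [h'.smul_eq]
    · rw [oy_unram h h', oy_unram (by simpa using h) (by simpa using h')]

theorem tw_tau_unram (z : c.Mu) {P : c.Pt} (hP : ¬ P.IsRam) :
    Tw (z • P) P (c.tau z : c.K →+* c.K) (RingHom.id k) 1 := by
  refine tw_of one_ne_zero (fun b => by simp) (by simp) ?_ (by simp) (by simp) ?_ ?_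
  · by_cases h : P.IsInf
    · rw [xs_inf h, xs_inf (by simpa using h), twist_single]
      simp
    · rw [xs_aff h, xs_aff (by simpa using h), map_add, twist_C, twist_single]
      simp
  · rw [oy_smul, RingHom.coe_coe, tau_y]
    exact Pt.cst_mul_mem _ Pt.y_mem
  · rw [RingHom.coe_coe, tau_y, Pt.lc_cst_mul, Pt.lc_y_unram (by simpa using hP), oy_smul,
      Pt.lc_y_unram hP]
    simp

theorem tw_tau_ram (z : c.Mu) {P : c.Pt} (hP : P.IsRam) :
    Tw P P (c.tau z : c.K →+* c.K) (RingHom.id k) z.val := by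
  refine tw_of z.val_ne (fun b => by simp) (by simp) ?_ (by simp) (by simp) ?_ ?_
  · rw [xs_aff hP.not_inf, map_add, twist_C, twist_single, hP.e_eq, zpow_natCast, z.val_pow_r]
    simp
  · rw [RingHom.coe_coe, tau_y]
    exact Pt.cst_mul_mem _ Pt.y_mem
  · rw [RingHom.coe_coe, tau_y, Pt.lc_cst_mul, oy_ram hP]
    simp

theorem exists_tw_tau (z : c.Mu) (P : c.Pt) :
    ∃ a, Tw (z • P) P (c.tau z : c.K →+* c.K) (RingHom.id k) a := by
  by_cases hP : P.IsRam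
  · exact ⟨_, by rw [hP.smul_eq]; exact tw_tau_ram z hP⟩
  · exact ⟨_, tw_tau_unram z hP⟩

theorem tau_mem_iff (z : c.Mu) (P : c.Pt) {m : ℤ} {s : c.K} :
    c.tau z s ∈ P.V m ↔ s ∈ (z • P).V m := by
  obtain ⟨a, h⟩ := exists_tw_tau z P
  exact h.mem_V

theorem ord_tau (z : c.Mu) (P : c.Pt) (s : c.K) : P.ord (c.tau z s) = (z • P).ord s := by
  obtain ⟨a, h⟩ := exists_tw_tau z P
  exact h.ord s

theorem lc_tau_ram (z : c.Mu) {P : c.Pt} (hP : P.IsRam) (m : ℤ) (s : c.K) :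
    P.lc m (c.tau z s) = z.val ^ m * P.lc m s := (tw_tau_ram z hP).2 s m

theorem lc_tau_unram (z : c.Mu) {P : c.Pt} (hP : ¬ P.IsRam) (m : ℤ) (s : c.K) :
    P.lc m (c.tau z s) = (z • P).lc m s := by simpa using (tw_tau_unram z hP).2 s m

theorem lc_zero_tau (z : c.Mu) (P : c.Pt) (s : c.K) :
    P.lc 0 (c.tau z s) = (z • P).lc 0 s := by
  by_cases hP : P.IsRam
  · rw [lc_tau_ram z hP, hP.smul_eq, zpow_zero, one_mul]
  · exact lc_tau_unram z hP 0 s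

theorem tau_mem_ram (z : c.Mu) {P : c.Pt} (hP : P.IsRam) {m : ℤ} {s : c.K} :
    c.tau z s ∈ P.V m ↔ s ∈ P.V m := by rw [tau_mem_iff, hP.smul_eq]

theorem ord_tau_ram (z : c.Mu) {P : c.Pt} (hP : P.IsRam) (s : c.K) :
    P.ord (c.tau z s) = P.ord s := by rw [ord_tau, hP.smul_eq]

/-- value of a coboundary at a ramified point -/
theorem cob_ram (z : c.Mu) {P : c.Pt} (hP : P.IsRam) {s : c.K} (hs : s ≠ 0) :
    c.tau z s / s ∈ P.V 0 ∧ P.lc 0 (c.tau z s / s) = z.val ^ P.ord s := by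
  have := Pt.div_mem_lc ((tau_mem_ram z hP).2 (Pt.mem_V_ord s)) (Pt.mem_V_ord s)
    (Pt.lc_ord_ne (P := P) hs)
  rwa [sub_self, lc_tau_ram z hP, mul_div_cancel_right₀ _ (Pt.lc_ord_ne hs)] at this

theorem pp_mem_ram (ζ : c.Mu) {P : c.Pt} (hP : P.IsRam) {g : c.K} (hg : g ∈ P.V 0) (j : ℕ) :
    c.pp ζ g j ∈ P.V 0 ∧ P.lc 0 (c.pp ζ g j) = P.lc 0 g ^ j := by
  have h1 : ∀ l ∈ range j, c.tau (ζ ^ l) g ∈ P.V 0 := fun l _ => (tau_mem_ram _ hP).2 hg
  refine ⟨Pt.prod_mem_zero _ _ h1, ?_⟩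
  rw [pp, Pt.lc_prod_zero _ _ h1]
  simp [lc_tau_ram _ hP]

theorem ord_pp (ζ : c.Mu) (P : c.Pt) {g : c.K} (hg : g ≠ 0) (j : ℕ) :
    P.ord (c.pp ζ g j) = ∑ l ∈ range j, (ζ ^ l • P).ord g := by
  rw [pp, Pt.ord_prod _ _ fun l _ => tau_ne _ hg]
  simp only [ord_tau]

theorem ord_pp_ram (ζ : c.Mu) {P : c.Pt} (hP : P.IsRam) {g : c.K} (hg : g ≠ 0) (j : ℕ) :
    P.ord (c.pp ζ g j) = j * P.ord g := by
  simp [ord_pp ζ P hg, hP.smul_eq]

/-! ### automorphisms of the constants -/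

omit [IsAlgClosed k] in
theorem Aut.eval_F (a : c.Aut) (x : k) : c.F.eval (a.σ x) = a.σ (c.F.eval x) := by
  conv_lhs => rw [← a.hF]
  exact eval_map_apply (a.σ : k →+* k) x

omit [IsAlgClosed k] in
theorem Aut.lead (a : c.Aut) : a.σ c.F.leadingCoeff = c.F.leadingCoeff := by
  conv_rhs => rw [← a.hF, leadingCoeff_map]
  rfl

/-- the inverse automorphism -/
def Aut.inv (a : c.Aut) : c.Aut where
  σ := a.σ.symm
  hF := by
    conv_lhs => rw [← a.hF, Polynomial.map_map]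
    simp

/-- the action on points -/
def Aut.pt (a : c.Aut) : c.Pt → c.Pt
  | .aff x0 y0 h => .aff (a.σ x0) (a.σ y0) (by rw [← map_pow, h, a.eval_F])
  | .inf w h => .inf (a.σ w) (by rw [← map_pow, h, a.lead])

omit [IsAlgClosed k] in
@[simp] theorem Aut.isInf_pt (a : c.Aut) (P : c.Pt) : (a.pt P).IsInf ↔ P.IsInf := by
  cases P <;> rfl

omit [IsAlgClosed k] in
@[simp] theorem Aut.x0_pt (a : c.Aut) (P : c.Pt) : (a.pt P).x0 = a.σ P.x0 := by
  cases P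
  · rfl
  · exact (map_zero a.σ).symm

omit [IsAlgClosed k] in
@[simp] theorem Aut.y0_pt (a : c.Aut) (P : c.Pt) : (a.pt P).y0 = a.σ P.y0 := by cases P <;> rfl

omit [IsAlgClosed k] in
@[simp] theorem Aut.isRam_pt (a : c.Aut) (P : c.Pt) : (a.pt P).IsRam ↔ P.IsRam := by
  rw [Pt.isRam_iff, Pt.isRam_iff, a.y0_pt, map_eq_zero]

omit [IsAlgClosed k] in
@[simp] theorem Aut.e_pt (a : c.Aut) (P : c.Pt) : (a.pt P).e = P.e := by
  by_cases h : P.IsRam
  · rw [h.e_eq, ((a.isRam_pt P).2 h).e_eq]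
  · rw [Pt.e_eq_one h, Pt.e_eq_one (by simpa using h)]

omit [IsAlgClosed k] in
@[simp] theorem Aut.inv_pt (a : c.Aut) (P : c.Pt) : a.inv.pt (a.pt P) = P := by
  cases P <;> simp [Aut.pt, Aut.inv]

omit [IsAlgClosed k] in
@[simp] theorem Aut.pt_inv (a : c.Aut) (P : c.Pt) : a.pt (a.inv.pt P) = P := by
  cases P <;> simp [Aut.pt, Aut.inv]

/-- the action on points as a permutation -/
def Aut.perm (a : c.Aut) : Equiv.Perm c.Pt := ⟨a.pt, a.inv.pt, a.inv_pt, a.pt_inv⟩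

omit [IsAlgClosed k] in
theorem Aut.pt_eq_self (a : c.Aut) {P : c.Pt} (hx : a.σ P.x0 = P.x0) (hy : a.σ P.y0 = P.y0) :
    a.pt P = P := by
  by_cases h : P.IsInf
  · exact Pt.ext_inf (by simpa using h) h (by simpa using hy)
  · exact Pt.ext_aff (by simpa using h) h (by simpa using hx) (by simpa using hy)

omit [IsAlgClosed k] in
theorem Aut.pt_ram (a : c.Aut) {P : c.Pt} (hP : P.IsRam) (hx : a.σ P.x0 = P.x0) : a.pt P = P :=
  a.pt_eq_self hx (by rw [Pt.isRam_iff.1 hP, map_zero])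

omit [IsAlgClosed k] in
theorem Aut.pt_smul (a : c.Aut) {z : c.Mu} (hz : a.σ z.val = z.val) (P : c.Pt) :
    a.pt (z • P) = z • a.pt P := by
  by_cases h : P.IsInf
  · exact Pt.ext_inf (by simpa using h) (by simpa using h) (by simp [hz])
  · exact Pt.ext_aff (by simpa using h) (by simpa using h) (by simp) (by simp [hz])

omit [IsAlgClosed k] in
theorem Aut.oy_pt (a : c.Aut) (P : c.Pt) : (a.pt P).oy = P.oy := by
  by_cases h : P.IsInf
  · rw [oy_inf h, oy_inf (by simpa using h)]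
  · by_cases h' : P.IsRam
    · rw [oy_ram h', oy_ram (by simpa using h')]
    · rw [oy_unram h h', oy_unram (by simpa using h) (by simpa using h')]

theorem lc_y_pow_ram {P : c.Pt} (hP : P.IsRam) :
    P.lc 1 c.y ^ c.r = (derivative c.F).eval P.x0 := by
  have h1 := Pt.lc_pow (P := P) Pt.y_mem c.r
  rw [oy_ram hP, y_pow] at h1
  obtain ⟨G, hG⟩ := dvd_iff_isRoot.2 hP.eval
  have h2 : c.pol (X - C P.x0) ∈ P.V (c.r * 1) ∧ P.lc (c.r * 1) (c.pol (X - C P.x0)) = 1 := by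
    have e : P.iota (c.pol (X - C P.x0)) = HahnSeries.single (c.r * 1 : ℤ) 1 := by
      rw [Pt.iota_pol, xs_aff hP.not_inf, hP.e_eq]
      simp [eval₂_sub]
    refine ⟨?_, ?_⟩
    · change Ge _ _
      rw [e]
      exact ge_single _ _
    · rw [Pt.lc_def, e, HahnSeries.coeff_single_same]
  rw [← h1]
  conv_lhs => rw [hG, map_mul, Pt.lc_mul' h2.1 (Pt.pol_mem hP.not_inf G) (add_zero _).symm, h2.2,
    Pt.lc_pol hP.not_inf]
  conv_rhs => rw [hG]
  simp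

theorem Aut.exists_tw (a : c.Aut) (P : c.Pt) :
    ∃ ξ, Tw P (a.pt P) a.sig (a.σ : k →+* k) ξ := by
  have hy : a.sig c.y ∈ (a.pt P).V P.oy := by
    rw [a.sig_y, ← a.oy_pt P]
    exact Pt.y_mem
  by_cases hP : P.IsRam
  · have hP' : (a.pt P).IsRam := by simpa using hP
    have h1 : a.σ (P.lc 1 c.y) ≠ 0 := by
      rw [_root_.map_ne_zero, ← oy_ram hP]
      exact Pt.lc_y_ne
    obtain ⟨z, hz⟩ := Mu.exists_mul_eq (c := c) (b := (a.pt P).lc 1 c.y) h1 (by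
      rw [← map_pow, lc_y_pow_ram hP, lc_y_pow_ram hP', a.x0_pt]
      conv_rhs => rw [← a.hF, derivative_map]
      exact (eval_map_apply (a.σ : k →+* k) _).symm)
    refine ⟨z.val, tw_of z.val_ne (fun b => by simp) (by simp) ?_ (by simp [a.hF]) a.hF hy ?_⟩
    · rw [xs_aff hP.not_inf, xs_aff hP'.not_inf, map_add, twist_C, twist_single, hP.e_eq,
        hP'.e_eq, zpow_natCast, z.val_pow_r]
      simp
    · rw [a.sig_y, oy_ram hP, zpow_one, ← hz]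
      rfl
  · refine ⟨1, tw_of one_ne_zero (fun b => by simp) (by simp) ?_ (by simp [a.hF]) a.hF hy ?_⟩
    · by_cases h : P.IsInf
      · rw [xs_inf h, xs_inf (by simpa using h), twist_single]
        simp
      · rw [xs_aff h, xs_aff (by simpa using h), map_add, twist_C, twist_single]
        simp
    · rw [a.sig_y, Pt.lc_y_unram hP, ← a.oy_pt P, Pt.lc_y_unram (by simpa using hP)]
      simp

theorem Aut.ord_sig (a : c.Aut) (P : c.Pt) (s : c.K) : (a.pt P).ord (a.sig s) = P.ord s := by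
  obtain ⟨ξ, h⟩ := a.exists_tw P
  exact h.ord s

theorem Aut.sig_mem_iff (a : c.Aut) (P : c.Pt) {m : ℤ} {s : c.K} :
    a.sig s ∈ (a.pt P).V m ↔ s ∈ P.V m := by
  obtain ⟨ξ, h⟩ := a.exists_tw P
  exact h.mem_V

theorem Aut.lc_zero_sig (a : c.Aut) (P : c.Pt) (s : c.K) :
    (a.pt P).lc 0 (a.sig s) = a.σ (P.lc 0 s) := by
  obtain ⟨ξ, h⟩ := a.exists_tw P
  simpa using h.2 s 0

end Cv

end Vale.Agent.P319
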