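import Vale.Agent.P319.Cv.Defs2
import Vale.Agent.P319.Cv.Places

/-!
P319: contents of forms (Gauss lemma and examples).
-/

open Polynomial

namespace Vale.Agent.P319

namespace Cv

variable {k : Type} [Field k] [IsAlgClosed k] {C : Cv k}

namespace ContAux

theorem finite_fibre (x : k) : {P : C.Pt | ¬ P.IsInf ∧ P.x0 = x}.Finite := by
  obtain ⟨Q, hQ, hx⟩ := exists_aff C x
  refine (Set.finite_range fun z : C.Mu => z • Q).subset fun P hP => ?_
  exact exists_smul_aff hQ hP.1 (hx.trans hP.2.symm)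

theorem finite_inf : {P : C.Pt | P.IsInf}.Finite := by
  obtain ⟨Q, hQ⟩ := exists_inf C
  exact (Set.finite_range fun z : C.Mu => z • Q).subset fun P hP => exists_smul_inf hQ hP

theorem finite_neg {s : C.K} (hs : s ≠ 0) : {P : C.Pt | P.ord s < 0}.Finite := by
  classical
  obtain ⟨u, G, hu, -, h⟩ := exists_denom s
  refine (finite_inf.union (u.roots.toFinset.finite_toSet.biUnion
    fun x _ => finite_fibre (C := C) x)).subset fun P hP => ?_
  by_cases h1 : P.IsInf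
  · exact Or.inl h1
  refine Or.inr (Set.mem_biUnion (x := P.x0) ?_ ⟨h1, rfl⟩)
  rw [Finset.mem_coe, Multiset.mem_toFinset, mem_roots hu, IsRoot.def]
  by_contra h2
  have h3 := Pt.ev_mem h1 G
  rw [h, Pt.mem_V_iff_le (mul_ne_zero (C.pol_ne hu) hs), Pt.ord_mul (C.pol_ne hu) hs,
    Pt.ord_pol_of_eval h1 h2, zero_add] at h3
  exact absurd hP (not_lt.2 h3)

theorem div_apply {s : C.K} (hs : s ≠ 0) (P : C.Pt) : C.div s P = P.ord s := by
  have h : (Function.support fun P : C.Pt => P.ord s).Finite := by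
    refine ((finite_neg hs).union (finite_neg (inv_ne_zero hs))).subset fun P hP => ?_
    rcases lt_or_gt_of_ne (show P.ord s ≠ 0 from hP) with h | h
    · exact Or.inl h
    · refine Or.inr ?_
      change P.ord s⁻¹ < 0
      rw [Pt.ord_inv]
      omega
  unfold div
  rw [dif_pos h]
  rfl

open Classical in
theorem H_apply (P : C.Pt) : C.H P = if P.IsInf then 1 else 0 := by
  have h : (Function.support fun P : C.Pt => if P.IsInf then (1 : ℤ) else 0).Finite :=
    finite_inf.subset fun P hP => by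
      by_contra h
      exact hP (if_neg h)
  unfold H
  rw [dif_pos h]
  rfl

theorem H_inf {P : C.Pt} (h : P.IsInf) : C.H P = 1 := by rw [H_apply, if_pos h]

theorem H_aff {P : C.Pt} (h : ¬ P.IsInf) : C.H P = 0 := by rw [H_apply, if_neg h]

omit [IsAlgClosed k] in
theorem tD_apply (z : C.Mu) (D : C.Div) (P : C.Pt) : C.tD z D P = D (z • P) := by
  change D ((MulAction.toPerm z⁻¹).symm P) = _
  rw [MulAction.toPerm_symm_apply, inv_inv]

theorem exists_tw {σ : k ≃+* k} (hσ : C.Fix σ) (P : C.Pt) :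
    ∃ ξ, Tw P (hσ.pt P) hσ.fn (σ : k →+* k) ξ := by
  have h1 : hσ.fn = (⟨σ, hσ.mapF⟩ : C.Aut).sig :=
    hom_ext (fun p => by rw [hσ.fn_pol, Aut.sig_pol]) (by rw [hσ.fn_y, Aut.sig_y])
  have h2 : hσ.pt P = (⟨σ, hσ.mapF⟩ : C.Aut).pt P := by cases P <;> rfl
  rw [h1, h2]
  exact Aut.exists_tw _ P

/-- transport of a content along a map which is a twist at every place -/
theorem cont_map {B : C.K[X]} {D D' : C.Div} (h : C.Cont B D) {φ : C.K →+* C.K} {σ : k →+* k}
    (hφ : ∀ P' : C.Pt, ∃ P a, Tw P P' φ σ a ∧ D' P' = D P) : C.Cont (B.map φ) D' := by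
  refine ⟨fun j => C.mem_L.2 fun P' => ?_, fun P' => ?_⟩
  · obtain ⟨P, a, ht, hD⟩ := hφ P'
    rw [coeff_map, ht.mem_V, hD]
    exact C.mem_L.1 (h.1 j) P
  · obtain ⟨P, a, ht, hD⟩ := hφ P'
    obtain ⟨j, hj⟩ := h.2 P
    refine ⟨j, ?_⟩
    rw [coeff_map, ht.2, hD]
    exact mul_ne_zero (zpow_ne_zero _ ht.1) ((_root_.map_ne_zero σ).2 hj)

/-- forms with three coefficients -/
theorem cont3 {s0 s1 s2 : C.K} {D : C.Div}
    (h : ∀ P : C.Pt, s0 ∈ P.V (-D P) ∧ s1 ∈ P.V (-D P) ∧ s2 ∈ P.V (-D P) ∧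
      (P.lc (-D P) s0 ≠ 0 ∨ P.lc (-D P) s1 ≠ 0 ∨ P.lc (-D P) s2 ≠ 0)) :
    C.Cont (Polynomial.C s0 + X * Polynomial.C s1 + X ^ 2 * Polynomial.C s2) D := by
  have e0 : (Polynomial.C s0 + X * Polynomial.C s1 + X ^ 2 * Polynomial.C s2).coeff 0 = s0 := by
    simp [coeff_X_pow]
  have e1 : (Polynomial.C s0 + X * Polynomial.C s1 + X ^ 2 * Polynomial.C s2).coeff 1 = s1 := by
    simp [coeff_X_pow, coeff_C]
  have e2 : (Polynomial.C s0 + X * Polynomial.C s1 + X ^ 2 * Polynomial.C s2).coeff 2 = s2 := by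
    simp [coeff_X_pow]
  have e3 : ∀ j, (Polynomial.C s0 + X * Polynomial.C s1 + X ^ 2 * Polynomial.C s2).coeff (j + 3)
      = 0 := fun j => by
    simp
  refine ⟨fun j => C.mem_L.2 fun P => ?_, fun P => ?_⟩
  · match j with
    | 0 => rw [e0]; exact (h P).1
    | 1 => rw [e1]; exact (h P).2.1
    | 2 => rw [e2]; exact (h P).2.2.1
    | j + 3 => rw [e3]; exact zero_mem _
  · rcases (h P).2.2.2 with h | h | h
    · exact ⟨0, by rwa [e0]⟩
    · exact ⟨1, by rwa [e1]⟩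
    · exact ⟨2, by rwa [e2]⟩

end ContAux

open ContAux

theorem Cont.mul {B B' : C.K[X]} {X X' : C.Div} (h : C.Cont B X) (h' : C.Cont B' X') :
    C.Cont (B * B') (X + X') := by
  classical
  have hm : ∀ (P : C.Pt) i, B.coeff i ∈ P.V (-X P) := fun P i => C.mem_L.1 (h.1 i) P
  have hm' : ∀ (P : C.Pt) i, B'.coeff i ∈ P.V (-X' P) := fun P i => C.mem_L.1 (h'.1 i) P
  refine ⟨fun j => C.mem_L.2 fun P => ?_, fun P => ?_⟩
  · rw [coeff_mul]
    refine Submodule.sum_mem _ fun p _ => Pt.mul_mem' (hm P _) (hm' P _) (le_of_eq ?_)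
    rw [Finsupp.add_apply, neg_add]
  · refine ⟨Nat.find (h.2 P) + Nat.find (h'.2 P), ?_⟩
    rw [coeff_mul, map_sum, Finset.sum_eq_single (Nat.find (h.2 P), Nat.find (h'.2 P))]
    · rw [Pt.lc_mul' (hm P _) (hm' P _) (by rw [Finsupp.add_apply, neg_add])]
      exact mul_ne_zero (Nat.find_spec (h.2 P)) (Nat.find_spec (h'.2 P))
    · intro p hp hne
      rw [Pt.lc_mul' (hm P _) (hm' P _) (by rw [Finsupp.add_apply, neg_add])]
      rw [Finset.HasAntidiagonal.mem_antidiagonal] at hp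
      by_cases h1 : p.1 < Nat.find (h.2 P)
      · rw [not_not.1 (Nat.find_min (h.2 P) h1), zero_mul]
      · have h2 : p.2 < Nat.find (h'.2 P) := by
          by_contra h2
          exact hne (Prod.ext (by simp only; omega) (by simp only; omega))
        rw [not_not.1 (Nat.find_min (h'.2 P) h2), mul_zero]
    · intro hp
      exact (hp (Finset.HasAntidiagonal.mem_antidiagonal.2 rfl)).elim

theorem cont_C {s : C.K} (hs : s ≠ 0) : C.Cont (Polynomial.C s) (-C.div s) := by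
  refine ⟨fun j => C.mem_L.2 fun P => ?_, fun P => ⟨0, ?_⟩⟩
  · rw [coeff_C]
    split_ifs
    · rw [Finsupp.neg_apply, neg_neg, div_apply hs]
      exact Pt.mem_V_ord s
    · exact zero_mem _
  · rw [coeff_C_zero, Finsupp.neg_apply, neg_neg, div_apply hs]
    exact Pt.lc_ord_ne hs

theorem cont_one : C.Cont 1 0 := by
  refine ⟨fun j => C.mem_L.2 fun P => ?_, fun P => ⟨0, ?_⟩⟩
  · rw [coeff_one]
    split_ifs
    · exact Pt.one_mem
    · exact zero_mem _
  · rw [coeff_one_zero, Finsupp.zero_apply, neg_zero, Pt.lc_one]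
    exact one_ne_zero

theorem Cont.pow {B : C.K[X]} {X : C.Div} (h : C.Cont B X) (m : ℕ) :
    C.Cont (B ^ m) (m • X) := by
  induction m with
  | zero => rw [pow_zero, zero_smul]; exact cont_one
  | succ m ih => rw [pow_succ, succ_nsmul]; exact ih.mul h

theorem Cont.prod {ι : Type} (s : Finset ι) {B : ι → C.K[X]} {X : ι → C.Div}
    (h : ∀ i ∈ s, C.Cont (B i) (X i)) : C.Cont (∏ i ∈ s, B i) (∑ i ∈ s, X i) := by
  classical
  induction s using Finset.induction_on with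
  | empty => rw [Finset.prod_empty, Finset.sum_empty]; exact cont_one
  | insert a s ha ih =>
    rw [Finset.prod_insert ha, Finset.sum_insert ha]
    exact (h a (Finset.mem_insert_self _ _)).mul
      (ih fun i hi => h i (Finset.mem_insert_of_mem hi))

theorem Cont.tau {B : C.K[X]} {X : C.Div} (h : C.Cont B X) (z : C.Mu) :
    C.Cont (B.map (C.tau z : C.K →+* C.K)) (C.tD z X) :=
  cont_map h fun P => (exists_tw_tau z P).elim fun a ha => ⟨z • P, a, ha, tD_apply z X P⟩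

theorem Cont.fn {B : C.K[X]} {X : C.Div} (h : C.Cont B X) {σ : k ≃+* k} (hσ : C.Fix σ) :
    C.Cont (B.map hσ.fn) (hσ.dv X) :=
  cont_map h fun P' => by
    obtain ⟨P, rfl⟩ := hσ.perm.surjective P'
    obtain ⟨a, ha⟩ := exists_tw hσ P
    exact ⟨P, a, ha, hσ.dv_pt X P⟩

theorem Cont.unique {B : C.K[X]} {X X' : C.Div} (h : C.Cont B X) (h' : C.Cont B X') :
    X = X' := by
  have key : ∀ {Y Y' : C.Div}, C.Cont B Y → C.Cont B Y' → ∀ P, Y P ≤ Y' P := by
    intro Y Y' g g' P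
    obtain ⟨j, hj⟩ := g.2 P
    by_contra hlt
    exact hj (Pt.lc_eq_zero (C.mem_L.1 (g'.1 j) P) (by omega))
  exact Finsupp.ext fun P => le_antisymm (key h h' P) (key h' h P)

theorem Cont.mem {B : C.K[X]} {X : C.Div} (h : C.Cont B X) (s : C.K) (E : C.Div) :
    (∀ j, s * B.coeff j ∈ C.L E) ↔ s ∈ C.L (E - X) := by
  constructor
  · intro g
    refine C.mem_L.2 fun P => ?_
    obtain ⟨j, hj⟩ := h.2 P
    refine Pt.mem_V_of_mul' (Pt.ne_zero_of_lc hj) (C.mem_L.1 (g j) P) (le_of_eq ?_)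
    rw [Pt.ord_eq_of_lc (C.mem_L.1 (h.1 j) P) hj, Finsupp.sub_apply]
    ring
  · intro g j
    refine C.mem_L.2 fun P => Pt.mul_mem' (C.mem_L.1 g P) (C.mem_L.1 (h.1 j) P) (le_of_eq ?_)
    rw [Finsupp.sub_apply]
    ring

/-- a form whose coefficients span a base point free space -/
theorem cont_of_span {B : C.K[X]} {X : C.Div} (h1 : ∀ j, B.coeff j ∈ C.L X)
    (h2 : C.L X ≤ Submodule.span k (Set.range B.coeff))
    (h3 : ∀ P : C.Pt, ∃ s ∈ C.L X, P.lc (-X P) s ≠ 0) : C.Cont B X := by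
  refine ⟨h1, fun P => ?_⟩
  obtain ⟨s, hs, h4⟩ := h3 P
  by_contra h
  push Not at h
  have h5 : Submodule.span k (Set.range B.coeff) ≤ LinearMap.ker (P.lc (-X P)) := by
    rw [Submodule.span_le]
    rintro _ ⟨j, rfl⟩
    exact h j
  exact h4 (h5 (h2 hs))

theorem cont_pad (d : ℕ) :
    C.Cont ((1 + X * Polynomial.C (Polynomial.C (X ^ d)) : k[X][X][X]).map C.ev)
      ((d : ℤ) • C.H) := by
  have e : (1 + X * Polynomial.C (Polynomial.C (X ^ d)) : k[X][X][X]).map C.ev =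
      Polynomial.C 1 + X * Polynomial.C (C.pol (X ^ d)) + X ^ 2 * Polynomial.C 0 := by
    rw [Polynomial.map_add, Polynomial.map_one, Polynomial.map_mul, map_X, map_C, ev_C, C_1, C_0,
      mul_zero, add_zero]
  rw [e]
  refine cont3 fun P => ?_
  rw [Finsupp.smul_apply, smul_eq_mul]
  by_cases hP : P.IsInf
  · rw [H_inf hP, mul_one]
    refine ⟨Pt.mem_V_of_le Pt.one_mem (by omega), Pt.pol_mem_inf hP (natDegree_X_pow d).le,
      zero_mem _, Or.inr (Or.inl ?_)⟩
    rw [Pt.lc_pol_inf hP, coeff_X_pow_self]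
    exact one_ne_zero
  · rw [H_aff hP, mul_zero, neg_zero]
    refine ⟨Pt.one_mem, Pt.pol_mem hP _, zero_mem _, Or.inl ?_⟩
    rw [Pt.lc_one]
    exact one_ne_zero

theorem cont_Pone (hF : C.F.Monic) :
    C.Cont ((Polynomial.C (X - Polynomial.C (X ^ C.nu)) +
        X * Polynomial.C (Polynomial.C (X ^ (C.nu - 1))) + X ^ 2 : k[X][X][X]).map C.ev)
      ((C.nu : ℤ) • C.H - Finsupp.single (C.Pone hF) 1) := by
  classical
  have e : (Polynomial.C (X - Polynomial.C (X ^ C.nu)) +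
        X * Polynomial.C (Polynomial.C (X ^ (C.nu - 1))) + X ^ 2 : k[X][X][X]).map C.ev =
      Polynomial.C (C.y - C.pol (X ^ C.nu)) + X * Polynomial.C (C.pol (X ^ (C.nu - 1))) +
        X ^ 2 * Polynomial.C 1 := by
    rw [Polynomial.map_add, Polynomial.map_add, Polynomial.map_mul, Polynomial.map_pow, map_X,
      map_C, map_C, map_sub, ev_C, ev_C, ev_X, C_1, mul_one]
  have hnu := C.hnu
  rw [e]
  refine cont3 fun P => ?_
  rw [Finsupp.sub_apply, Finsupp.smul_apply, smul_eq_mul, Finsupp.single_apply]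
  by_cases hP : P.IsInf
  · have h0 : C.y - C.pol (X ^ C.nu) ∈ P.V (-(C.nu : ℤ)) :=
      sub_mem (oy_inf hP ▸ Pt.y_mem) (Pt.pol_mem_inf hP (natDegree_X_pow _).le)
    have h1 : P.lc (-(C.nu : ℤ)) (C.y - C.pol (X ^ C.nu)) = P.y0 - 1 := by
      rw [map_sub, Pt.lc_y_inf hP, Pt.lc_pol_inf hP, coeff_X_pow_self]
    have h2 : C.pol (X ^ (C.nu - 1)) ∈ P.V (-((C.nu - 1 : ℕ) : ℤ)) :=
      Pt.pol_mem_inf hP (natDegree_X_pow _).le
    rw [H_inf hP, mul_one]
    split_ifs with hQ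
    · have h3 : -((C.nu : ℤ) - 1) = -((C.nu - 1 : ℕ) : ℤ) := by omega
      refine ⟨?_, h3 ▸ h2, Pt.mem_V_of_le Pt.one_mem (by omega), Or.inr (Or.inl ?_)⟩
      · rw [show -((C.nu : ℤ) - 1) = -(C.nu : ℤ) + 1 by ring, Pt.mem_V_succ, h1, ← hQ]
        exact ⟨hQ ▸ h0, sub_self _⟩
      · rw [h3, Pt.lc_pol_inf hP, coeff_X_pow_self]
        exact one_ne_zero
    · rw [sub_zero]
      refine ⟨h0, Pt.mem_V_of_le h2 (by omega), Pt.mem_V_of_le Pt.one_mem (by omega),
        Or.inl ?_⟩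
      rw [h1, sub_ne_zero]
      exact fun h => hQ (Pt.ext_inf (P := C.Pone hF) trivial hP h.symm)
  · have hQ : C.Pone hF ≠ P := fun h => hP (h ▸ trivial)
    rw [H_aff hP, if_neg hQ, mul_zero, sub_zero, neg_zero]
    refine ⟨sub_mem (Pt.y_mem_zero hP) (Pt.pol_mem hP _), Pt.pol_mem hP _, Pt.one_mem,
      Or.inr (Or.inr ?_)⟩
    rw [Pt.lc_one]
    exact one_ne_zero

theorem cont_ram {a : k} (ha : C.F.eval a = 0) :
    C.Cont ((Polynomial.C X + X * Polynomial.C (Polynomial.C ((X - Polynomial.C a) ^ C.nu)) +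
        X ^ 2 * Polynomial.C (Polynomial.C (X - Polynomial.C a)) : k[X][X][X]).map C.ev)
      ((C.nu : ℤ) • C.H - Finsupp.single (ram a ha) 1) := by
  classical
  have e : (Polynomial.C X + X * Polynomial.C (Polynomial.C ((X - Polynomial.C a) ^ C.nu)) +
        X ^ 2 * Polynomial.C (Polynomial.C (X - Polynomial.C a)) : k[X][X][X]).map C.ev =
      Polynomial.C C.y + X * Polynomial.C (C.pol ((X - Polynomial.C a) ^ C.nu)) +
        X ^ 2 * Polynomial.C (C.pol (X - Polynomial.C a)) := by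
    rw [Polynomial.map_add, Polynomial.map_add, Polynomial.map_mul, Polynomial.map_mul,
      Polynomial.map_pow, map_X, map_C, map_C, map_C, ev_C, ev_C, ev_X]
  have hnu := C.hnu
  rw [e]
  refine cont3 fun P => ?_
  rw [Finsupp.sub_apply, Finsupp.smul_apply, smul_eq_mul, Finsupp.single_apply]
  by_cases hP : P.IsInf
  · have hQ : ram a ha ≠ P := fun h => not_isInf_ram a ha (h ▸ hP)
    rw [H_inf hP, if_neg hQ, mul_one, sub_zero]
    refine ⟨oy_inf hP ▸ Pt.y_mem, Pt.pol_mem_inf hP ?_, Pt.pol_mem_inf hP ?_,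
      Or.inl (oy_inf hP ▸ Pt.lc_y_ne)⟩
    · rw [natDegree_pow, natDegree_X_sub_C, mul_one]
    · rw [natDegree_X_sub_C]
      exact hnu
  · rw [H_aff hP, mul_zero]
    split_ifs with hQ
    · have hr : P.IsRam := hQ ▸ isRam_ram a ha
      have hx : P.x0 = a := hQ ▸ x0_ram a ha
      have he := P.e_pos
      rw [zero_sub, neg_neg]
      refine ⟨oy_ram hr ▸ Pt.y_mem, Pt.mem_V_of_le (Pt.pol_mem_e hP ?_) (by omega),
        Pt.mem_V_of_le (Pt.pol_mem_e hP ?_) (by omega), Or.inl (oy_ram hr ▸ Pt.lc_y_ne)⟩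
      · rw [eval_pow, eval_sub, eval_X, eval_C, hx, sub_self, zero_pow hnu.ne']
      · rw [eval_sub, eval_X, eval_C, hx, sub_self]
    · rw [sub_zero, neg_zero]
      refine ⟨Pt.y_mem_zero hP, Pt.pol_mem hP _, Pt.pol_mem hP _, Or.inr (Or.inr ?_)⟩
      rw [Pt.lc_pol hP, eval_sub, eval_X, eval_C, sub_ne_zero]
      exact fun h => hQ ((isRam_ram a ha).eq_of_x0 hP h.symm)

end Cv

end Vale.Agent.P319
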