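import Vale.Agent.P319.Cv.Places
import Vale.Agent.P319.Cv.Defs2

/-!
P319: membership in Riemann-Roch spaces by coordinates, the greatest common divisor of a form,
values at the ramified points.
-/

open Polynomial Finset

namespace Vale.Agent.P319

namespace Cv

variable {k : Type} [Field k] [IsAlgClosed k] {C : Cv k}

namespace Mem

omit [IsAlgClosed k] in
/-- the orbit of a point is finite -/
theorem finite_orbit (Q : C.Pt) : (Set.range fun z : C.Mu => z • Q).Finite := Set.finite_range _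

theorem finite_inf : {P : C.Pt | P.IsInf}.Finite := by
  obtain ⟨Q, hQ⟩ := exists_inf C
  exact (finite_orbit Q).subset fun P hP => exists_smul_inf hQ hP

theorem finite_fibre (x0 : k) : {P : C.Pt | ¬ P.IsInf ∧ P.x0 = x0}.Finite := by
  obtain ⟨Q, hQ, hx⟩ := exists_aff C x0
  exact (finite_orbit Q).subset fun P hP => exists_smul_aff hQ hP.1 (hx.trans hP.2.symm)

open Classical in
theorem H_apply (P : C.Pt) : C.H P = if P.IsInf then 1 else 0 := by
  have h : (Function.support fun P : C.Pt => if P.IsInf then (1 : ℤ) else 0).Finite :=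
    finite_inf.subset fun P hP => by
      by_contra h
      exact hP (if_neg h)
  rw [H, dif_pos h]
  rfl

theorem H_inf {P : C.Pt} (hP : P.IsInf) : C.H P = 1 := by rw [H_apply, if_pos hP]

theorem H_aff {P : C.Pt} (hP : ¬ P.IsInf) : C.H P = 0 := by rw [H_apply, if_neg hP]

theorem div_pol_apply {u : k[X]} (hu : u ≠ 0) (P : C.Pt) :
    C.div (C.pol u) P = P.ord (C.pol u) := by
  classical
  have h : (Function.support fun P : C.Pt => P.ord (C.pol u)).Finite := by
    refine (finite_inf.union ((u.roots.toFinset.finite_toSet).biUnion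
      fun x _ => finite_fibre (C := C) x)).subset fun P hP => ?_
    by_cases h1 : P.IsInf
    · exact Or.inl h1
    · refine Or.inr (Set.mem_biUnion (x := P.x0) ?_ ⟨h1, rfl⟩)
      rw [Finset.mem_coe, Multiset.mem_toFinset, mem_roots hu]
      by_contra h2
      exact hP (Pt.ord_pol_of_eval h1 h2)
  rw [div, dif_pos h]
  rfl

/-- a quotient of polynomials which is regular at all affine points is a polynomial -/
theorem dvd_of_mem {a v : k[X]} (hv : v ≠ 0)
    (h : ∀ P : C.Pt, ¬ P.IsInf → C.pol a / C.pol v ∈ P.V 0) : v ∣ a := by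
  classical
  rcases eq_or_ne a 0 with rfl | ha
  · exact dvd_zero _
  rw [IsAlgClosed.dvd_iff_roots_le_roots hv ha, Multiset.le_iff_count]
  intro x
  obtain ⟨P, hP, rfl⟩ := exists_aff C x
  have h1 := h P hP
  rw [Pt.mem_V_iff_le (div_ne_zero (C.pol_ne ha) (C.pol_ne hv)),
    Pt.ord_div (C.pol_ne ha) (C.pol_ne hv), Pt.ord_pol hP, Pt.ord_pol hP, ← mul_sub] at h1
  have h2 : (0 : ℤ) < P.e := by exact_mod_cast P.e_pos
  have h3 := (mul_nonneg_iff_of_pos_left h2).1 h1
  rw [count_roots, count_roots]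
  omega

/-- the components of a function inherit the orders along a fibre -/
theorem comp_mem {s : C.K} {P : C.Pt} {m : ℤ} (h : ∀ z : C.Mu, s ∈ (z • P).V m) {b : ℕ}
    (hb : b < C.r) : C.rat (C.co b s) * C.y ^ b ∈ P.V m := by
  rw [avg s hb]
  exact Submodule.sum_mem _ fun z _ => Submodule.smul_mem _ _ ((tau_mem_iff z P).2 (h z))

theorem co_mem {s : C.K} {P : C.Pt} {m : ℤ} (h : ∀ z : C.Mu, s ∈ (z • P).V m) {b : ℕ}
    (hb : b < C.r) : C.rat (C.co b s) ∈ P.V (m - b * P.oy) :=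
  Pt.mem_V_of_mul' (pow_ne_zero b C.y_ne) (comp_mem h hb) (by rw [Pt.ord_y_pow]; omega)

theorem co_mem_aff {s : C.K} {P : C.Pt} (hP : ¬ P.IsInf) (h : ∀ z : C.Mu, s ∈ (z • P).V 0)
    {b : ℕ} (hb : b < C.r) : C.rat (C.co b s) ∈ P.V 0 := by
  have h1 := co_mem h hb
  by_cases hr : P.IsRam
  · refine Pt.rat_mem_zero_of_ram hr h1 ?_
    rw [oy_ram hr]
    omega
  · rwa [oy_unram hP hr, mul_zero, sub_zero] at h1

omit [IsAlgClosed k] in
theorem rat_co_div (v : k[X]) (G : k[X][X]) {b : ℕ} (hb : b < C.r) :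
    C.rat (C.co b (C.ev G / C.pol v)) = C.pol ((G %ₘ C.eqO).coeff b) / C.pol v := by
  rw [div_eq_inv_mul, ← rat_pol, ← map_inv₀, co_rat_mul, ← ev_mod,
    co_ev (natDegree_mod_lt G) hb, map_mul, rat_pol, map_inv₀, rat_pol, div_eq_inv_mul]

omit [IsAlgClosed k] in
theorem ev_div_eq {v : k[X]} (hv : v ≠ 0) (G : k[X][X]) (q : ℕ → k[X])
    (hq : ∀ b < C.r, (G %ₘ C.eqO).coeff b = v * q b) :
    C.ev G / C.pol v = ∑ b ∈ range C.r, C.pol (q b) * C.y ^ b := by
  rw [← sum_co (C.ev G / C.pol v)]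
  refine Finset.sum_congr rfl fun b hb => ?_
  rw [rat_co_div v G (mem_range.1 hb), hq b (mem_range.1 hb), map_mul,
    mul_div_cancel_left₀ _ (C.pol_ne hv)]

end Mem

open Mem

theorem memO {v : k[X]} (hv : v ≠ 0) (G : k[X][X]) :
    (∀ P : C.Pt, ¬ P.IsInf → C.ev G / C.pol v ∈ P.V 0) ↔
      ∀ b < C.r, v ∣ (G %ₘ (X ^ C.r - Polynomial.C C.F)).coeff b := by
  constructor
  · intro h b hb
    refine dvd_of_mem (C := C) hv fun P hP => ?_
    have h1 := co_mem_aff hP (fun z => h (z • P) (by simpa using hP)) hb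
    rwa [rat_co_div v G hb] at h1
  · intro h P hP
    choose! q hq using h
    rw [ev_div_eq hv G q hq]
    exact Submodule.sum_mem _ fun b _ =>
      Pt.mul_mem_zero (Pt.pol_mem hP _) (Pt.pow_mem_zero (Pt.y_mem_zero hP) b)

theorem memL {v : k[X]} (hv : v ≠ 0) (m : ℤ) (G : k[X][X]) :
    C.ev G / C.pol v ∈ C.L (m • C.H) ↔ ∀ b < C.r, ∃ q : k[X],
      q.degree < ((m + 1 - (b * C.nu : ℕ)).toNat : ℕ) ∧
        (G %ₘ (X ^ C.r - Polynomial.C C.F)).coeff b = v * q := by
  rw [mem_L]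
  constructor
  · intro h b hb
    have h1 : ∀ P : C.Pt, ¬ P.IsInf → C.ev G / C.pol v ∈ P.V 0 := fun P hP => by
      simpa [H_aff hP] using h P
    obtain ⟨q, hq⟩ := (memO hv G).1 h1 b hb
    refine ⟨q, ?_, hq⟩
    rcases eq_or_ne q 0 with rfl | hq0
    · rw [degree_zero]
      exact WithBot.bot_lt_coe _
    obtain ⟨P, hP⟩ := exists_inf C
    have h2 : ∀ z : C.Mu, C.ev G / C.pol v ∈ (z • P).V (-m) := fun z => by
      simpa [H_inf ((isInf_smul z P).2 hP)] using h (z • P)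
    have h3 := co_mem h2 hb
    have hq' : (G %ₘ C.eqO).coeff b = v * q := hq
    rw [rat_co_div v G hb, hq', map_mul, mul_div_cancel_left₀ _ (C.pol_ne hv),
      Pt.mem_V_iff_le (C.pol_ne hq0), Pt.ord_pol_inf hP, oy_inf hP] at h3
    rw [degree_eq_natDegree hq0, Nat.cast_lt]
    push_cast
    have : (b : ℤ) * -(C.nu : ℤ) = -((b : ℤ) * C.nu) := by ring
    omega
  · intro h P
    choose! q hq using h
    rw [ev_div_eq hv G q fun b hb => (hq b hb).2]
    refine Submodule.sum_mem _ fun b hb => ?_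
    by_cases hP : P.IsInf
    · rcases eq_or_ne (q b) 0 with h0 | h0
      · rw [h0, map_zero, zero_mul]
        exact zero_mem _
      have h1 := (hq b (mem_range.1 hb)).1
      rw [degree_eq_natDegree h0, Nat.cast_lt] at h1
      refine Pt.mul_mem' (Pt.pol_mem_inf hP le_rfl) (Pt.y_pow_mem b) ?_
      rw [oy_inf hP, Finsupp.smul_apply, H_inf hP]
      push_cast at h1
      have : (b : ℤ) * -(C.nu : ℤ) = -((b : ℤ) * C.nu) := by ring
      simp only [smul_eq_mul, mul_one]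
      omega
    · simpa [H_aff hP] using
        Pt.mul_mem_zero (Pt.pol_mem hP (q b)) (Pt.pow_mem_zero (Pt.y_mem_zero hP) b)

/-- the greatest common divisor of the coefficients of a form with coefficients in `k[x]` -/
theorem cont_gcd {B : C.K[X]} {Z : C.Div} (hZ : 0 ≤ Z) {M : ℕ}
    (h : C.Cont B ((M : ℤ) • C.H - Z))
    (p : ℕ → k[X]) (hp : ∀ j, B.coeff j = C.pol (p j)) {u : k[X]}
    (hu : Ideal.span {u} = Ideal.span (Set.range p)) :
    u ≠ 0 ∧ ∃ d : ℕ, d ≤ M ∧ C.div (C.pol u) + (d : ℤ) • C.H = Z ∧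
      (∀ j, (p j / u).degree ≤ (M - d : ℕ)) ∧ ∃ j, (p j / u).coeff (M - d) ≠ 0 := by
  obtain ⟨h1, h2⟩ := h
  simp only [hp, mem_L] at h1 h2
  have hd : ∀ j, u ∣ p j := fun j => by
    rw [← Ideal.mem_span_singleton, hu]
    exact Ideal.subset_span ⟨j, rfl⟩
  obtain ⟨Q, hQ⟩ := exists_inf C
  have hne : ∀ {P : C.Pt} {m : ℤ} {j : ℕ}, P.lc m (C.pol (p j)) ≠ 0 → p j ≠ 0 := by
    intro P m j hj h0
    rw [h0, map_zero, map_zero] at hj
    exact hj rfl
  -- the points at infinity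
  have hinf : ∀ P : C.Pt, P.IsInf → (∀ j, p j ≠ 0 → ((p j).natDegree : ℤ) ≤ M - Z P) ∧
      ∃ j, p j ≠ 0 ∧ ((p j).natDegree : ℤ) = M - Z P := by
    intro P hP
    have e : -(((M : ℤ) • C.H - Z) P) = -(M - Z P) := by simp [H_inf hP]
    refine ⟨fun j hj => ?_, ?_⟩
    · have := h1 j P
      rwa [e, Pt.pol_mem_inf_iff hP hj] at this
    · obtain ⟨j, hj⟩ := h2 P
      refine ⟨j, hne hj, ?_⟩
      have := Pt.ord_eq_of_lc (h1 j P) hj
      rw [e, Pt.ord_pol_inf hP] at this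
      omega
  obtain ⟨hle, j0, hj0, hj1⟩ := hinf Q hQ
  have hu0 : u ≠ 0 := ne_zero_of_dvd_ne_zero hj0 (hd j0)
  have hdeg : ∀ j, p j ≠ 0 → p j / u ≠ 0 ∧ (p j).natDegree = u.natDegree + (p j / u).natDegree := by
    intro j hj
    have e : u * (p j / u) = p j := EuclideanDomain.mul_div_cancel' hu0 (hd j)
    have h0 : p j / u ≠ 0 := right_ne_zero_of_mul (e.symm ▸ hj)
    exact ⟨h0, by rw [← natDegree_mul hu0 h0, e]⟩
  have hZQ : 0 ≤ Z Q := hZ Q
  have hk := (hdeg j0 hj0).2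
  refine ⟨hu0, M - (p j0 / u).natDegree, Nat.sub_le _ _, ?_, fun j => ?_, j0, ?_⟩
  · ext P
    rw [Finsupp.add_apply, div_pol_apply hu0, Finsupp.smul_apply]
    by_cases hP : P.IsInf
    · obtain ⟨hle', j1, hj2, hj3⟩ := hinf P hP
      have k1 := hle j1 hj2
      have k2 := hle' j0 hj0
      rw [Pt.ord_pol_inf hP, H_inf hP, smul_eq_mul]
      omega
    · have e : -(((M : ℤ) • C.H - Z) P) = Z P := by simp [H_aff hP]
      rw [H_aff hP, smul_zero, add_zero]
      apply le_antisymm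
      · obtain ⟨j, hj⟩ := h2 P
        have k1 := Pt.ord_eq_of_lc (h1 j P) hj
        obtain ⟨w, hw⟩ := hd j
        have hw0 : w ≠ 0 := right_ne_zero_of_mul (hw ▸ hne hj)
        have k2 := (Pt.mem_V_iff_le (C.pol_ne hw0)).1 (Pt.pol_mem hP w)
        rw [e, hw, map_mul, Pt.ord_mul (C.pol_ne hu0) (C.pol_ne hw0)] at k1
        omega
      · rw [← Pt.mem_V_iff_le (C.pol_ne hu0)]
        have k1 : u ∈ Ideal.span (Set.range p) := hu ▸ Ideal.mem_span_singleton_self u
        refine Submodule.span_induction (p := fun w _ => C.pol w ∈ P.V (Z P)) ?_ ?_ ?_ ?_ k1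
        · rintro _ ⟨j, rfl⟩
          exact e ▸ h1 j P
        · rw [map_zero]
          exact zero_mem _
        · intro a b _ _ ha hb
          rw [map_add]
          exact add_mem ha hb
        · intro a b _ hb
          rw [smul_eq_mul, map_mul]
          exact Pt.mul_mem_left (Pt.pol_mem hP a) hb
  · rcases eq_or_ne (p j) 0 with h0 | h0
    · rw [h0, EuclideanDomain.zero_div, degree_zero]
      exact bot_le
    · have k1 := hle j h0
      have k2 := (hdeg j h0).2
      refine degree_le_natDegree.trans ?_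
      rw [Nat.cast_le]
      omega
  · have e : M - (M - (p j0 / u).natDegree) = (p j0 / u).natDegree := by omega
    rw [e]
    exact leadingCoeff_ne_zero.2 (hdeg j0 hj0).1

/-- the value at a ramified point -/
theorem lc_ram_div {G : k[X][X]} (hG : G.natDegree < C.r) {U : k[X]} {E : ℕ}
    (hU : ∀ a, C.F.eval a = 0 → U.eval a ≠ 0)
    (h : ∀ P : C.Pt, P.IsRam → C.ev G / C.pol (C.F ^ E * U) ∈ P.V 0) :
    C.F ^ E ∣ G.coeff 0 ∧ ∀ a (ha : C.F.eval a = 0),
      (ram a ha).lc 0 (C.ev G / C.pol (C.F ^ E * U)) =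
        (G.coeff 0 / C.F ^ E).eval a / U.eval a := by
  have hF : C.F ^ E ≠ 0 := pow_ne_zero _ C.F_ne
  have h1 : ∀ P : C.Pt, ¬ P.IsInf → C.ev G / C.pol (C.F ^ E) ∈ P.V 0 := by
    intro P hP
    by_cases hr : P.IsRam
    · have hU0 : U ≠ 0 := fun e => hU _ hr.eval (by rw [e, eval_zero])
      have := Pt.mul_mem_zero (h P hr) (Pt.pol_mem hP U)
      rwa [map_mul, ← div_div, div_mul_cancel₀ _ (C.pol_ne hU0)] at this
    · have k1 : P.lc 0 (C.pol (C.F ^ E)) ≠ 0 := by
        rw [Pt.lc_pol hP, eval_pow]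
        exact pow_ne_zero _ fun e => hr ((Pt.isRam_iff_eval hP).2 e)
      simpa using (Pt.div_mem_lc (Pt.ev_mem hP G) (Pt.pol_mem hP _) k1).1
  have h2 : G %ₘ (X ^ C.r - Polynomial.C C.F) = G := by
    refine (modByMonic_eq_self_iff (eqO_monic (c := C))).2 ?_
    rw [degree_eq_natDegree (eqO_monic (c := C)).ne_zero, eqO_natDegree]
    exact degree_le_natDegree.trans_lt (by exact_mod_cast hG)
  have h3 := (memO hF G).1 h1
  rw [h2] at h3
  have h4 : Polynomial.C (C.F ^ E) ∣ G := by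
    rw [C_dvd_iff_dvd_coeff]
    intro b
    rcases lt_or_ge b C.r with hb | hb
    · exact h3 b hb
    · rw [coeff_eq_zero_of_natDegree_lt (hG.trans_le hb)]
      exact dvd_zero _
  refine ⟨h3 0 C.r_pos, fun a ha => ?_⟩
  obtain ⟨G', rfl⟩ := h4
  have k1 : (ram a ha).lc 0 (C.pol U) ≠ 0 := by
    rw [Pt.lc_pol (not_isInf_ram a ha)]
    exact hU a ha
  have k2 := (Pt.div_mem_lc (Pt.ev_mem (not_isInf_ram a ha) G')
    (Pt.pol_mem (not_isInf_ram a ha) U) k1).2
  rw [sub_zero, Pt.lc_ev_ram (isRam_ram a ha), Pt.lc_pol (not_isInf_ram a ha), x0_ram] at k2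
  rw [map_mul, map_mul, ev_C, mul_div_mul_left _ _ (C.pol_ne hF), k2, coeff_C_mul,
    mul_div_cancel_left₀ _ hF]

end Cv

end Vale.Agent.P319
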