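import Vale.Agent.P319.Cv.H90
import Vale.Agent.P319.Alg.Frob

/-!
P319: the chain of divisions, seen in the group of divisor classes modulo `H`.
-/

open Polynomial

namespace Vale.Agent.P319

namespace Cv

variable {k : Type} [Field k] {C : Cv k}

namespace Chain

theorem pt_surj {σ : k ≃+* k} (h : C.Fix σ) (P : C.Pt) : ∃ Q, h.pt Q = P := h.perm.surjective P

theorem pt_Pone {σ : k ≃+* k} (h : C.Fix σ) (hF : C.F.Monic) : h.pt (C.Pone hF) = C.Pone hF := by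
  simp only [Pone, Fix.pt, map_one]

theorem pt_pow_succ {σ : k ≃+* k} (h : C.Fix σ) (N : ℕ) (P : C.Pt) :
    (h.pow (N + 1)).pt P = (h.pow N).pt (h.pt P) := by
  cases P with
  | aff x0 y0 e => simp only [Fix.pt, pow_succ]; rfl
  | inf w e => simp only [Fix.pt, pow_succ]; rfl

theorem dv_pow_zero {σ : k ≃+* k} (h : C.Fix σ) (D : C.Div) : (h.pow 0).dv D = D := by
  ext P
  have : (h.pow 0).pt P = P := by cases P <;> rfl
  conv_lhs => rw [← this, Fix.dv_pt]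

theorem dv_pow_succ {σ : k ≃+* k} (h : C.Fix σ) (N : ℕ) (D : C.Div) :
    (h.pow (N + 1)).dv D = (h.pow N).dv (h.dv D) := by
  ext P
  obtain ⟨Q, rfl⟩ := pt_surj (h.pow (N + 1)) P
  rw [Fix.dv_pt, pt_pow_succ h, Fix.dv_pt, Fix.dv_pt]

theorem not_dvd (j : ℕ) : ¬ C.r ∣ 1 + j % (C.r - 1) := fun h => by
  have h1 := C.hr.two_le
  have h2 := Nat.mod_lt j (show 0 < C.r - 1 by omega)
  have h3 := Nat.le_of_dvd (by omega) h
  omega

/-- the coefficients `cf` are those of `(1 - T) ^ j` modulo `M` -/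
theorem cf_smul {Q : Type} [AddCommGroup Q] {M : ℕ} (hM : 0 < M) (j l : ℕ) {v : Q}
    (hv : M • v = 0) : cf M j l • v = ((-1 : ℤ) ^ l * j.choose l) • v := by
  have h1 : ((M - 1 : ℕ) : ℤ) ≡ -1 [ZMOD M] := by
    rw [Nat.cast_sub hM, Nat.cast_one]
    exact Int.ModEq.symm (Int.modEq_iff_dvd.2 ⟨1, by ring⟩)
  have h2 : ((cf M j l : ℕ) : ℤ) ≡ (-1) ^ l * j.choose l [ZMOD M] := by
    rw [cf, Int.natCast_mod, Nat.cast_mul, Nat.cast_pow, mul_comm ((-1 : ℤ) ^ l)]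
    exact (Int.mod_modEq _ _).trans ((h1.pow l).mul_left _)
  obtain ⟨c, hc⟩ := h2.symm.dvd
  rw [← natCast_zsmul, ← sub_eq_zero, ← sub_smul, hc, mul_comm, mul_smul, natCast_zsmul, hv,
    smul_zero]

theorem pi_pow_apply {Q : Type} [AddCommGroup Q] (t : Module.End ℤ Q) (j : ℕ) (w : Q) :
    ((1 - t) ^ j) w = ∑ l ∈ Finset.range (j + 1), ((-1 : ℤ) ^ l * j.choose l) • (t ^ l) w := by
  rw [sub_eq_neg_add, (Commute.one_right (-t)).add_pow, LinearMap.sum_apply]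
  refine Finset.sum_congr rfl fun l _ => ?_
  rw [one_pow, mul_one, Module.End.mul_apply, Module.End.natCast_apply, map_nsmul,
    ← neg_one_smul ℤ t, _root_.smul_pow, LinearMap.smul_apply, mul_comm, mul_smul, natCast_zsmul]

theorem prod_period {n : ℕ} (e : ℕ) :
    ∏ i ∈ Finset.range (e * n), ((1 : ℤ[X]) - X ^ (1 + i % n)) =
      (∏ a ∈ Finset.range n, ((1 : ℤ[X]) - X ^ (a + 1))) ^ e := by
  induction e with
  | zero => simp
  | succ e ih =>
    rw [add_mul, one_mul, Finset.prod_range_add, ih, pow_succ]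
    congr 1
    refine Finset.prod_congr rfl fun a ha => ?_
    rw [mul_comm e n, Nat.mul_add_mod, Nat.mod_eq_of_lt (Finset.mem_range.1 ha), add_comm]

variable [IsAlgClosed k]

variable (C) in
/-- the trivial divisors -/
def TS : AddSubgroup C.Div where
  carrier := {D | C.Triv D}
  zero_mem' := ⟨1, one_ne_zero, 0, by rw [div_one', zero_smul, add_zero]⟩
  add_mem' := by
    rintro _ _ ⟨s, hs, m, rfl⟩ ⟨t, ht, n, rfl⟩
    exact ⟨s * t, mul_ne_zero hs ht, m + n, by rw [div_mul hs ht, add_smul]; abel⟩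
  neg_mem' := by
    rintro _ ⟨s, hs, m, rfl⟩
    exact ⟨s⁻¹, inv_ne_zero hs, -m, by rw [div_inv, neg_smul, neg_add]⟩

theorem triv_tD {D : C.Div} (h : C.Triv D) (z : C.Mu) : C.Triv (C.tD z D) := by
  obtain ⟨s, hs, m, rfl⟩ := h
  exact ⟨C.tau z s, tau_ne z hs, m, by rw [map_add, map_zsmul, div_tau, tD_H]⟩

theorem triv_dv {D : C.Div} (h : C.Triv D) {σ : k ≃+* k} (hσ : C.Fix σ) : C.Triv (hσ.dv D) := by
  obtain ⟨s, hs, m, rfl⟩ := h
  exact ⟨hσ.fn s, (_root_.map_ne_zero hσ.fn).2 hs, m, by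
    rw [map_add, map_zsmul, hσ.div_fn, hσ.dv_H]⟩

variable (C) in
/-- divisor classes modulo `H` -/
abbrev Cl : Type := C.Div ⧸ TS C

/-- the class of a divisor -/
noncomputable def cl : C.Div →+ Cl C := QuotientAddGroup.mk' (TS C)

theorem cl_surj (x : Cl C) : ∃ D, cl D = x := QuotientAddGroup.mk'_surjective _ x

theorem cl_eq_zero {D : C.Div} : cl D = 0 ↔ C.Triv D := QuotientAddGroup.eq_zero_iff D

theorem cl_eq {D E : C.Div} : cl D = cl E ↔ C.Triv (D - E) := by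
  rw [← cl_eq_zero, map_sub, sub_eq_zero]

/-- the action of a deck transformation on classes -/
noncomputable def tQ (z : C.Mu) : Module.End ℤ (Cl C) :=
  (QuotientAddGroup.map (TS C) (TS C) (C.tD z) fun _ h => triv_tD h z).toIntLinearMap

/-- the action of a field automorphism on classes -/
noncomputable def fQ {σ : k ≃+* k} (h : C.Fix σ) : Module.End ℤ (Cl C) :=
  (QuotientAddGroup.map (TS C) (TS C) h.dv fun _ h' => triv_dv h' h).toIntLinearMap

theorem tQ_cl (z : C.Mu) (D : C.Div) : tQ z (cl D) = cl (C.tD z D) := rfl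

theorem fQ_cl {σ : k ≃+* k} (h : C.Fix σ) (D : C.Div) : fQ h (cl D) = cl (h.dv D) := rfl

theorem tQ_pow_cl (z : C.Mu) (l : ℕ) (D : C.Div) : (tQ z ^ l) (cl D) = cl (C.tD (z ^ l) D) := by
  induction l with
  | zero => rw [pow_zero, pow_zero, tD_one, Module.End.one_apply]
  | succ l ih => rw [pow_succ', Module.End.mul_apply, ih, tQ_cl, tD_tD, pow_succ']

theorem fQ_pow_cl {σ : k ≃+* k} (h : C.Fix σ) (N : ℕ) (D : C.Div) :
    (fQ h ^ N) (cl D) = cl ((h.pow N).dv D) := by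
  induction N generalizing D with
  | zero => rw [dv_pow_zero h, pow_zero, Module.End.one_apply]
  | succ N ih => rw [pow_succ, Module.End.mul_apply, fQ_cl, ih, dv_pow_succ h]

theorem sum_tQ {z : C.Mu} (hz : IsPrimitiveRoot z.val C.r) :
    ∑ l ∈ Finset.range C.r, tQ z ^ l = 0 := by
  refine LinearMap.ext fun x => ?_
  obtain ⟨D, rfl⟩ := cl_surj x
  rw [LinearMap.sum_apply, LinearMap.zero_apply, ← cl_eq_zero.2 (triv_nD hz D), nD, sD, map_sum]
  exact Finset.sum_congr rfl fun l _ => tQ_pow_cl z l D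

theorem dvd_deg {D : C.Div} (h : C.Triv D) : (C.r : ℤ) ∣ C.deg D := by
  obtain ⟨s, -, m, rfl⟩ := h
  rw [map_add, deg_div, zero_add, map_zsmul, deg_H, smul_eq_mul]
  exact dvd_mul_left _ _

/-- the degree modulo `r` -/
noncomputable def degQ : Cl C →+ ZMod C.r :=
  QuotientAddGroup.lift (TS C) ((Int.castAddHom (ZMod C.r)).comp C.deg) fun _ h =>
    (ZMod.intCast_zmod_eq_zero_iff_dvd _ _).2 (dvd_deg h)

theorem degQ_cl (D : C.Div) : degQ (cl D) = (C.deg D : ZMod C.r) := rfl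

theorem cl_pis (z : C.Mu) (j : ℕ) (D : C.Div) : cl (C.pis z j D) =
    aeval (tQ z) (∏ i ∈ Finset.range j, ((1 : ℤ[X]) - X ^ (1 + i % (C.r - 1)))) (cl D) := by
  induction j generalizing D with
  | zero => simp [pis]
  | succ j ih =>
    rw [pis, ih, Finset.prod_range_succ, map_mul, Module.End.mul_apply, map_sub cl, ← tQ_pow_cl,
      map_sub (aeval (R := ℤ) (tQ z)), map_one, map_pow, aeval_X, LinearMap.sub_apply,
      Module.End.one_apply]

theorem lev_of_pis {z : C.Mu} (hz : IsPrimitiveRoot z.val C.r) {p0 : Cl C} {m : ℕ} (j : ℕ)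
    (D : C.Div) (h : Alg.Lev (tQ z) p0 m (cl (C.pis z j D))) :
    Alg.Lev (tQ z) p0 (m + j) (cl D) := by
  induction j generalizing D with
  | zero => exact h
  | succ j ih =>
    refine Alg.Lev.of_div C.hr (sum_tQ hz) (not_dvd j) (ih _ h).neg ?_
    rw [map_sub, tQ_pow_cl]
    abel

end Chain

open Chain

variable [IsAlgClosed k]

/-- the invariant of the chain of divisions -/
def Inv (hF : C.F.Monic) (z : C.Mu) (P : C.Pt) (j : ℕ) (D : C.Div) : Prop :=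
  C.Triv (C.pis z j D - (Finsupp.single (C.Pone hF) 1 - Finsupp.single P 1))

theorem inv_step {hF : C.F.Monic} {z : C.Mu} {P : C.Pt} {j : ℕ} {D D' : C.Div}
    (h : Inv hF z P j D) (h' : C.Triv (D - (D' - C.tD (z ^ (1 + j % (C.r - 1))) D'))) :
    Inv hF z P (j + 1) D' := by
  rw [Inv, ← cl_eq] at h ⊢
  rw [← cl_eq] at h'
  rw [← h, pis, cl_pis, cl_pis, h']

theorem inv_frob {hF : C.F.Monic} {z : C.Mu} (hz : IsPrimitiveRoot z.val C.r) {P : C.Pt}
    (hP : P.IsRam) {σ : k ≃+* k} (hσ : C.Fix σ) {e j : ℕ} (hj : j < e * (C.r - 1)) {D X : C.Div}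
    (h : Inv hF z P j D) (hX : C.Triv (D - (X - C.tD (z ^ (1 + j % (C.r - 1))) X))) :
    C.Triv ((hσ.pow (C.r ^ e)).dv X - X) := by
  have h1 := inv_step h hX
  rw [Inv, ← cl_eq, map_sub] at h1
  have h2 : Alg.Lev (tQ z) (cl (Finsupp.single (C.Pone hF) 1)) 1 (cl (C.pis z (j + 1) X)) := by
    rw [h1]
    refine (Alg.Lev.self 1).sub (Alg.Lev.of_fixed ?_)
    rw [tQ_cl, tD_single_ram z hP]
  rw [← cl_eq, ← fQ_pow_cl hσ]
  refine Alg.frob C.hr (sum_tQ hz) degQ (fun x => ?_) ?_ ?_ ?_ (fun x hx => ?_) e (by omega)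
    (lev_of_pis hz (j + 1) X h2)
  · obtain ⟨D, rfl⟩ := cl_surj x
    rw [tQ_cl, degQ_cl, degQ_cl, deg_tD]
  · rw [degQ_cl, deg, Finsupp.degree_single, Int.cast_one]
  · refine LinearMap.ext fun x => ?_
    obtain ⟨D, rfl⟩ := cl_surj x
    rw [Module.End.mul_apply, Module.End.mul_apply, tQ_cl, fQ_cl, fQ_cl, tQ_cl, hσ.dv_tD]
  · rw [fQ_cl, hσ.dv_single, pt_Pone]
  · obtain ⟨W, rfl⟩ := cl_surj x
    rw [tQ_cl, eq_comm, cl_eq] at hx
    obtain ⟨c, hc, h3⟩ := ker_pi hz hx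
    rw [cl_eq.2 h3, fQ_cl, hσ.dv_of_ram fun P hP => by_contra fun h4 => hP (hc P h4)]

theorem inv_end {hF : C.F.Monic} {z : C.Mu} (hz : IsPrimitiveRoot z.val C.r) {P : C.Pt} {e : ℕ}
    {D : C.Div} (h : Inv hF z P (e * (C.r - 1)) D) :
    C.Triv (C.r ^ e • D - (Finsupp.single (C.Pone hF) 1 - Finsupp.single P 1)) := by
  rw [Inv, ← cl_eq] at h
  rw [← cl_eq, ← h, cl_pis, prod_period, map_pow, Alg.aeval_prod_one_sub C.hr (sum_tQ hz),
    ← Nat.cast_pow, Module.End.natCast_apply, map_nsmul]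

omit [IsAlgClosed k] in
theorem prim_pow {z : C.Mu} (hz : IsPrimitiveRoot z.val C.r) (j : ℕ) :
    IsPrimitiveRoot (z ^ (1 + j % (C.r - 1))).val C.r :=
  Mu.prim fun h => not_dvd j ((Mu.pow_eq_one_iff (Mu.ne_one_of_prim hz)).1 h)

theorem final_idx {z : C.Mu} (hz : IsPrimitiveRoot z.val C.r) {e : ℕ} {W : C.Div}
    (h1 : C.Triv (C.r ^ e • W)) (h2 : ¬ (C.r : ℤ) ∣ C.deg W) :
    ∃ j < e * (C.r - 1), ¬ C.Triv (C.Wj z (C.r ^ e) j W) ∧
      ∃ h : C.K, h ≠ 0 ∧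
        C.div h = C.Wj z (C.r ^ e) j W - C.tD z (C.Wj z (C.r ^ e) j W) := by
  classical
  rw [← cl_eq_zero, map_nsmul] at h1
  have hW : ∀ j, cl (C.Wj z (C.r ^ e) j W) = ((1 - tQ z) ^ j) (cl W) := fun j => by
    rw [pi_pow_apply, Wj, map_sum]
    refine Finset.sum_congr rfl fun l _ => ?_
    rw [map_nsmul, ← tQ_pow_cl]
    exact cf_smul (pow_pos C.r_pos e) j l (by rw [← map_nsmul, h1, map_zero])
  have h3 := Alg.pi_pow_kill C.hr (sum_tQ hz) e h1
  have hex : ∃ j : ℕ, ((1 - tQ z) ^ j) (cl W) = 0 := ⟨_, h3⟩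
  have h4 := Nat.find_spec hex
  have h5 : Nat.find hex ≤ e * (C.r - 1) := Nat.find_min' hex h3
  have h6 : Nat.find hex ≠ 0 := fun h0 => by
    rw [h0, pow_zero, Module.End.one_apply, cl_eq_zero] at h4
    exact h2 (dvd_deg h4)
  obtain ⟨j, hj⟩ := Nat.exists_eq_succ_of_ne_zero h6
  refine ⟨j, by omega, fun h => Nat.find_min hex (m := j) (by omega) ?_, ?_⟩
  · rw [← hW, cl_eq_zero.2 h]
  · rw [hj, pow_succ', Module.End.mul_apply, ← hW, LinearMap.sub_apply, Module.End.one_apply,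
      tQ_cl, ← map_sub, cl_eq_zero] at h4
    obtain ⟨s, hs, m, h7⟩ := h4
    have h8 := congrArg C.deg h7
    rw [map_sub, deg_tD, sub_self, map_add, deg_div, zero_add, map_zsmul, deg_H,
      smul_eq_mul, eq_comm, mul_eq_zero] at h8
    have h9 : m = 0 := h8.resolve_right (Nat.cast_ne_zero.2 C.hr.ne_zero)
    exact ⟨s, hs, by rw [h7, h9, zero_smul, add_zero]⟩

end Cv

end Vale.Agent.P319
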