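import Vale.Agent.P319.Cv.Divs

/-!
P319: the group of the trivial divisors.
-/

open Polynomial Finset

namespace Vale.Agent.P319

namespace Cv

variable {k : Type} [Field k] {C : Cv k}

theorem nD_cob (z : C.Mu) (W : C.Div) : C.nD z (W - C.tD z W) = 0 := by
  rw [nD, sD_cob, Mu.pow_r, tD_one, sub_self]

variable [IsAlgClosed k]

theorem triv_div {s : C.K} (hs : s ≠ 0) : C.Triv (C.div s) := ⟨s, hs, 0, by simp⟩

theorem triv_H : C.Triv C.H := ⟨1, one_ne_zero, 1, by simp⟩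

theorem Triv.zero : C.Triv 0 := ⟨1, one_ne_zero, 0, by simp⟩

theorem Triv.add {D D' : C.Div} (h : C.Triv D) (h' : C.Triv D') : C.Triv (D + D') := by
  obtain ⟨s, hs, m, rfl⟩ := h
  obtain ⟨t, ht, m', rfl⟩ := h'
  exact ⟨s * t, mul_ne_zero hs ht, m + m', by rw [div_mul hs ht, add_smul]; abel⟩

theorem Triv.neg {D : C.Div} (h : C.Triv D) : C.Triv (-D) := by
  obtain ⟨s, hs, m, rfl⟩ := h
  exact ⟨s⁻¹, inv_ne_zero hs, -m, by rw [div_inv, neg_smul]; abel⟩

theorem Triv.sub {D D' : C.Div} (h : C.Triv D) (h' : C.Triv D') : C.Triv (D - D') := by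
  rw [sub_eq_add_neg]
  exact h.add h'.neg

variable (C) in
/-- the trivial divisors as a subgroup -/
def TrivG : AddSubgroup C.Div where
  carrier := {D | C.Triv D}
  add_mem' := Triv.add
  zero_mem' := Triv.zero
  neg_mem' := Triv.neg

theorem mem_TrivG {D : C.Div} : D ∈ C.TrivG ↔ C.Triv D := Iff.rfl

theorem Triv.nsmul {D : C.Div} (h : C.Triv D) (m : ℕ) : C.Triv (m • D) :=
  C.TrivG.nsmul_mem h m

theorem Triv.zsmul {D : C.Div} (h : C.Triv D) (m : ℤ) : C.Triv (m • D) :=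
  C.TrivG.zsmul_mem h m

theorem Triv.sum {ι : Type*} {s : Finset ι} {f : ι → C.Div} (h : ∀ i ∈ s, C.Triv (f i)) :
    C.Triv (∑ i ∈ s, f i) := C.TrivG.sum_mem h

theorem Triv.congr {D D' : C.Div} (h : C.Triv D) (e : D = D') : C.Triv D' := e ▸ h

theorem Triv.tD {D : C.Div} (h : C.Triv D) (z : C.Mu) : C.Triv (C.tD z D) := by
  obtain ⟨s, hs, m, rfl⟩ := h
  exact ⟨C.tau z s, tau_ne z hs, m, by rw [map_add, map_zsmul, tD_H, div_tau]⟩

theorem Triv.dv {D : C.Div} (h : C.Triv D) {σ : k ≃+* k} (hσ : C.Fix σ) : C.Triv (hσ.dv D) := by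
  obtain ⟨s, hs, m, rfl⟩ := h
  exact ⟨hσ.fn s, (_root_.map_ne_zero hσ.fn).2 hs, m, by
    rw [map_add, map_zsmul, hσ.dv_H, hσ.div_fn]⟩

theorem Triv.dvd_deg {D : C.Div} (h : C.Triv D) : (C.r : ℤ) ∣ C.deg D := by
  obtain ⟨s, hs, m, rfl⟩ := h
  rw [map_add, map_zsmul, deg_div, deg_H, zero_add, smul_eq_mul]
  exact dvd_mul_left _ _

/-- a trivial divisor of degree zero is the divisor of a function -/
theorem Triv.exists_div {D : C.Div} (h : C.Triv D) (h0 : C.deg D = 0) :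
    ∃ s : C.K, s ≠ 0 ∧ C.div s = D := by
  obtain ⟨s, hs, m, rfl⟩ := h
  rw [map_add, map_zsmul, deg_div, deg_H, zero_add, smul_eq_mul, mul_eq_zero] at h0
  obtain rfl : m = 0 := h0.resolve_right (by exact_mod_cast C.hr.ne_zero)
  exact ⟨s, hs, by simp⟩

theorem triv_R : C.Triv C.R := ⟨C.y, C.y_ne, C.nu, by rw [div_y]; abel⟩

end Cv

end Vale.Agent.P319
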