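import Vale.Agent.P319.Cv.Places
import Vale.Agent.P319.Cv.Defs2

/-!
P319: the approximation lemma for the lattices `Moff P X`.
-/

open Polynomial

namespace Vale.Agent.P319

namespace Cv

variable {k : Type} [Field k] [IsAlgClosed k] {C : Cv k}

theorem ap_fin_fib (x0 : k) : {P : C.Pt | ¬ P.IsInf ∧ P.x0 = x0}.Finite := by
  have : NeZero C.r := ⟨C.hr.ne_zero⟩
  obtain ⟨P0, h0, h1⟩ := C.exists_aff x0
  refine (Set.finite_range fun z : C.Mu => z • P0).subset fun Q hQ => ?_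
  exact exists_smul_aff h0 hQ.1 (h1.trans hQ.2.symm)

theorem ap_fin_inf : {P : C.Pt | P.IsInf}.Finite := by
  have : NeZero C.r := ⟨C.hr.ne_zero⟩
  obtain ⟨P0, h0⟩ := C.exists_inf
  refine (Set.finite_range fun z : C.Mu => z • P0).subset fun Q hQ => ?_
  exact exists_smul_inf h0 hQ

theorem ap_fin_ram : {P : C.Pt | P.IsRam}.Finite := by
  classical
  refine (Set.Finite.biUnion (C.F.roots.toFinset.finite_toSet)
    (fun a _ => ap_fin_fib (C := C) a)).subset fun Q hQ => ?_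
  have hQ' : Q.IsRam := hQ
  refine Set.mem_biUnion (x := Q.x0) ?_ ⟨hQ'.not_inf, rfl⟩
  rw [Finset.mem_coe, Multiset.mem_toFinset, mem_roots C.F_ne]
  exact hQ'.eval

/-- a uniformiser with finitely many zeros and poles -/
theorem ap_unif (P' : C.Pt) :
    ∃ w : C.K, w ≠ 0 ∧ P'.ord w = 1 ∧ {Q : C.Pt | Q.ord w ≠ 0}.Finite := by
  have hpol : ∀ x0 : k, {Q : C.Pt | Q.ord (C.pol (X - Polynomial.C x0)) ≠ 0}.Finite := by
    intro x0
    refine ((ap_fin_inf (C := C)).union (ap_fin_fib x0)).subset fun Q hQ => ?_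
    by_cases hi : Q.IsInf
    · exact Or.inl hi
    · refine Or.inr ⟨hi, ?_⟩
      by_contra hx
      refine hQ (Pt.ord_pol_of_eval hi ?_)
      rw [eval_sub, eval_X, eval_C]
      exact sub_ne_zero.2 hx
  by_cases hi : P'.IsInf
  · refine ⟨(C.pol (X - Polynomial.C 0))⁻¹, inv_ne_zero (C.pol_ne (X_sub_C_ne_zero 0)), ?_, ?_⟩
    · rw [Pt.ord_inv, Pt.ord_pol_inf hi, natDegree_X_sub_C]
      simp
    · refine (hpol 0).subset fun Q hQ => ?_
      intro h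
      apply hQ
      rw [Pt.ord_inv, h, neg_zero]
  by_cases hr : P'.IsRam
  · refine ⟨C.y, C.y_ne, by rw [Pt.ord_y, oy_ram hr], ?_⟩
    refine ((ap_fin_inf (C := C)).union ap_fin_ram).subset fun Q hQ => ?_
    by_cases hi : Q.IsInf
    · exact Or.inl hi
    · refine Or.inr ?_
      by_contra hx
      exact hQ (by rw [Pt.ord_y, oy_unram hi hx])
  · refine ⟨C.pol (X - Polynomial.C P'.x0), C.pol_ne (X_sub_C_ne_zero _), ?_, hpol _⟩
    rw [Pt.ord_X_sub hi, Pt.e_eq_one hr, Nat.cast_one]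

open Classical in
/-- the order of the sections of `ν H` -/
noncomputable def apN (Q : C.Pt) : ℤ := if Q.IsInf then -(C.nu : ℤ) else 0

open Classical in
theorem ap_sec (al : k) {u : k[X]} (hu : u.natDegree ≤ C.nu) (Q : C.Pt) :
    C.cst al * C.y + C.pol u ∈ Q.V (apN Q) ∧
      Q.lc (apN Q) (C.cst al * C.y + C.pol u) =
        al * Q.y0 + if Q.IsInf then u.coeff C.nu else u.eval Q.x0 := by
  by_cases hi : Q.IsInf
  · rw [apN, if_pos hi, if_pos hi, map_add, Pt.lc_cst_mul, Pt.lc_y_inf hi, Pt.lc_pol_inf hi]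
    refine ⟨add_mem (Pt.cst_mul_mem _ ?_) (Pt.pol_mem_inf hi hu), rfl⟩
    rw [← oy_inf hi]
    exact Pt.y_mem
  · rw [apN, if_neg hi, if_neg hi, map_add, Pt.lc_cst_mul, Pt.lc_y hi, Pt.lc_pol hi]
    exact ⟨add_mem (Pt.cst_mul_mem _ (Pt.y_mem_zero hi)) (Pt.pol_mem hi u), rfl⟩

theorem ap_xi {P : C.Pt} (hP : P.IsRam) {Q : C.Pt} (h : Q ≠ P) :
    Q.ord ((C.pol (X - Polynomial.C P.x0))⁻¹ ^ C.nu) = -apN Q := by
  rw [Pt.ord_pow, Pt.ord_inv]
  by_cases hi : Q.IsInf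
  · rw [apN, if_pos hi, Pt.ord_pol_inf hi, natDegree_X_sub_C]
    simp
  · rw [apN, if_neg hi, Pt.ord_pol_of_eval hi]
    · simp
    · rw [eval_sub, eval_X, eval_C]
      exact sub_ne_zero.2 fun e => h (hP.eq_of_x0 hi e.symm).symm

omit [IsAlgClosed k] in
open Classical in
theorem ap_sep0 {P' P'' : C.Pt} (h : P'' ≠ P') :
    ∃ (al : k) (u : k[X]), u.natDegree ≤ C.nu ∧
      (al * P''.y0 + if P''.IsInf then u.coeff C.nu else u.eval P''.x0) = 0 ∧
      (al * P'.y0 + if P'.IsInf then u.coeff C.nu else u.eval P'.x0) ≠ 0 := by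
  have hnu := C.hnu
  by_cases h1 : P'.IsInf <;> by_cases h2 : P''.IsInf
  · refine ⟨1, Polynomial.C (-P''.y0) * X ^ C.nu, natDegree_C_mul_X_pow_le _ _, ?_, ?_⟩
    · rw [if_pos h2]
      simp
    · rw [if_pos h1, coeff_C_mul, coeff_X_pow_self, one_mul, mul_one, ← sub_eq_add_neg]
      exact sub_ne_zero.2 fun e => h (Pt.ext_inf h2 h1 e.symm)
  · refine ⟨0, (X - Polynomial.C P''.x0) ^ C.nu, ?_, ?_, ?_⟩
    · rw [natDegree_pow, natDegree_X_sub_C, mul_one]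
    · rw [if_neg h2]
      simp [hnu.ne']
    · rw [if_pos h1, zero_mul, zero_add]
      have hm : ((X - Polynomial.C P''.x0) ^ C.nu).Monic := (monic_X_sub_C _).pow _
      have hd : ((X - Polynomial.C P''.x0) ^ C.nu).natDegree = C.nu := by
        rw [natDegree_pow, natDegree_X_sub_C, mul_one]
      have := hm.coeff_natDegree
      rw [hd] at this
      rw [this]
      exact one_ne_zero
  · refine ⟨0, 1, by simp, ?_, ?_⟩
    · rw [if_pos h2, coeff_one, if_neg hnu.ne']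
      simp
    · rw [if_neg h1]
      simp
  · by_cases hx : P'.x0 = P''.x0
    · refine ⟨1, Polynomial.C (-P''.y0), by simp, ?_, ?_⟩
      · rw [if_neg h2]
        simp
      · rw [if_neg h1, eval_C, one_mul, ← sub_eq_add_neg]
        exact sub_ne_zero.2 fun e => h (Pt.ext_aff h2 h1 hx.symm e.symm)
    · refine ⟨0, X - Polynomial.C P''.x0, ?_, ?_, ?_⟩
      · rw [natDegree_X_sub_C]
        exact hnu
      · rw [if_neg h2]
        simp
      · rw [if_neg h1, zero_mul, zero_add, eval_sub, eval_X, eval_C]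
        exact sub_ne_zero.2 hx

/-- separation of two points by a function with poles only at `P` -/
theorem ap_sep {P : C.Pt} (hP : P.IsRam) {P' P'' : C.Pt} (h' : P' ≠ P) (h'' : P'' ≠ P)
    (h : P'' ≠ P') :
    ∃ w : C.K, (∀ Q, Q ≠ P → w ∈ Q.V 0) ∧ w ∈ P''.V 1 ∧ P'.lc 0 w ≠ 0 := by
  obtain ⟨al, u, hu, h1, h2⟩ := ap_sep0 h
  have hx : (C.pol (X - Polynomial.C P.x0))⁻¹ ^ C.nu ≠ 0 :=
    pow_ne_zero _ (inv_ne_zero (C.pol_ne (X_sub_C_ne_zero _)))
  have hm : ∀ Q, Q ≠ P → (C.pol (X - Polynomial.C P.x0))⁻¹ ^ C.nu ∈ Q.V (-apN Q) := fun Q hQ =>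
    ap_xi hP hQ ▸ Pt.mem_V_ord _
  have h0 : ∀ Q, Q ≠ P →
      (C.cst al * C.y + C.pol u) * (C.pol (X - Polynomial.C P.x0))⁻¹ ^ C.nu ∈ Q.V 0 :=
    fun Q hQ => Pt.mul_mem' (ap_sec al hu Q).1 (hm Q hQ) (by simp)
  refine ⟨_, h0, ?_, ?_⟩
  · have : (1 : ℤ) = 0 + 1 := rfl
    rw [this, Pt.mem_V_succ]
    refine ⟨h0 _ h'', ?_⟩
    rw [Pt.lc_mul' (ap_sec al hu P'').1 (hm _ h'') (by simp), (ap_sec al hu P'').2, h1, zero_mul]
  · rw [Pt.lc_mul' (ap_sec al hu P').1 (hm _ h') (by simp), (ap_sec al hu P').2]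
    exact mul_ne_zero h2 (Pt.lc_ne_of_ord hx (ap_xi hP h'))

theorem ap_many {P : C.Pt} (hP : P.IsRam) {P' : C.Pt} (h' : P' ≠ P) (N : C.Pt → ℕ)
    (S : Finset C.Pt) :
    ∃ t : C.K, (∀ Q, Q ≠ P → t ∈ Q.V 0) ∧ P'.lc 0 t ≠ 0 ∧
      ∀ Q ∈ S, Q ≠ P → Q ≠ P' → t ∈ Q.V (N Q) := by
  classical
  induction S using Finset.induction_on with
  | empty => exact ⟨1, fun Q _ => Pt.one_mem, by simp, by simp⟩
  | insert Q0 S _ ih =>
    obtain ⟨t, h1, h2, h3⟩ := ih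
    by_cases hQ : Q0 = P ∨ Q0 = P'
    · refine ⟨t, h1, h2, fun Q hQS a b => ?_⟩
      rcases Finset.mem_insert.1 hQS with rfl | hQS
      · exact (hQ.elim a b).elim
      · exact h3 Q hQS a b
    · rw [not_or] at hQ
      obtain ⟨w, k1, k2, k3⟩ := ap_sep hP h' hQ.1 hQ.2
      refine ⟨t * w ^ N Q0, fun Q a => Pt.mul_mem_zero (h1 Q a) (Pt.pow_mem_zero (k1 Q a) _),
        ?_, fun Q hQS a b => ?_⟩
      · rw [Pt.lc_mul_zero (h1 _ h') (Pt.pow_mem_zero (k1 _ h') _), Pt.lc_pow_zero (k1 _ h')]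
        exact mul_ne_zero h2 (pow_ne_zero _ k3)
      · rcases Finset.mem_insert.1 hQS with rfl | hQS
        · exact Pt.mul_mem_left (h1 Q a) (by simpa using Pt.pow_mem k2 (N Q))
        · exact Pt.mul_mem_right (h3 Q hQS a b) (Pt.pow_mem_zero (k1 Q a) _)

theorem approx {P : C.Pt} (hP : P.IsRam) (X : C.Div) {P' : C.Pt} (h : P' ≠ P) :
    ∃ s ∈ C.Moff P X, P'.lc (X P') s ≠ 0 := by
  classical
  obtain ⟨w, hw, h1, h2⟩ := ap_unif P'
  have hs0 : w ^ X P' ≠ 0 := zpow_ne_zero _ hw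
  have ho : P'.ord (w ^ X P') = X P' := by rw [Pt.ord_zpow, h1, mul_one]
  have hm : w ^ X P' ∈ P'.V (X P') := (Pt.mem_V_iff_le hs0).2 ho.ge
  obtain ⟨t, k1, k2, k3⟩ := ap_many hP h (fun Q => (X Q - Q.ord (w ^ X P')).toNat)
    (h2.toFinset ∪ X.support)
  refine ⟨w ^ X P' * t, C.mem_Moff.2 fun Q hQ => ?_, ?_⟩
  · by_cases e : Q = P'
    · subst e
      exact Pt.mul_mem_right hm (k1 _ hQ)
    by_cases hS : Q ∈ h2.toFinset ∪ X.support
    · refine Pt.mul_mem' (Pt.mem_V_ord _) (k3 Q hS hQ e) ?_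
      omega
    · rw [Finset.mem_union, not_or, Set.Finite.mem_toFinset, Finsupp.notMem_support_iff] at hS
      have e1 : Q.ord w = 0 := by simpa using hS.1
      refine Pt.mul_mem' (Pt.mem_V_ord _) (k1 Q hQ) ?_
      rw [hS.2, Pt.ord_zpow, e1]
      simp
  · rw [Pt.lc_mul' hm (k1 _ h) (add_zero _).symm]
    exact mul_ne_zero (Pt.lc_ne_of_ord hs0 ho) k2

end Cv

end Vale.Agent.P319
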