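import Vale.Agent.P319.Cv.Defs
import Mathlib.FieldTheory.KummerExtension
import Mathlib.RingTheory.RootsOfUnity.AlgebraicallyClosed

/-!
P319: algebra in the function field: roots of unity, norms, coordinates.
-/

open Polynomial Finset

namespace Vale.Agent.P319

namespace Cv

variable {k : Type} [Field k] {c : Cv k}

theorem three_le (c : Cv k) : 3 ≤ c.r := by
  have h1 := c.hr.two_le
  obtain ⟨m, hm⟩ := c.hodd
  omega

theorem natDegree_F (c : Cv k) : c.F.natDegree = c.n := c.hdeg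

instance : NeZero c.r := ⟨c.hr.ne_zero⟩

noncomputable instance : DecidableEq c.Mu := Classical.decEq _

noncomputable instance : Fintype c.Mu := Fintype.ofFinite _

theorem rat_cst (a : k) : c.rat (algebraMap k (RatFunc k) a) = c.cst a :=
  (IsScalarTower.algebraMap_apply k (RatFunc k) c.K a).symm

theorem rat_eq (q : RatFunc k) : c.rat q = c.pol q.num / c.pol q.denom := by
  rw [← rat_pol, ← rat_pol, ← map_div₀, RatFunc.num_div_denom]

theorem cast_r_ne : (c.r : c.K) ≠ 0 := by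
  rw [← map_natCast c.cst]
  exact (_root_.map_ne_zero c.cst).2 c.hrk

theorem smul_eq (a : k) (s : c.K) : a • s = c.cst a * s := Algebra.smul_def a s

theorem rat_smul_eq (q : RatFunc k) (s : c.K) : q • s = c.rat q * s := Algebra.smul_def q s

theorem hom_ext {L : Type} [Field L] {f g : c.K →+* L} (h1 : ∀ p, f (c.pol p) = g (c.pol p))
    (h2 : f c.y = g c.y) : f = g := by
  refine AdjoinRoot.ringHom_ext (RingHom.ext fun q => ?_) h2
  change f (c.rat q) = g (c.rat q)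
  rw [rat_eq, map_div₀, map_div₀, h1, h1]

theorem hom_ext' {L : Type} [Field L] {f g : c.K →+* L} (h0 : ∀ a, f (c.cst a) = g (c.cst a))
    (h1 : f (c.pol X) = g (c.pol X)) (h2 : f c.y = g c.y) : f = g := by
  refine hom_ext (fun p => ?_) h2
  have : f.comp c.pol = g.comp c.pol :=
    Polynomial.ringHom_ext (fun a => by simpa [pol_C] using h0 a) h1
  exact RingHom.congr_fun this p

/-! ### roots of unity -/

@[simp] theorem Mu.val_inv (z : c.Mu) : (z⁻¹).val = z.val⁻¹ := by simp [Mu.val]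

@[simp] theorem Mu.pow_r (z : c.Mu) : z ^ c.r = 1 :=
  Mu.val_injective (by rw [Mu.val_pow, Mu.val_pow_r, Mu.val_one])

theorem Mu.val_eq_one {z : c.Mu} : z.val = 1 ↔ z = 1 :=
  ⟨fun h => Mu.val_injective h, fun h => by rw [h, Mu.val_one]⟩

theorem Mu.prim {z : c.Mu} (hz : z ≠ 1) : IsPrimitiveRoot z.val c.r := by
  have := Fact.mk c.hr
  have e : orderOf z.val = c.r := orderOf_eq_prime z.val_pow_r fun h => hz (Mu.val_eq_one.1 h)
  have h := IsPrimitiveRoot.orderOf z.val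
  rwa [e] at h

theorem Mu.ne_one_of_prim {z : c.Mu} (hz : IsPrimitiveRoot z.val c.r) : z ≠ 1 := fun h =>
  hz.ne_one c.hr.one_lt (Mu.val_eq_one.2 h)

theorem Mu.exists_pow {ζ : c.Mu} (hζ : ζ ≠ 1) (z : c.Mu) : ∃ l < c.r, ζ ^ l = z := by
  obtain ⟨l, h1, h2⟩ := (Mu.prim hζ).eq_pow_of_pow_eq_one z.val_pow_r
  exact ⟨l, h1, Mu.val_injective (by rw [Mu.val_pow, h2])⟩

theorem Mu.pow_inj {ζ : c.Mu} (hζ : ζ ≠ 1) {i j : ℕ} (hi : i < c.r) (hj : j < c.r)
    (h : ζ ^ i = ζ ^ j) : i = j :=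
  (Mu.prim hζ).pow_inj hi hj (by rw [← Mu.val_pow, ← Mu.val_pow, h])

theorem Mu.pow_eq_one_iff {ζ : c.Mu} (hζ : ζ ≠ 1) {i : ℕ} : ζ ^ i = 1 ↔ c.r ∣ i := by
  rw [← (Mu.prim hζ).pow_eq_one_iff_dvd, ← Mu.val_pow, Mu.val_eq_one]

theorem Mu.pow_ne_one {ζ : c.Mu} (hζ : ζ ≠ 1) {i : ℕ} (h0 : i ≠ 0) (hi : i < c.r) : ζ ^ i ≠ 1 :=
  fun h => h0 (Nat.eq_zero_of_dvd_of_lt ((Mu.pow_eq_one_iff hζ).1 h) hi)

theorem Mu.prod_range {M : Type*} [CommMonoid M] {ζ : c.Mu} (hζ : ζ ≠ 1) (f : c.Mu → M) :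
    ∏ l ∈ range c.r, f (ζ ^ l) = ∏ z, f z :=
  Finset.prod_bij (fun l _ => ζ ^ l) (fun _ _ => mem_univ _)
    (fun _ hi _ hj h => Mu.pow_inj hζ (mem_range.1 hi) (mem_range.1 hj) h)
    (fun z _ => by
      obtain ⟨l, h1, h2⟩ := Mu.exists_pow hζ z
      exact ⟨l, mem_range.2 h1, h2⟩) fun _ _ => rfl

theorem Mu.sum_range {M : Type*} [AddCommMonoid M] {ζ : c.Mu} (hζ : ζ ≠ 1) (f : c.Mu → M) :
    ∑ l ∈ range c.r, f (ζ ^ l) = ∑ z, f z :=
  Mu.prod_range (M := Multiplicative M) hζ f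

variable (c) in
theorem Mu.exists_ne_one [IsAlgClosed k] : ∃ ζ : c.Mu, ζ ≠ 1 := by
  have : NeZero (c.r : k) := ⟨c.hrk⟩
  obtain ⟨z, hz⟩ := HasEnoughRootsOfUnity.exists_primitiveRoot k c.r
  obtain ⟨w, rfl⟩ := Mu.exists_val (C := c) hz.pow_eq_one
  exact ⟨w, Mu.ne_one_of_prim hz⟩

variable (c) in
theorem Mu.card [IsAlgClosed k] : Fintype.card c.Mu = c.r := by
  obtain ⟨ζ, hζ⟩ := Mu.exists_ne_one c
  have := Mu.sum_range hζ fun _ => (1 : ℕ)
  simpa using this.symm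

theorem Mu.geom_sum (z : c.Mu) :
    ∑ l ∈ range c.r, z.val ^ l = if z = 1 then (c.r : k) else 0 := by
  split_ifs with h
  · simp [h]
  · exact (Mu.prim h).geom_sum_eq_zero c.hr.one_lt

theorem Mu.sum_range_pow {ζ : c.Mu} (hζ : ζ ≠ 1) (j : ℕ) :
    ∑ l ∈ range c.r, ζ.val ^ (l * j) = if c.r ∣ j then (c.r : k) else 0 := by
  rw [← if_congr (Mu.pow_eq_one_iff hζ) rfl rfl, ← Mu.geom_sum (ζ ^ j)]
  refine Finset.sum_congr rfl fun l _ => ?_
  rw [Mu.val_pow, ← pow_mul, mul_comm]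

variable (c) in
theorem Mu.sum_pow [IsAlgClosed k] (j : ℕ) :
    ∑ z : c.Mu, z.val ^ j = if c.r ∣ j then (c.r : k) else 0 := by
  obtain ⟨ζ, hζ⟩ := Mu.exists_ne_one c
  rw [← Mu.sum_range hζ fun z => z.val ^ j, ← Mu.sum_range_pow hζ]
  refine Finset.sum_congr rfl fun l _ => ?_
  rw [Mu.val_pow, ← pow_mul]

variable (c) in
theorem Mu.prod_sub' [IsAlgClosed k] {R : Type*} [CommRing R] (φ : k →+* R) (a b : R) :
    ∏ z : c.Mu, (b - φ z.val * a) = b ^ c.r - a ^ c.r := by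
  obtain ⟨ζ, hζ⟩ := Mu.exists_ne_one c
  have h1 := X_pow_sub_C_eq_prod ((Mu.prim hζ).map_of_injective (C_injective (R := k)))
    c.r_pos (rfl : (X : k[X]) ^ c.r = _)
  have h3 := congrArg (eval₂RingHom (eval₂RingHom φ a) b) h1
  rw [← Mu.prod_range hζ fun z => b - φ z.val * a]
  simpa [map_prod, eval₂_pow] using h3.symm

variable (c) in
theorem Mu.prod_sub [IsAlgClosed k] {R : Type*} [CommRing R] (φ : k →+* R) (a b : R) :
    ∏ z : c.Mu, (φ z.val * a - b) = a ^ c.r - b ^ c.r := by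
  have h5 : ∏ z : c.Mu, (φ z.val * a - b) = ∏ z : c.Mu, (-1) * (b - φ z.val * a) :=
    Finset.prod_congr rfl fun z _ => by ring
  rw [h5, Finset.prod_mul_distrib, Mu.prod_sub', Finset.prod_const, Finset.card_univ, Mu.card c,
    c.hodd.neg_one_pow]
  ring

/-- two nonzero elements with the same `r`-th power -/
theorem Mu.exists_mul_eq {a b : k} (ha : a ≠ 0) (h : a ^ c.r = b ^ c.r) :
    ∃ z : c.Mu, z.val * a = b := by
  obtain ⟨z, hz⟩ := Mu.exists_val (C := c) (z := b / a) (by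
    rw [div_pow, ← h, div_self (pow_ne_zero _ ha)])
  exact ⟨z, by rw [hz, div_mul_cancel₀ _ ha]⟩

/-! ### conjugates and norms -/

attribute [simp] tau_one

theorem tau_smul (z : c.Mu) (a : k) (s : c.K) : c.tau z (a • s) = a • c.tau z s := by
  rw [smul_eq, smul_eq, map_mul, tau_cst]

theorem tau_ne (z : c.Mu) {s : c.K} (hs : s ≠ 0) : c.tau z s ≠ 0 :=
  (_root_.map_ne_zero (c.tau z)).2 hs

theorem tau_y_pow (z : c.Mu) (b : ℕ) : c.tau z (c.y ^ b) = c.cst (z.val ^ b) * c.y ^ b := by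
  rw [map_pow, tau_y, mul_pow, map_pow]

@[simp] theorem pp_zero (ζ : c.Mu) (g : c.K) : c.pp ζ g 0 = 1 := by simp [pp]

theorem pp_succ (ζ : c.Mu) (g : c.K) (j : ℕ) :
    c.pp ζ g (j + 1) = c.pp ζ g j * c.tau (ζ ^ j) g := prod_range_succ _ _

theorem pp_succ' (ζ : c.Mu) (g : c.K) (j : ℕ) :
    c.pp ζ g (j + 1) = g * c.tau ζ (c.pp ζ g j) := by
  rw [pp, prod_range_succ', pow_zero, tau_one, mul_comm, pp, map_prod]
  simp only [tau_tau, pow_succ']

@[simp] theorem pp_one (ζ : c.Mu) (g : c.K) : c.pp ζ g 1 = g := by simp [pp]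

theorem pp_ne (ζ : c.Mu) {g : c.K} (hg : g ≠ 0) (j : ℕ) : c.pp ζ g j ≠ 0 :=
  prod_ne_zero_iff.2 fun _ _ => tau_ne _ hg

theorem pp_mul (ζ : c.Mu) (g h : c.K) (j : ℕ) :
    c.pp ζ (g * h) j = c.pp ζ g j * c.pp ζ h j := by
  simp only [pp, map_mul, prod_mul_distrib]

theorem pp_div (ζ : c.Mu) (g h : c.K) (j : ℕ) :
    c.pp ζ (g / h) j = c.pp ζ g j / c.pp ζ h j := by
  simp only [pp, map_div₀, prod_div_distrib]

theorem pp_rat (ζ : c.Mu) (q : RatFunc k) (j : ℕ) : c.pp ζ (c.rat q) j = c.rat q ^ j := by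
  simp only [pp, tau_rat, prod_const, card_range]

theorem pp_pol (ζ : c.Mu) (u : k[X]) (j : ℕ) : c.pp ζ (c.pol u) j = c.pol u ^ j := by
  simp [pp]

theorem pp_cst (ζ : c.Mu) (a : k) (j : ℕ) : c.pp ζ (c.cst a) j = c.cst (a ^ j) := by
  simp [pp]

theorem pp_cob (ζ : c.Mu) {β : c.K} (hβ : β ≠ 0) (j : ℕ) :
    c.pp ζ (c.tau ζ β / β) j = c.tau (ζ ^ j) β / β := by
  induction j with
  | zero => simp [hβ]
  | succ j ih =>
    rw [pp_succ, ih, map_div₀, tau_tau, ← pow_succ]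
    have := tau_ne (ζ ^ j) hβ
    field_simp

theorem nm_eq {ζ : c.Mu} (hζ : ζ ≠ 1) (g : c.K) : c.nm ζ g = ∏ z, c.tau z g :=
  Mu.prod_range hζ fun z => c.tau z g

theorem tr_eq {ζ : c.Mu} (hζ : ζ ≠ 1) (g : c.K) : c.tr ζ g = ∑ z, c.tau z g :=
  Mu.sum_range hζ fun z => c.tau z g

theorem nm_congr {ζ ζ' : c.Mu} (hζ : ζ ≠ 1) (hζ' : ζ' ≠ 1) (g : c.K) :
    c.nm ζ g = c.nm ζ' g := by rw [nm_eq hζ, nm_eq hζ']

theorem nm_mul (ζ : c.Mu) (s t : c.K) : c.nm ζ (s * t) = c.nm ζ s * c.nm ζ t := pp_mul _ _ _ _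

theorem nm_div (ζ : c.Mu) (s t : c.K) : c.nm ζ (s / t) = c.nm ζ s / c.nm ζ t := pp_div _ _ _ _

theorem nm_ne (ζ : c.Mu) {s : c.K} (hs : s ≠ 0) : c.nm ζ s ≠ 0 := pp_ne _ hs _

theorem nm_rat (ζ : c.Mu) (q : RatFunc k) : c.nm ζ (c.rat q) = c.rat q ^ c.r := pp_rat _ _ _

theorem nm_pol (ζ : c.Mu) (u : k[X]) : c.nm ζ (c.pol u) = c.pol u ^ c.r := pp_pol _ _ _

theorem nm_cst (ζ : c.Mu) (a : k) : c.nm ζ (c.cst a) = c.cst (a ^ c.r) := pp_cst _ _ _

theorem nm_cob (ζ : c.Mu) {s : c.K} (hs : s ≠ 0) : c.nm ζ (c.tau ζ s / s) = 1 := by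
  rw [nm, pp_cob ζ hs, Mu.pow_r, tau_one, div_self hs]

theorem tau_nm {ζ : c.Mu} (hζ : ζ ≠ 1) (z : c.Mu) (s : c.K) :
    c.tau z (c.nm ζ s) = c.nm ζ s := by
  simp only [nm_eq hζ, map_prod, tau_tau]
  exact Fintype.prod_equiv (Equiv.mulLeft z) _ _ fun _ => rfl

theorem nm_tau {ζ : c.Mu} (hζ : ζ ≠ 1) (z : c.Mu) (s : c.K) :
    c.nm ζ (c.tau z s) = c.nm ζ s := by
  simp only [nm_eq hζ, tau_tau]
  exact Fintype.prod_equiv (Equiv.mulRight z) _ _ fun _ => rfl

theorem tau_tr {ζ : c.Mu} (hζ : ζ ≠ 1) (z : c.Mu) (s : c.K) :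
    c.tau z (c.tr ζ s) = c.tr ζ s := by
  simp only [tr_eq hζ, map_sum, tau_tau]
  exact Fintype.sum_equiv (Equiv.mulLeft z) _ _ fun _ => rfl

theorem nm_y_sub [IsAlgClosed k] {ζ : c.Mu} (hζ : ζ ≠ 1) (v : k[X]) :
    c.nm ζ (c.y - c.pol v) = c.pol (c.F - v ^ c.r) := by
  simp only [nm_eq hζ, map_sub, tau_y, tau_pol, map_pow]
  rw [Mu.prod_sub, y_pow]

theorem nm_y [IsAlgClosed k] {ζ : c.Mu} (hζ : ζ ≠ 1) : c.nm ζ c.y = c.pol c.F := by
  simpa [c.hr.ne_zero] using nm_y_sub hζ 0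

/-- the resolvent identity -/
theorem mul_tau_resolvent (ζ : c.Mu) (θ w : c.K) :
    θ * c.tau ζ (∑ l ∈ range c.r, c.pp ζ θ l * c.tau (ζ ^ l) w) =
      ∑ l ∈ range c.r, c.pp ζ θ l * c.tau (ζ ^ l) w + (c.nm ζ θ - 1) * w := by
  have h1 := Finset.sum_range_succ (fun l => c.pp ζ θ l * c.tau (ζ ^ l) w) c.r
  rw [Finset.sum_range_succ', pp_zero, pow_zero, tau_one, Mu.pow_r, tau_one] at h1
  rw [map_sum, Finset.mul_sum, sub_mul, nm]
  have h2 : ∀ l ∈ range c.r, θ * c.tau ζ (c.pp ζ θ l * c.tau (ζ ^ l) w) =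
      c.pp ζ θ (l + 1) * c.tau (ζ ^ (l + 1)) w := fun l _ => by
    rw [map_mul, tau_tau, pp_succ', pow_succ', mul_assoc]
  rw [Finset.sum_congr rfl h2]
  linear_combination h1

/-! ### coordinates -/

theorem eqn_monic : c.eqn.Monic := monic_X_pow_sub_C _ c.hr.ne_zero

theorem eqn_natDegree : c.eqn.natDegree = c.r := natDegree_X_pow_sub_C

variable (c) in
/-- the coordinate of `y ^ b` -/
noncomputable def co (b : ℕ) : c.K →ₗ[RatFunc k] RatFunc k :=
  lcoeff _ b ∘ₗ AdjoinRoot.modByMonicHom eqn_monic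

theorem sum_co (s : c.K) : ∑ b ∈ range c.r, c.rat (c.co b s) * c.y ^ b = s := by
  obtain ⟨p, rfl⟩ := AdjoinRoot.mk_surjective (g := c.eqn) s
  have h1 : (p %ₘ c.eqn).natDegree < c.r := by
    rw [← eqn_natDegree]
    exact natDegree_modByMonic_lt p eqn_monic fun h => by
      have := eqn_natDegree (c := c)
      rw [h, natDegree_one] at this
      exact c.r_pos.ne this
  have h2 : eval₂ c.rat c.y (p %ₘ c.eqn) = AdjoinRoot.mk c.eqn p := by
    have := AdjoinRoot.mk_leftInverse (eqn_monic (c := c)) (AdjoinRoot.mk c.eqn p)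
    rw [AdjoinRoot.modByMonicHom_mk] at this
    rw [← this]
    exact AdjoinRoot.aeval_eq _
  rw [← h2, eval₂_eq_sum_range' _ h1]
  refine Finset.sum_congr rfl fun b _ => ?_
  rw [← eval₂_eq_sum_range' _ h1, h2]
  rfl

theorem co_y_pow {b j : ℕ} (hj : j < c.r) : c.co b (c.y ^ j) = if b = j then 1 else 0 := by
  have h1 : c.y ^ j = AdjoinRoot.mk c.eqn (X ^ j) := by rw [map_pow]; rfl
  have h2 : c.co b (AdjoinRoot.mk c.eqn (X ^ j)) = (X ^ j %ₘ c.eqn).coeff b := rfl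
  rw [h1, h2, (modByMonic_eq_self_iff eqn_monic).2, coeff_X_pow]
  rw [degree_X_pow, degree_eq_natDegree eqn_monic.ne_zero, eqn_natDegree]
  exact_mod_cast hj

theorem co_rat_mul (b : ℕ) (q : RatFunc k) (s : c.K) :
    c.co b (c.rat q * s) = q * c.co b s := by
  rw [← rat_smul_eq, map_smul, smul_eq_mul]

theorem co_sum (f : ℕ → RatFunc k) {b : ℕ} (hb : b < c.r) :
    c.co b (∑ j ∈ range c.r, c.rat (f j) * c.y ^ j) = f b := by
  rw [map_sum, Finset.sum_eq_single b]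
  · rw [co_rat_mul, co_y_pow hb, if_pos rfl, mul_one]
  · intro j hj hne
    rw [co_rat_mul, co_y_pow (mem_range.1 hj), if_neg hne.symm, mul_zero]
  · intro h
    exact absurd (mem_range.2 hb) h

theorem co_ext {s t : c.K} (h : ∀ b < c.r, c.co b s = c.co b t) : s = t := by
  rw [← sum_co s, ← sum_co t]
  exact Finset.sum_congr rfl fun b hb => by rw [h b (mem_range.1 hb)]

theorem co_tau (z : c.Mu) (s : c.K) {b : ℕ} (hb : b < c.r) :
    c.co b (c.tau z s) = algebraMap k _ (z.val ^ b) * c.co b s := by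
  conv_lhs => rw [← sum_co s, map_sum]
  rw [← co_sum (fun j => algebraMap k _ (z.val ^ j) * c.co j s) hb]
  congr 1
  refine Finset.sum_congr rfl fun j _ => ?_
  rw [map_mul, tau_rat, tau_y_pow, map_mul, rat_cst]
  ring

/-- a component as an average of conjugates -/
theorem avg [IsAlgClosed k] (s : c.K) {b : ℕ} (hb : b < c.r) :
    c.rat (c.co b s) * c.y ^ b =
      ∑ z : c.Mu, ((c.r : k)⁻¹ * z.val ^ (c.r - b)) • c.tau z s := by
  refine co_ext fun j hj => ?_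
  rw [co_rat_mul, co_y_pow hb, map_sum]
  have h1 : ∀ z : c.Mu, c.co j (((c.r : k)⁻¹ * z.val ^ (c.r - b)) • c.tau z s) =
      algebraMap k _ ((c.r : k)⁻¹ * z.val ^ (c.r - b + j)) * c.co j s := by
    intro z
    rw [smul_eq, ← rat_cst, co_rat_mul, co_tau z s hj, ← mul_assoc, ← map_mul, pow_add,
      mul_assoc]
  simp only [h1]
  rw [← Finset.sum_mul, ← map_sum, ← Finset.mul_sum, Mu.sum_pow]
  by_cases h : j = b
  · rw [if_pos h, if_pos (by rw [h, Nat.sub_add_cancel hb.le]), inv_mul_cancel₀ c.hrk, h]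
    simp
  · rw [if_neg h, if_neg, mul_zero, mul_zero, map_zero, zero_mul]
    rintro ⟨m, hm⟩
    rcases m with _ | _ | m
    · omega
    · omega
    · have : c.r * (m + 1 + 1) = c.r * m + 2 * c.r := by ring
      omega

theorem exists_rat_of_fixed {z : c.Mu} (hz : z ≠ 1) {s : c.K} (h : c.tau z s = s) :
    ∃ q, s = c.rat q := by
  refine ⟨c.co 0 s, co_ext fun b hb => ?_⟩
  have h1 : c.rat (c.co 0 s) = c.rat (c.co 0 s) * c.y ^ 0 := by simp
  rw [h1, co_rat_mul, co_y_pow c.r_pos]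
  split_ifs with h0
  · rw [h0, mul_one]
  · have h2 := co_tau z s hb
    rw [h] at h2
    have h3 : (algebraMap k (RatFunc k) (z.val ^ b) - 1) * c.co b s = 0 := by
      rw [sub_mul, ← h2, one_mul, sub_self]
    rw [mul_zero]
    refine (mul_eq_zero.1 h3).resolve_left fun h4 => ?_
    rw [sub_eq_zero, ← map_one (algebraMap k (RatFunc k))] at h4
    have h5 := (algebraMap k (RatFunc k)).injective h4
    rw [← Mu.val_pow, Mu.val_eq_one] at h5
    exact Mu.pow_ne_one hz h0 hb h5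

theorem exists_nm_rat {ζ : c.Mu} (hζ : ζ ≠ 1) (s : c.K) : ∃ q, c.nm ζ s = c.rat q :=
  exists_rat_of_fixed hζ (tau_nm hζ ζ s)

theorem exists_tr_rat {ζ : c.Mu} (hζ : ζ ≠ 1) (s : c.K) : ∃ q, c.tr ζ s = c.rat q :=
  exists_rat_of_fixed hζ (tau_tr hζ ζ s)

/-- Hilbert 90 -/
theorem hilbert90 {ζ : c.Mu} (hζ : ζ ≠ 1) {θ : c.K} (hθ : c.nm ζ θ = 1) :
    ∃ s : c.K, s ≠ 0 ∧ θ * c.tau ζ s = s := by
  by_contra hcon
  push Not at hcon
  have h1 : ∀ b : ℕ, ∑ l ∈ range c.r, c.pp ζ θ l * c.cst (ζ.val ^ (l * b)) = 0 := by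
    intro b
    have h2 := mul_tau_resolvent ζ θ (c.y ^ b)
    rw [hθ, sub_self, zero_mul, add_zero] at h2
    have h3 : ∑ l ∈ range c.r, c.pp ζ θ l * c.tau (ζ ^ l) (c.y ^ b) = 0 := by
      by_contra h
      exact hcon _ h h2
    simp only [tau_y_pow, Mu.val_pow, ← pow_mul, ← mul_assoc, ← Finset.sum_mul] at h3
    exact (mul_eq_zero.1 h3).resolve_right (pow_ne_zero _ c.y_ne)
  have h4 : ∑ b ∈ range c.r, ∑ l ∈ range c.r, c.pp ζ θ l * c.cst (ζ.val ^ (l * b)) = 0 :=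
    Finset.sum_eq_zero fun b _ => h1 b
  rw [Finset.sum_comm, Finset.sum_eq_single 0] at h4
  · simp only [pp_zero, zero_mul, pow_zero, map_one, mul_one, sum_const, card_range,
      nsmul_eq_mul] at h4
    exact cast_r_ne h4
  · intro l hl hl0
    rw [← Finset.mul_sum, ← map_sum]
    simp only [mul_comm l]
    rw [Mu.sum_range_pow hζ, if_neg fun h => hl0 (Nat.eq_zero_of_dvd_of_lt h (mem_range.1 hl)),
      map_zero, mul_zero]
  · intro h
    exact absurd (mem_range.2 c.r_pos) h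

/-! ### polynomials in two variables -/

variable (c) in
/-- the equation of the curve -/
noncomputable def eqO : k[X][X] := X ^ c.r - C c.F

theorem eqO_monic : c.eqO.Monic := monic_X_pow_sub_C _ c.hr.ne_zero

theorem eqO_natDegree : c.eqO.natDegree = c.r := natDegree_X_pow_sub_C

theorem ev_eqO : c.ev c.eqO = 0 := by simp [eqO, y_pow]

theorem ev_smul (a : k) (G : k[X][X]) : c.ev (a • G) = a • c.ev G := by
  rw [Algebra.smul_def, Algebra.smul_def, map_mul, Polynomial.algebraMap_apply, ev_C,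
    Polynomial.algebraMap_apply, pol_C]
  rfl

variable (c) in
/-- `ev` as a linear map -/
noncomputable def evL : k[X][X] →ₗ[k] c.K where
  toFun := c.ev
  map_add' := map_add c.ev
  map_smul' := ev_smul

@[simp] theorem evL_apply (G : k[X][X]) : c.evL G = c.ev G := rfl

theorem ev_monomial (b : ℕ) (u : k[X]) : c.ev (monomial b u) = c.pol u * c.y ^ b := by
  rw [← C_mul_X_pow_eq_monomial]
  simp

theorem ev_mod (G : k[X][X]) : c.ev (G %ₘ c.eqO) = c.ev G := by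
  conv_rhs => rw [← modByMonic_add_div G c.eqO, map_add, map_mul, ev_eqO, zero_mul, add_zero]

theorem natDegree_mod_lt (G : k[X][X]) : (G %ₘ c.eqO).natDegree < c.r := by
  rw [← eqO_natDegree]
  exact natDegree_modByMonic_lt G eqO_monic fun h => by
    have := eqO_natDegree (c := c)
    rw [h, natDegree_one] at this
    exact c.r_pos.ne this

theorem ev_eq_sum {G : k[X][X]} (hG : G.natDegree < c.r) :
    c.ev G = ∑ b ∈ range c.r, c.pol (G.coeff b) * c.y ^ b := eval₂_eq_sum_range' _ hG _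

theorem co_ev {G : k[X][X]} (hG : G.natDegree < c.r) {b : ℕ} (hb : b < c.r) :
    c.co b (c.ev G) = algebraMap _ _ (G.coeff b) := by
  rw [ev_eq_sum hG, ← co_sum (fun j => algebraMap k[X] (RatFunc k) (G.coeff j)) hb]
  simp only [rat_pol]

theorem eq_zero_of_ev {G : k[X][X]} (hG : G.natDegree < c.r) (h : c.ev G = 0) : G = 0 := by
  ext1 b
  rcases lt_or_ge b c.r with hb | hb
  · have := co_ev hG hb
    rw [h, map_zero] at this
    exact IsFractionRing.injective k[X] (RatFunc k) (by rw [← this]; simp)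
  · exact coeff_eq_zero_of_natDegree_lt (hG.trans_le hb)

theorem ev_eq_zero_iff {G : k[X][X]} : c.ev G = 0 ↔ G %ₘ c.eqO = 0 :=
  ⟨fun h => eq_zero_of_ev (natDegree_mod_lt G) (by rw [ev_mod, h]), fun h => by
    rw [← ev_mod, h, map_zero]⟩

theorem ev_inj {G G' : k[X][X]} (hG : G.natDegree < c.r) (hG' : G'.natDegree < c.r)
    (h : c.ev G = c.ev G') : G = G' :=
  sub_eq_zero.1 (eq_zero_of_ev ((natDegree_sub_le _ _).trans_lt (max_lt hG hG'))
    (by rw [map_sub, h, sub_self]))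

theorem tau_ev (z : c.Mu) (G : k[X][X]) :
    c.tau z (c.ev G) = c.ev (G.comp (C (C z.val) * X)) := by
  have : (c.tau z : c.K →+* c.K).comp c.ev = c.ev.comp (compRingHom (C (C z.val) * X)) :=
    Polynomial.ringHom_ext (fun p => by simp) (by simp [pol_C])
  exact RingHom.congr_fun this G

theorem exists_ev_of_co {s : c.K} (h : ∀ b < c.r, ∃ p : k[X], c.co b s = algebraMap _ _ p) :
    ∃ G : k[X][X], G.natDegree < c.r ∧ c.ev G = s := by
  choose! p hp using h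
  refine ⟨∑ b ∈ range c.r, monomial b (p b), ?_, ?_⟩
  · refine lt_of_le_of_lt (natDegree_sum_le_of_forall_le _ _ (n := c.r - 1) fun b hb => ?_) ?_
    · have := mem_range.1 hb
      exact (natDegree_monomial_le _).trans (by omega)
    · have := c.r_pos
      omega
  · rw [← sum_co s, map_sum]
    refine Finset.sum_congr rfl fun b hb => ?_
    rw [hp b (mem_range.1 hb), rat_pol, ev_monomial]

theorem exists_denom (s : c.K) : ∃ (u : k[X]) (G : k[X][X]), u ≠ 0 ∧ G.natDegree < c.r ∧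
    c.ev G = c.pol u * s := by
  have h0 : ∏ b ∈ range c.r, (c.co b s).denom ≠ 0 :=
    prod_ne_zero_iff.2 fun b _ => RatFunc.denom_ne_zero _
  obtain ⟨G, h1, h2⟩ := exists_ev_of_co (s := c.pol (∏ b ∈ range c.r, (c.co b s).denom) * s)
    fun b hb => by
      obtain ⟨w, hw⟩ := Finset.dvd_prod_of_mem (fun b => (c.co b s).denom) (mem_range.2 hb)
      refine ⟨w * (c.co b s).num, ?_⟩
      rw [← rat_pol, co_rat_mul, hw, map_mul, map_mul]
      have := RatFunc.algebraMap_ne_zero (RatFunc.denom_ne_zero (c.co b s))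
      rw [mul_right_comm, mul_comm]
      congr 1
      rw [mul_comm, eq_comm, ← div_eq_iff this, RatFunc.num_div_denom]
  exact ⟨_, G, h0, h1, h2⟩

/-! ### automorphisms of the constants -/

variable (c) in
/-- an automorphism of `k` which fixes `F` -/
structure Aut where
  /-- the automorphism -/
  σ : k ≃+* k
  hF : c.F.map (σ : k →+* k) = c.F

/-- the extension to the function field -/
noncomputable def Aut.sig (a : c.Aut) : c.K →+* c.K :=
  AdjoinRoot.lift (IsFractionRing.lift (K := RatFunc k)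
    (g := c.pol.comp (mapRingHom (a.σ : k →+* k)))
    (c.pol_injective.comp (map_injective _ a.σ.injective))) c.y (by
      rw [eval₂_eqn, IsFractionRing.lift_algebraMap, y_pow, RingHom.comp_apply, coe_mapRingHom,
        a.hF, sub_self])

@[simp] theorem Aut.sig_pol (a : c.Aut) (p : k[X]) :
    a.sig (c.pol p) = c.pol (p.map (a.σ : k →+* k)) := by
  rw [← rat_pol]
  exact (AdjoinRoot.lift_of _).trans (IsFractionRing.lift_algebraMap _ p)

@[simp] theorem Aut.sig_y (a : c.Aut) : a.sig c.y = c.y := AdjoinRoot.lift_root _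

@[simp] theorem Aut.sig_cst (a : c.Aut) (b : k) : a.sig (c.cst b) = c.cst (a.σ b) := by
  rw [← pol_C, Aut.sig_pol, map_C, pol_C]
  rfl

theorem Aut.sig_ne (a : c.Aut) {s : c.K} (hs : s ≠ 0) : a.sig s ≠ 0 :=
  (_root_.map_ne_zero a.sig).2 hs

theorem Aut.sig_tau (a : c.Aut) {z : c.Mu} (hz : a.σ z.val = z.val) (s : c.K) :
    a.sig (c.tau z s) = c.tau z (a.sig s) := by
  have : a.sig.comp (c.tau z : c.K →+* c.K) = (c.tau z : c.K →+* c.K).comp a.sig :=
    hom_ext (fun p => by simp) (by simp [hz])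
  exact RingHom.congr_fun this s

theorem Aut.sig_ev (a : c.Aut) (G : k[X][X]) :
    a.sig (c.ev G) = c.ev (G.map (mapRingHom (a.σ : k →+* k))) := by
  have : a.sig.comp c.ev = c.ev.comp (mapRingHom (mapRingHom (a.σ : k →+* k))) :=
    Polynomial.ringHom_ext (fun p => by simp) (by simp)
  exact RingHom.congr_fun this G

end Cv

end Vale.Agent.P319
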