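import Vale.Agent.P319.Cv.Laurent
import Mathlib.FieldTheory.KummerPolynomial
import Mathlib.FieldTheory.IsAlgClosed.Basic
import Mathlib.FieldTheory.Separable
import Mathlib.FieldTheory.RatFunc.AsPolynomial
import Mathlib.RingTheory.RootsOfUnity.EnoughRootsOfUnity

/-!
P319: the curve `y ^ r = F(x)`, its places and divisors (definitions).
-/

open Polynomial

namespace Vale.Agent.P319

/-- the data of a curve `y ^ r = F(x)`, `r` an odd prime dividing the degree of `F` -/
structure Cv (k : Type) [Field k] where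
  /-- the degree of the cover -/
  r : ℕ
  /-- `deg F / r` -/
  nu : ℕ
  /-- the polynomial -/
  F : k[X]
  hr : r.Prime
  hodd : Odd r
  hrk : (r : k) ≠ 0
  hnu : 0 < nu
  hdeg : F.natDegree = r * nu
  hsep : F.Separable

namespace Cv

variable {k : Type} [Field k] (C : Cv k)

/-- the degree of `F` -/
def n : ℕ := C.r * C.nu

theorem r_pos : 0 < C.r := C.hr.pos

theorem n_pos : 0 < C.n := Nat.mul_pos C.r_pos C.hnu

theorem F_ne : C.F ≠ 0 := C.hsep.ne_zero

theorem lead_ne : C.F.leadingCoeff ≠ 0 := leadingCoeff_ne_zero.2 C.F_ne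

/-- the equation of the curve over the rational function field -/
noncomputable def eqn : (RatFunc k)[X] := X ^ C.r - Polynomial.C (algebraMap k[X] (RatFunc k) C.F)

theorem eqn_irred : Irreducible C.eqn := by
  refine X_pow_sub_C_irreducible_of_prime C.hr fun b hb => ?_
  have hint : IsIntegral k[X] b := ⟨X ^ C.r - Polynomial.C C.F,
    monic_X_pow_sub_C _ C.hr.ne_zero, by rw [eval₂_sub, eval₂_C, eval₂_X_pow, hb, sub_self]⟩
  obtain ⟨c, rfl⟩ := IsIntegrallyClosed.isIntegral_iff.1 hint
  have h1 : c ^ C.r = C.F := by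
    apply IsFractionRing.injective k[X] (RatFunc k)
    rw [map_pow, hb]
  have h2 : IsUnit c := C.hsep.squarefree c (by
    rw [← h1, ← sq]
    exact pow_dvd_pow c C.hr.two_le)
  have h3 := natDegree_eq_zero_of_isUnit (h2.pow C.r)
  rw [h1, C.hdeg] at h3
  exact C.n_pos.ne' h3

theorem eval₂_eqn {S : Type} [CommRing S] (i : RatFunc k →+* S) (Y : S) :
    C.eqn.eval₂ i Y = Y ^ C.r - i (algebraMap k[X] (RatFunc k) C.F) := by
  rw [eqn, eval₂_sub, eval₂_X_pow, eval₂_C]

instance : Fact (Irreducible C.eqn) := ⟨C.eqn_irred⟩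

/-- the function field -/
abbrev K : Type := AdjoinRoot C.eqn

/-- the function `y` -/
noncomputable def y : C.K := AdjoinRoot.root C.eqn

/-- polynomials in `x` as functions -/
noncomputable abbrev pol : k[X] →+* C.K := algebraMap k[X] C.K

/-- rational functions in `x` as functions -/
noncomputable abbrev rat : RatFunc k →+* C.K := algebraMap (RatFunc k) C.K

/-- constants as functions -/
noncomputable abbrev cst : k →+* C.K := algebraMap k C.K

theorem rat_pol (u : k[X]) : C.rat (algebraMap k[X] (RatFunc k) u) = C.pol u :=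
  (IsScalarTower.algebraMap_apply k[X] (RatFunc k) C.K u).symm

theorem pol_C (c : k) : C.pol (Polynomial.C c) = C.cst c :=
  (IsScalarTower.algebraMap_apply k k[X] C.K c).symm

theorem pol_injective : Function.Injective C.pol := fun u v h => by
  rw [← rat_pol, ← rat_pol] at h
  exact IsFractionRing.injective k[X] (RatFunc k) (C.rat.injective h)

theorem pol_ne {u : k[X]} (hu : u ≠ 0) : C.pol u ≠ 0 := fun h =>
  hu (C.pol_injective (by rw [h, map_zero]))

theorem y_pow : C.y ^ C.r = C.pol C.F := by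
  have := AdjoinRoot.eval₂_root C.eqn
  rw [eval₂_eqn, sub_eq_zero] at this
  rw [← rat_pol]
  exact this

theorem y_ne : C.y ≠ 0 := fun h => C.pol_ne C.F_ne (by rw [← y_pow, h, zero_pow C.hr.ne_zero])

/-- polynomials in `x` and `Y` as functions -/
noncomputable def ev : k[X][X] →+* C.K := eval₂RingHom C.pol C.y

@[simp] theorem ev_X : C.ev X = C.y := eval₂_X _ _

@[simp] theorem ev_C (u : k[X]) : C.ev (Polynomial.C u) = C.pol u := eval₂_C _ _

/-- the group of the `r`-th roots of unity -/
abbrev Mu : Type := rootsOfUnity C.r k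

variable {C}

/-- the value of a root of unity -/
def Mu.val (z : C.Mu) : k := ((z : kˣ) : k)

theorem Mu.val_pow_r (z : C.Mu) : z.val ^ C.r = 1 := by
  have := (mem_rootsOfUnity _ _).1 z.2
  rw [Mu.val, ← Units.val_pow_eq_pow_val, this, Units.val_one]

@[simp] theorem Mu.val_one : (1 : C.Mu).val = 1 := rfl

@[simp] theorem Mu.val_mul (z w : C.Mu) : (z * w).val = z.val * w.val := rfl

@[simp] theorem Mu.val_pow (z : C.Mu) (l : ℕ) : (z ^ l).val = z.val ^ l := by
  simp [Mu.val]

theorem Mu.val_ne (z : C.Mu) : z.val ≠ 0 := Units.ne_zero _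

theorem Mu.val_injective : Function.Injective (Mu.val : C.Mu → k) :=
  fun _ _ h => Subtype.ext (Units.ext h)

theorem Mu.exists_val {z : k} (hz : z ^ C.r = 1) : ∃ w : C.Mu, w.val = z :=
  have : NeZero C.r := ⟨C.hr.ne_zero⟩
  ⟨rootsOfUnity.mkOfPowEq z hz, rfl⟩

variable (C)

/-- the deck transformation `y ↦ z y` -/
noncomputable def tau (z : C.Mu) : C.K →ₐ[RatFunc k] C.K :=
  AdjoinRoot.liftAlgHom C.eqn (Algebra.ofId _ _) (C.cst z.val * C.y) (by
    rw [eval₂_eqn, mul_pow, ← map_pow, Mu.val_pow_r, map_one, one_mul, y_pow, ← rat_pol]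
    exact sub_self _)

@[simp] theorem tau_y (z : C.Mu) : C.tau z C.y = C.cst z.val * C.y :=
  AdjoinRoot.liftAlgHom_root _ _ _ _

@[simp] theorem tau_rat (z : C.Mu) (u : RatFunc k) : C.tau z (C.rat u) = C.rat u :=
  (C.tau z).commutes u

@[simp] theorem tau_pol (z : C.Mu) (u : k[X]) : C.tau z (C.pol u) = C.pol u := by
  rw [← rat_pol, tau_rat]

@[simp] theorem tau_cst (z : C.Mu) (c : k) : C.tau z (C.cst c) = C.cst c := by
  rw [← pol_C, tau_pol]

theorem tau_one (s : C.K) : C.tau 1 s = s := by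
  have : C.tau 1 = AlgHom.id _ _ := AdjoinRoot.algHom_ext (by
    change C.tau 1 C.y = C.y
    simp)
  rw [this]; rfl

theorem tau_tau (z w : C.Mu) (s : C.K) : C.tau z (C.tau w s) = C.tau (z * w) s := by
  have : (C.tau z).comp (C.tau w) = C.tau (z * w) := AdjoinRoot.algHom_ext (by
    change C.tau z (C.tau w C.y) = C.tau (z * w) C.y
    simp only [tau_y, map_mul, tau_cst, Mu.val_mul]
    ring)
  rw [← this]; rfl

/-- `g τ(g) ⋯ τ^(j-1)(g)` -/
noncomputable def pp (z : C.Mu) (g : C.K) (j : ℕ) : C.K := ∏ l ∈ Finset.range j, C.tau (z ^ l) g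

/-- the norm -/
noncomputable def nm (z : C.Mu) (g : C.K) : C.K := C.pp z g C.r

/-- the trace -/
noncomputable def tr (z : C.Mu) (g : C.K) : C.K := ∑ l ∈ Finset.range C.r, C.tau (z ^ l) g

/-! ### Places -/

/-- the points of the curve -/
inductive Pt : Type
  | aff (x0 y0 : k) (h : y0 ^ C.r = C.F.eval x0) : Pt
  | inf (w : k) (h : w ^ C.r = C.F.leadingCoeff) : Pt

variable {C}

/-- points at infinity -/
def Pt.IsInf : C.Pt → Prop
  | .aff _ _ _ => False
  | .inf _ _ => True

/-- ramified points -/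
def Pt.IsRam : C.Pt → Prop
  | .aff _ y0 _ => y0 = 0
  | .inf _ _ => False

/-- the abscissa of an affine point -/
def Pt.x0 : C.Pt → k
  | .aff x0 _ _ => x0
  | .inf _ _ => 0

open Classical in
/-- the ramification index -/
noncomputable def Pt.e (P : C.Pt) : ℕ := if P.IsRam then C.r else 1

/-- the ramified point above a root of `F` -/
def ram (a : k) (ha : C.F.eval a = 0) : C.Pt :=
  .aff a 0 (by rw [ha, zero_pow C.hr.ne_zero])

instance : MulAction C.Mu C.Pt where
  smul z P := match P with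
    | .aff x0 y0 h => .aff x0 (z.val * y0) (by rw [mul_pow, Mu.val_pow_r, one_mul, h])
    | .inf w h => .inf (z.val * w) (by rw [mul_pow, Mu.val_pow_r, one_mul, h])
  one_smul P := by
    cases P with
    | aff x0 y0 h => change Pt.aff _ (1 * y0) _ = _; simp
    | inf w h => change Pt.inf (1 * w) _ = _; simp
  mul_smul z w P := by
    cases P with
    | aff x0 y0 h =>
      change Pt.aff _ (z.val * w.val * y0) _ = Pt.aff _ (z.val * (w.val * y0)) _
      simp [mul_assoc]
    | inf v h =>
      change Pt.inf (z.val * w.val * v) _ = Pt.inf (z.val * (w.val * v)) _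
      simp [mul_assoc]

theorem smul_aff (z : C.Mu) (x0 y0 : k) (h) : z • (Pt.aff x0 y0 h : C.Pt) =
    .aff x0 (z.val * y0) (by rw [mul_pow, Mu.val_pow_r, one_mul, h]) := rfl

theorem smul_inf (z : C.Mu) (w : k) (h) : z • (Pt.inf w h : C.Pt) =
    .inf (z.val * w) (by rw [mul_pow, Mu.val_pow_r, one_mul, h]) := rfl

/-- the expansion of `x` at a point -/
noncomputable def Pt.xs (P : C.Pt) : LaurentSeries k := match P with
  | .aff x0 y0 h => HahnSeries.C x0 + HahnSeries.single ((Pt.aff x0 y0 h : C.Pt).e : ℤ) 1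
  | .inf _ _ => HahnSeries.single (-1 : ℤ) 1

open Classical in
/-- the order of `y` at a point -/
noncomputable def Pt.oy (P : C.Pt) : ℤ := match P with
  | .aff _ y0 _ => if y0 = 0 then 1 else 0
  | .inf _ _ => -(C.nu : ℤ)

theorem Pt.e_pos (P : C.Pt) : 0 < P.e := by
  unfold Pt.e
  split_ifs
  · exact C.r_pos
  · exact one_pos

theorem Pt.eval₂_ne (P : C.Pt) {u : k[X]} (hu : u ≠ 0) : u.eval₂ HahnSeries.C P.xs ≠ 0 := by
  intro h0
  cases P with
  | aff x0 y0 h =>
    obtain ⟨-, h2, h3⟩ := eval₂_aff x0 (Pt.aff x0 y0 h : C.Pt).e_pos hu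
    apply h3
    rw [← h2]
    exact (congrArg (fun f => HahnSeries.coeff f _) h0).trans rfl
  | inf w h =>
    apply leadingCoeff_ne_zero.2 hu
    rw [← (eval₂_inf u).2]
    exact (congrArg (fun f => HahnSeries.coeff f _) h0).trans rfl

/-- the expansion of rational functions at a point -/
noncomputable def Pt.ratx (P : C.Pt) : RatFunc k →+* LaurentSeries k :=
  RatFunc.liftRingHom (eval₂RingHom HahnSeries.C P.xs) fun _ hu =>
    mem_nonZeroDivisors_of_ne_zero (P.eval₂_ne (nonZeroDivisors.ne_zero hu))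

theorem Pt.ratx_pol (P : C.Pt) (u : k[X]) :
    P.ratx (algebraMap k[X] (RatFunc k) u) = u.eval₂ HahnSeries.C P.xs :=
  RatFunc.liftRingHom_algebraMap _ _ _

variable [IsAlgClosed k]

theorem Pt.exists_ys (P : C.Pt) : ∃ Y : LaurentSeries k, Y ^ C.r = C.F.eval₂ HahnSeries.C P.xs ∧
    Ge P.oy Y ∧ Y.coeff P.oy ≠ 0 ∧ (∀ x0 y0 h, P = .aff x0 y0 h → y0 ≠ 0 → Y.coeff 0 = y0) ∧
    ∀ w h, P = .inf w h → Y.coeff (-(C.nu : ℤ)) = w := by
  cases P with
  | aff x0 y0 h =>
    obtain ⟨h1, h2, h3⟩ := eval₂_aff x0 (Pt.aff x0 y0 h : C.Pt).e_pos C.F_ne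
    by_cases hy : y0 = 0
    · have hroot : C.F.IsRoot x0 := by rw [IsRoot.def, ← h, hy, zero_pow C.hr.ne_zero]
      have hm : C.F.rootMultiplicity x0 = 1 :=
        le_antisymm (rootMultiplicity_le_one_of_separable C.hsep x0)
          ((rootMultiplicity_pos C.F_ne).2 hroot)
      have he : (Pt.aff x0 y0 h : C.Pt).e = C.r := if_pos hy
      have ho : (Pt.aff x0 y0 h : C.Pt).oy = 1 := if_pos hy
      obtain ⟨κ, hκ⟩ := IsAlgClosed.exists_pow_nat_eq
        ((C.F /ₘ (X - Polynomial.C x0) ^ C.F.rootMultiplicity x0).eval x0) C.r_pos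
      have hκ0 : κ ≠ 0 := by rintro rfl; exact h3 (by rw [← hκ, zero_pow C.hr.ne_zero])
      have e1 : (C.F.rootMultiplicity x0 : ℤ) * ((Pt.aff x0 y0 h : C.Pt).e : ℤ) = C.r * 1 := by
        rw [hm, he]; simp
      rw [e1] at h1 h2
      obtain ⟨Y, k1, k2, k3⟩ := exists_root C.hrk hκ0 h1 (h2.trans hκ.symm)
      refine ⟨Y, k1, by rwa [ho], by rw [ho, k3]; exact hκ0, ?_, ?_⟩
      · intro a b c e hb
        cases e
        exact absurd hy hb
      · intro a b e
        cases e
    · have hm : C.F.rootMultiplicity x0 = 0 := rootMultiplicity_eq_zero (by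
        rw [IsRoot.def, ← h]; exact pow_ne_zero _ hy)
      have ho : (Pt.aff x0 y0 h : C.Pt).oy = 0 := if_neg hy
      have e1 : (C.F.rootMultiplicity x0 : ℤ) * ((Pt.aff x0 y0 h : C.Pt).e : ℤ) = C.r * 0 := by
        rw [hm]; simp
      rw [e1] at h1 h2
      rw [hm, pow_zero, divByMonic_one, ← h] at h2
      obtain ⟨Y, k1, k2, k3⟩ := exists_root C.hrk hy h1 h2
      refine ⟨Y, k1, by rwa [ho], by rw [ho, k3]; exact hy, ?_, ?_⟩
      · intro a b c e hb
        cases e
        exact k3
      · intro a b e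
        cases e
  | inf w h =>
    obtain ⟨h1, h2⟩ := eval₂_inf C.F
    have hw : w ≠ 0 := by rintro rfl; exact C.lead_ne (by rw [← h, zero_pow C.hr.ne_zero])
    have e1 : -(C.F.natDegree : ℤ) = C.r * -(C.nu : ℤ) := by rw [C.hdeg]; push_cast; ring
    rw [e1] at h1 h2
    obtain ⟨Y, k1, k2, k3⟩ := exists_root C.hrk hw h1 (h2.trans h.symm)
    refine ⟨Y, k1, k2, by change Y.coeff (-(C.nu : ℤ)) ≠ 0; rw [k3]; exact hw, ?_, ?_⟩
    · intro a b c e
      cases e
    · intro a b e
      cases e
      exact k3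

/-- the expansion of `y` at a point -/
noncomputable def Pt.ys (P : C.Pt) : LaurentSeries k := P.exists_ys.choose

/-- the expansion of functions at a point -/
noncomputable def Pt.iota (P : C.Pt) : C.K →+* LaurentSeries k :=
  AdjoinRoot.lift P.ratx P.ys (by
    rw [eval₂_eqn, Pt.ratx_pol, Pt.ys, P.exists_ys.choose_spec.1]
    exact sub_self _)

theorem Pt.iota_y (P : C.Pt) : P.iota C.y = P.ys := AdjoinRoot.lift_root _

theorem Pt.iota_rat (P : C.Pt) (u : RatFunc k) : P.iota (C.rat u) = P.ratx u :=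
  AdjoinRoot.lift_of _

theorem Pt.iota_pol (P : C.Pt) (u : k[X]) : P.iota (C.pol u) = u.eval₂ HahnSeries.C P.xs := by
  rw [← rat_pol, Pt.iota_rat, Pt.ratx_pol]

theorem Pt.iota_cst (P : C.Pt) (c : k) : P.iota (C.cst c) = HahnSeries.C c := by
  rw [← pol_C, Pt.iota_pol, eval₂_C]

/-- the order of a function at a point (`0` for the zero function) -/
noncomputable def Pt.ord (P : C.Pt) (s : C.K) : ℤ := (P.iota s).order

/-- the functions of order at least `m` -/
def Pt.V (P : C.Pt) (m : ℤ) : Submodule k C.K where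
  carrier := {s | Ge m (P.iota s)}
  add_mem' ha hb := by
    change Ge m _
    rw [map_add]
    exact Ge.add ha hb
  zero_mem' := by
    change Ge m _
    rw [map_zero]
    exact Ge.zero m
  smul_mem' c s hs := by
    change Ge m _
    rw [Algebra.smul_def, map_mul, Pt.iota_cst]
    simpa using (ge_C c).mul hs

/-- the coefficient of `t ^ m` -/
noncomputable def Pt.lc (P : C.Pt) (m : ℤ) : C.K →ₗ[k] k where
  toFun s := (P.iota s).coeff m
  map_add' a b := by rw [map_add, HahnSeries.coeff_add]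
  map_smul' c s := by
    rw [Algebra.smul_def, map_mul, Pt.iota_cst, HahnSeries.C_mul_eq_smul]
    simp

variable (C)

/-! ### Divisors -/

/-- divisors -/
abbrev Div : Type := C.Pt →₀ ℤ

open Classical in
/-- the divisor of a function -/
noncomputable def div (s : C.K) : C.Div :=
  if h : (Function.support fun P : C.Pt => P.ord s).Finite then Finsupp.ofSupportFinite _ h else 0

open Classical in
/-- the sum of the points at infinity -/
noncomputable def H : C.Div :=
  if h : (Function.support fun P : C.Pt => if P.IsInf then (1 : ℤ) else 0).Finite then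
    Finsupp.ofSupportFinite _ h else 0

open Classical in
/-- the sum of the ramified points -/
noncomputable def R : C.Div :=
  if h : (Function.support fun P : C.Pt => if P.IsRam then (1 : ℤ) else 0).Finite then
    Finsupp.ofSupportFinite _ h else 0

/-- the degree of a divisor -/
noncomputable def deg : C.Div →+ ℤ := Finsupp.degree

/-- the action of the deck transformations on divisors -/
noncomputable def tD (z : C.Mu) : C.Div →+ C.Div :=
  (Finsupp.domCongr (MulAction.toPerm z⁻¹) : C.Div ≃+ C.Div).toAddMonoidHom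

/-- `D + τ D + ⋯ + τ^(j-1) D` -/
noncomputable def sD (z : C.Mu) (D : C.Div) (j : ℕ) : C.Div :=
  ∑ l ∈ Finset.range j, C.tD (z ^ l) D

/-- the norm of a divisor -/
noncomputable def nD (z : C.Mu) (D : C.Div) : C.Div := C.sD z D C.r

/-- the Riemann-Roch space -/
noncomputable def L (D : C.Div) : Submodule k C.K := ⨅ P : C.Pt, P.V (-D P)

/-- the divisors of functions, up to multiples of `H` -/
def Triv (D : C.Div) : Prop := ∃ s : C.K, s ≠ 0 ∧ ∃ m : ℤ, D = C.div s + m • C.H

/-- the monomials `x^a Y^b`, `b < r`, `a + b ν ≤ m` -/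
noncomputable def mons (r nu m : ℕ) (R : Type) [CommRing R] : List R[X][X] :=
  (List.range r).flatMap fun b => (List.range (m + 1 - b * nu)).map fun a =>
    monomial b (monomial a (1 : R))

end Cv

end Vale.Agent.P319
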