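import Mathlib.RingTheory.LaurentSeries
import Mathlib.RingTheory.Henselian
import Mathlib.RingTheory.AdicCompletion.Completeness
import Mathlib.RingTheory.RootsOfUnity.PrimitiveRoots

/-!
P319: Laurent series: the filtration by the order, roots, twists.
-/

open Polynomial HahnSeries

namespace Vale.Agent.P319

variable {k : Type} [Field k]

/-- `f` has no coefficient below `m` -/
def Ge (m : ℤ) (f : LaurentSeries k) : Prop := ∀ j < m, f.coeff j = 0

theorem Ge.zero (m : ℤ) : Ge m (0 : LaurentSeries k) := fun _ _ => rfl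

theorem Ge.mono {m m' : ℤ} {f : LaurentSeries k} (h : Ge m f) (hm : m' ≤ m) : Ge m' f :=
  fun j hj => h j (hj.trans_le hm)

theorem Ge.add {m : ℤ} {f g : LaurentSeries k} (hf : Ge m f) (hg : Ge m g) : Ge m (f + g) :=
  fun j hj => by rw [HahnSeries.coeff_add, hf j hj, hg j hj, add_zero]

theorem Ge.neg {m : ℤ} {f : LaurentSeries k} (hf : Ge m f) : Ge m (-f) :=
  fun j hj => by rw [HahnSeries.coeff_neg, hf j hj, neg_zero]

theorem ge_iff_order {m : ℤ} {f : LaurentSeries k} (hf : f ≠ 0) : Ge m f ↔ m ≤ f.order := by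
  constructor
  · intro h
    by_contra hc
    exact hf (coeff_order_eq_zero.1 (h _ (not_le.1 hc)))
  · intro h j hj
    exact coeff_eq_zero_of_lt_order (hj.trans_le h)

theorem ge_order (f : LaurentSeries k) : Ge f.order f := fun _ hj => coeff_eq_zero_of_lt_order hj

theorem ge_succ_iff {m : ℤ} {f : LaurentSeries k} : Ge (m + 1) f ↔ Ge m f ∧ f.coeff m = 0 := by
  constructor
  · intro h
    exact ⟨h.mono (by omega), h m (by omega)⟩
  · rintro ⟨h1, h2⟩ j hj
    rcases lt_or_eq_of_le (Int.lt_add_one_iff.1 hj) with h | rfl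
    · exact h1 j h
    · exact h2

theorem order_eq_of_ge {m : ℤ} {f : LaurentSeries k} (h : Ge m f) (h0 : f.coeff m ≠ 0) :
    f.order = m := by
  have hf : f ≠ 0 := by rintro rfl; exact h0 rfl
  exact le_antisymm (order_le_of_coeff_ne_zero h0) ((ge_iff_order hf).1 h)

theorem Ge.mul {m m' : ℤ} {f g : LaurentSeries k} (hf : Ge m f) (hg : Ge m' g) :
    Ge (m + m') (f * g) := by
  by_cases h1 : f = 0
  · rw [h1, zero_mul]; exact Ge.zero _
  by_cases h2 : g = 0
  · rw [h2, mul_zero]; exact Ge.zero _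
  rw [ge_iff_order (mul_ne_zero h1 h2), order_mul h1 h2]
  exact add_le_add ((ge_iff_order h1).1 hf) ((ge_iff_order h2).1 hg)

theorem Ge.coeff_mul {m m' : ℤ} {f g : LaurentSeries k} (hf : Ge m f) (hg : Ge m' g) :
    (f * g).coeff (m + m') = f.coeff m * g.coeff m' := by
  by_cases h1 : f.coeff m = 0
  · have := (ge_succ_iff.2 ⟨hf, h1⟩).mul hg
    rw [h1, zero_mul]
    exact this _ (by omega)
  by_cases h2 : g.coeff m' = 0
  · have := hf.mul (ge_succ_iff.2 ⟨hg, h2⟩)
    rw [h2, mul_zero]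
    exact this _ (by omega)
  have e1 := order_eq_of_ge hf h1
  have e2 := order_eq_of_ge hg h2
  have := coeff_mul_order_add_order f g
  rw [leadingCoeff_eq, leadingCoeff_eq, e1, e2] at this
  exact this

theorem ge_single (m : ℤ) (c : k) : Ge m (single m c : LaurentSeries k) :=
  fun _ hj => coeff_single_of_ne hj.ne

theorem ge_C (c : k) : Ge 0 (HahnSeries.C c : LaurentSeries k) := ge_single 0 c

theorem Ge.pow {m : ℤ} {f : LaurentSeries k} (hf : Ge m f) (n : ℕ) :
    Ge (n * m) (f ^ n) ∧ (f ^ n).coeff (n * m) = f.coeff m ^ n := by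
  induction n with
  | zero =>
    simp only [Nat.cast_zero, zero_mul, pow_zero]
    exact ⟨by simpa using ge_C (1 : k), by simp⟩
  | succ n ih =>
    have e : ((n + 1 : ℕ) : ℤ) * m = n * m + m := by push_cast; ring
    rw [e, pow_succ, pow_succ]
    exact ⟨ih.1.mul hf, by rw [ih.1.coeff_mul hf, ih.2]⟩

theorem ge_ofPowerSeries (u : PowerSeries k) : Ge 0 (ofPowerSeries ℤ k u) ∧
    (ofPowerSeries ℤ k u).coeff 0 = PowerSeries.constantCoeff u := by
  refine ⟨fun j hj => ?_, ?_⟩
  · exact PowerSeries.coeff_coe u j |>.trans (if_pos hj)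
  · have := ofPowerSeries_apply_coeff (Γ := ℤ) u 0
    simpa using this

theorem exists_ofPowerSeries {f : LaurentSeries k} (hf : Ge 0 f) :
    ∃ u : PowerSeries k, ofPowerSeries ℤ k u = f := by
  refine ⟨PowerSeries.mk fun n => f.coeff n, ?_⟩
  ext j
  rw [show (ofPowerSeries ℤ k (PowerSeries.mk fun n => f.coeff n)).coeff j = _ from
    PowerSeries.coeff_coe _ j]
  split_ifs with h
  · exact (hf j h).symm
  · rw [PowerSeries.coeff_mk, Int.natAbs_of_nonneg (not_lt.1 h)]

/-- existence of roots -/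
theorem exists_root {r : ℕ} (hr : (r : k) ≠ 0) {G : LaurentSeries k} {m : ℤ} {κ : k} (hκ : κ ≠ 0)
    (h1 : Ge (r * m) G) (h2 : G.coeff (r * m) = κ ^ r) :
    ∃ Y : LaurentSeries k, Y ^ r = G ∧ Ge m Y ∧ Y.coeff m = κ := by
  have hr0 : r ≠ 0 := by rintro rfl; simp at hr
  have h3 := (ge_single (-(r * m)) (1 : k)).mul h1
  have h4 := (ge_single (-(r * m)) (1 : k)).coeff_mul h1
  rw [neg_add_cancel] at h3 h4
  rw [coeff_single_same, one_mul, h2] at h4
  obtain ⟨u, hu⟩ := exists_ofPowerSeries h3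
  have h5 : PowerSeries.constantCoeff u = κ ^ r := by rw [← (ge_ofPowerSeries u).2, hu, h4]
  have hH : HenselianRing (PowerSeries k) (Ideal.span {PowerSeries.X}) := inferInstance
  obtain ⟨a, ha, ha'⟩ := hH.is_henselian (X ^ r - Polynomial.C u) (monic_X_pow_sub_C u hr0)
    (PowerSeries.C κ) (by
      rw [Ideal.mem_span_singleton, PowerSeries.X_dvd_iff]
      simp [h5]) (by
      refine IsUnit.map _ ?_
      rw [PowerSeries.isUnit_iff_constantCoeff]
      simp [derivative_X_pow, hr, hκ])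
  rw [Ideal.mem_span_singleton, PowerSeries.X_dvd_iff, map_sub, PowerSeries.constantCoeff_C,
    sub_eq_zero] at ha'
  have ha2 : a ^ r = u := by
    have := ha
    rw [IsRoot.def, eval_sub, eval_pow, eval_X, eval_C, sub_eq_zero] at this
    exact this
  have h6 := (ge_single m (1 : k)).mul (ge_ofPowerSeries a).1
  have h7 := (ge_single m (1 : k)).coeff_mul (ge_ofPowerSeries a).1
  rw [add_zero] at h6 h7
  refine ⟨single m 1 * ofPowerSeries ℤ k a, ?_, h6, ?_⟩
  · rw [mul_pow, ← map_pow (ofPowerSeries ℤ k), ha2, hu, single_pow, ← mul_assoc,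
      single_mul_single]
    simp
  · rw [h7, coeff_single_same, one_mul, (ge_ofPowerSeries a).2, ha']

/-- uniqueness of roots -/
theorem root_unique {r : ℕ} (hr : (r : k) ≠ 0) {Y Y' : LaurentSeries k} {m : ℤ}
    (h : Y ^ r = Y' ^ r) (h1 : Ge m Y) (h2 : Ge m Y') (h3 : Y.coeff m = Y'.coeff m)
    (h4 : Y.coeff m ≠ 0) : Y = Y' := by
  have e := Commute.geom_sum₂_mul (Commute.all Y Y') r
  rw [h, sub_self] at e
  rcases mul_eq_zero.1 e with e | e
  · exfalso
    have hr0 : r ≠ 0 := by rintro rfl; simp at hr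
    have key : (∑ i ∈ Finset.range r, Y ^ i * Y' ^ (r - 1 - i)).coeff (((r - 1 : ℕ) : ℤ) * m) =
        r * Y.coeff m ^ (r - 1) := by
      rw [HahnSeries.coeff_sum, Finset.sum_congr rfl (g := fun _ => Y.coeff m ^ (r - 1))]
      · simp
      · intro i hi
        have hi' := Finset.mem_range.1 hi
        have e1 : ((r - 1 : ℕ) : ℤ) * m = (i : ℤ) * m + ((r - 1 - i : ℕ) : ℤ) * m := by
          rw [← add_mul, ← Nat.cast_add]
          congr 2
          omega
        rw [e1, (h1.pow i).1.coeff_mul (h2.pow _).1, (h1.pow i).2, (h2.pow _).2, ← h3, ← pow_add]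
        congr 1
        omega
    rw [e] at key
    exact mul_ne_zero hr (pow_ne_zero _ h4) key.symm
  · exact sub_eq_zero.1 e

/-- the twist `∑ c_m t^m ↦ ∑ ξ^m σ(c_m) t^m` -/
noncomputable def twistFun (σ : k →+* k) (ξ : k) (f : LaurentSeries k) : LaurentSeries k :=
  ⟨fun m => ξ ^ m * σ (f.coeff m), f.isPWO_support.mono fun m hm h => hm (by
    simp only [h, map_zero, mul_zero])⟩

theorem coeff_twistFun (σ : k →+* k) (ξ : k) (f : LaurentSeries k) (m : ℤ) :
    (twistFun σ ξ f).coeff m = ξ ^ m * σ (f.coeff m) := rfl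

/-- the twist as a ring homomorphism -/
noncomputable def twist (σ : k →+* k) (ξ : k) (hξ : ξ ≠ 0) :
    LaurentSeries k →+* LaurentSeries k where
  toFun := twistFun σ ξ
  map_one' := by
    ext m
    by_cases h : m = 0
    · subst h; simp [coeff_twistFun]
    · simp [coeff_twistFun, HahnSeries.coeff_one, h]
  map_mul' f g := by
    ext m
    have hs : ∀ f : LaurentSeries k, (twistFun σ ξ f).support = f.support := fun f => by
      ext j
      simp [coeff_twistFun, zpow_ne_zero _ hξ]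
    rw [coeff_twistFun, HahnSeries.coeff_mul, HahnSeries.coeff_mul, map_sum, Finset.mul_sum]
    refine Finset.sum_congr (by simp only [hs]) fun ij hij => ?_
    have := (Finset.mem_antidiagonal.1 hij).2.2
    rw [coeff_twistFun, coeff_twistFun, ← this, zpow_add₀ hξ, map_mul]
    ring
  map_zero' := by ext m; simp [coeff_twistFun]
  map_add' f g := by ext m; simp [coeff_twistFun, mul_add]

theorem coeff_twist (σ : k →+* k) (ξ : k) (hξ : ξ ≠ 0) (f : LaurentSeries k) (m : ℤ) :
    (twist σ ξ hξ f).coeff m = ξ ^ m * σ (f.coeff m) := rfl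

theorem ge_twist (σ : k →+* k) (ξ : k) (hξ : ξ ≠ 0) (f : LaurentSeries k) (m : ℤ) :
    Ge m (twist σ ξ hξ f) ↔ Ge m f := by
  refine forall₂_congr fun j _ => ?_
  simp [coeff_twist, zpow_ne_zero _ hξ]

theorem twist_single (σ : k →+* k) (ξ : k) (hξ : ξ ≠ 0) (m : ℤ) (c : k) :
    twist σ ξ hξ (single m c) = single m (ξ ^ m * σ c) := by
  ext j
  rw [coeff_twist]
  by_cases h : j = m
  · subst h; simp
  · simp [coeff_single_of_ne h]

theorem twist_C (σ : k →+* k) (ξ : k) (hξ : ξ ≠ 0) (c : k) :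
    twist σ ξ hξ (HahnSeries.C c) = HahnSeries.C (σ c) := by
  rw [HahnSeries.C_apply, twist_single, HahnSeries.C_apply]
  simp

/-! ### Polynomials in a series -/

theorem eval₂_near (x0 : k) {Z : LaurentSeries k} (hZ : Ge 1 Z) (u : k[X]) :
    Ge 0 (u.eval₂ HahnSeries.C (HahnSeries.C x0 + Z)) ∧
      (u.eval₂ HahnSeries.C (HahnSeries.C x0 + Z)).coeff 0 = u.eval x0 := by
  have h0 : Ge 0 (HahnSeries.C x0 + Z) := (ge_C x0).add (hZ.mono (by norm_num))
  have h1 : (HahnSeries.C x0 + Z).coeff 0 = x0 := by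
    rw [HahnSeries.coeff_add, hZ 0 (by norm_num)]
    simp
  induction u using Polynomial.induction_on' with
  | add p q hp hq =>
    rw [eval₂_add, eval_add, HahnSeries.coeff_add, hp.2, hq.2]
    exact ⟨hp.1.add hq.1, rfl⟩
  | monomial n c =>
    rw [eval₂_monomial, eval_monomial]
    have h2 := h0.pow n
    rw [mul_zero] at h2
    have h3 := (ge_C c).mul h2.1
    have h4 := (ge_C c).coeff_mul h2.1
    rw [add_zero] at h3 h4
    refine ⟨h3, ?_⟩
    rw [h4, h2.2, h1]
    simp

/-- order and leading coefficient of a polynomial in `x0 + t^e` -/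
theorem eval₂_aff (x0 : k) {e : ℕ} (he : 0 < e) {u : k[X]} (hu : u ≠ 0) :
    Ge ((u.rootMultiplicity x0 : ℤ) * e) (u.eval₂ HahnSeries.C (HahnSeries.C x0 + single (e : ℤ) 1)) ∧
    (u.eval₂ HahnSeries.C (HahnSeries.C x0 + single (e : ℤ) 1)).coeff
      ((u.rootMultiplicity x0 : ℤ) * e) = (u /ₘ (X - Polynomial.C x0) ^ u.rootMultiplicity x0).eval x0 ∧
    (u /ₘ (X - Polynomial.C x0) ^ u.rootMultiplicity x0).eval x0 ≠ 0 := by
  have h1 := pow_mul_divByMonic_rootMultiplicity_eq u x0
  have h2 := eval_divByMonic_pow_rootMultiplicity_ne_zero x0 hu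
  have hZ : Ge 1 (single (e : ℤ) (1 : k) : LaurentSeries k) :=
    (ge_single _ _).mono (by exact_mod_cast he)
  obtain ⟨h3, h4⟩ := eval₂_near x0 hZ (u /ₘ (X - Polynomial.C x0) ^ u.rootMultiplicity x0)
  have h5 := (ge_single (e : ℤ) (1 : k)).pow (u.rootMultiplicity x0)
  have e1 : u.eval₂ HahnSeries.C (HahnSeries.C x0 + single (e : ℤ) 1) =
      (single (e : ℤ) 1 : LaurentSeries k) ^ u.rootMultiplicity x0 *
      (u /ₘ (X - Polynomial.C x0) ^ u.rootMultiplicity x0).eval₂ HahnSeries.C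
        (HahnSeries.C x0 + single (e : ℤ) 1) := by
    conv_lhs => rw [← h1]
    rw [eval₂_mul, eval₂_pow, eval₂_sub, eval₂_X, eval₂_C, add_sub_cancel_left]
  have h6 := h5.1.mul h3
  have h7 := h5.1.coeff_mul h3
  rw [add_zero] at h6 h7
  rw [e1]
  refine ⟨h6, ?_, h2⟩
  rw [h7, h5.2, h4]
  simp

theorem coeff_eval₂_inf (u : k[X]) (j : ℤ) :
    (u.eval₂ HahnSeries.C (single (-1 : ℤ) 1 : LaurentSeries k)).coeff j =
      if j ≤ 0 then u.coeff j.natAbs else 0 := by
  induction u using Polynomial.induction_on' with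
  | add p q hp hq =>
    rw [eval₂_add, HahnSeries.coeff_add, hp, hq, Polynomial.coeff_add]
    split_ifs <;> simp
  | monomial n c =>
    rw [eval₂_monomial, single_pow, HahnSeries.C_apply, single_mul_single, coeff_monomial]
    by_cases h : j = -(n : ℤ)
    · subst h; simp
    · rw [coeff_single_of_ne (by simpa using h)]
      split_ifs with h1 h2
      · omega
      · rfl
      · rfl

/-- order and leading coefficient of a polynomial in `1/t` -/
theorem eval₂_inf (u : k[X]) :
    Ge (-(u.natDegree : ℤ)) (u.eval₂ HahnSeries.C (single (-1 : ℤ) 1 : LaurentSeries k)) ∧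
    (u.eval₂ HahnSeries.C (single (-1 : ℤ) 1 : LaurentSeries k)).coeff (-(u.natDegree : ℤ)) =
      u.leadingCoeff := by
  refine ⟨fun j hj => ?_, ?_⟩
  · rw [coeff_eval₂_inf, if_pos (by omega)]
    exact coeff_eq_zero_of_natDegree_lt (by omega)
  · rw [coeff_eval₂_inf, if_pos (by omega)]
    simp

end Vale.Agent.P319
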