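import Vale.Agent.P319.Cv.Approx
import Vale.Agent.P319.Cv.Divs
import Mathlib.LinearAlgebra.Vandermonde

/-!
P319: the first stage of the division step, preparations: traces and dual elements.
-/

open Polynomial Finset

namespace Vale.Agent.P319

namespace Cv

namespace SA

variable {k : Type} [Field k] {C : Cv k}

theorem smul_of_ram (z : C.Mu) {P : C.Pt} (h : P.IsRam) : z • P = P := by
  cases P with
  | aff x0 y0 e =>
    have : y0 = 0 := h
    subst this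
    rw [smul_aff]
    simp
  | inf w e => exact h.elim

theorem isRam_smul (z : C.Mu) (P : C.Pt) : (z • P).IsRam ↔ P.IsRam := by
  cases P with
  | aff x0 y0 e =>
    rw [smul_aff]
    simp [Pt.IsRam, z.val_ne]
  | inf w e => exact Iff.rfl

theorem isInf_smul (z : C.Mu) (P : C.Pt) : (z • P).IsInf ↔ P.IsInf := by
  cases P <;> exact Iff.rfl

theorem smul_ne (z : C.Mu) {P P' : C.Pt} (hP : P.IsRam) (h : P' ≠ P) : z • P' ≠ P := fun e =>
  h (by rw [← inv_smul_smul z P', e, smul_of_ram _ hP])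

theorem exists_ram {P : C.Pt} (h : P.IsRam) : ∃ a ha, P = ram a ha := by
  cases P with
  | aff x0 y0 e =>
    have : y0 = 0 := h
    subst this
    exact ⟨x0, by rw [← e, zero_pow C.hr.ne_zero], rfl⟩
  | inf w e => exact h.elim

theorem tD_apply (z : C.Mu) (D : C.Div) (P : C.Pt) : C.tD z D P = D (z • P) := by
  change D ((MulAction.toPerm z⁻¹).symm P) = _
  simp

theorem sD_apply (z : C.Mu) (D : C.Div) (l : ℕ) (P : C.Pt) :
    C.sD z D l P = ∑ j ∈ range l, D (z ^ j • P) := by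
  simp [sD, Finsupp.finsetSum_apply]

theorem sum_root {ξ : k} (hξ : IsPrimitiveRoot ξ C.r) {l : ℕ} (hl : l < C.r) :
    ∑ b ∈ range C.r, (ξ ^ l) ^ b = if l = 0 then (C.r : k) else 0 := by
  split_ifs with h
  · simp [h]
  · exact (hξ.pow_of_coprime l (Nat.coprime_of_lt_prime h hl C.hr).symm).geom_sum_eq_zero
      C.hr.one_lt

/-- the operator `∑ η_l τ^l` -/
noncomputable def Top (z : C.Mu) (η : ℕ → C.K) : C.K →ₗ[RatFunc k] C.K where
  toFun s := ∑ l ∈ range C.r, η l * C.tau (z ^ l) s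
  map_add' a b := by simp [mul_add, sum_add_distrib]
  map_smul' c a := by simp [smul_sum]

theorem Top_apply (z : C.Mu) (η : ℕ → C.K) (s : C.K) :
    Top z η s = ∑ l ∈ range C.r, η l * C.tau (z ^ l) s := rfl

theorem Top_rat (z : C.Mu) (η : ℕ → C.K) (q : RatFunc k) (s : C.K) :
    Top z η (C.rat q * s) = C.rat q * Top z η s := by
  rw [← Algebra.smul_def, map_smul, Algebra.smul_def]

theorem tr_add (z : C.Mu) (s t : C.K) : C.tr z (s + t) = C.tr z s + C.tr z t := by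
  simp [tr, sum_add_distrib]

theorem tr_rat (z : C.Mu) (q : RatFunc k) (s : C.K) :
    C.tr z (C.rat q * s) = C.rat q * C.tr z s := by
  simp only [tr, map_mul, tau_rat, mul_sum]

theorem tau_pow_y (z : C.Mu) (b : ℕ) : C.tau z (C.y ^ b) = C.cst (z.val ^ b) * C.y ^ b := by
  rw [map_pow, tau_y, mul_pow, map_pow]

theorem ind_y {p : C.K → Prop} (h0 : p 0) (hadd : ∀ s t, p s → p t → p (s + t))
    (hy : ∀ (q : RatFunc k), ∀ b < C.r, p (C.rat q * C.y ^ b)) (s : C.K) : p s := by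
  have hm : C.eqn.Monic := monic_X_pow_sub_C _ C.hr.ne_zero
  have hd : (AdjoinRoot.powerBasis' hm).dim = C.r := natDegree_X_pow_sub_C
  rw [← (AdjoinRoot.powerBasis' hm).basis.sum_repr s]
  refine sum_induction _ p hadd h0 fun i _ => ?_
  rw [PowerBasis.basis_eq_pow, Algebra.smul_def]
  exact hy _ _ (hd ▸ i.2)

/-- the inversion formula -/
theorem sumid (z : C.Mu) {ξ : k} (hξ : IsPrimitiveRoot ξ C.r) {w : C.K} (hw : w ≠ 0)
    (h : ∀ l, C.tau (z ^ l) w = C.cst (ξ ^ l) * w) (s : C.K) :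
    ∑ b ∈ range C.r, C.tr z (s * w ^ b) * w⁻¹ ^ b = C.cst C.r * s := by
  have h1 : ∀ b, C.tr z (s * w ^ b) * w⁻¹ ^ b =
      ∑ l ∈ range C.r, C.cst ((ξ ^ l) ^ b) * C.tau (z ^ l) s := by
    intro b
    rw [tr, sum_mul]
    refine sum_congr rfl fun l _ => ?_
    rw [map_mul, map_pow, h, mul_pow, map_pow C.cst (ξ ^ l), inv_pow]
    have := pow_ne_zero b hw
    field_simp
  rw [sum_congr rfl fun b _ => h1 b, sum_comm]
  rw [sum_congr rfl fun l hl => by
    rw [← sum_mul, ← map_sum, sum_root hξ (mem_range.1 hl)]]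
  rw [sum_eq_single 0]
  · simp [tau_one]
  · intro l _ hl
    simp [hl]
  · intro h
    exact (h (mem_range.2 C.r_pos)).elim

theorem tr_y_div {z : C.Mu} (hz : IsPrimitiveRoot z.val C.r) {b b' : ℕ} (hb : b < C.r)
    (hb' : b' < C.r) : C.tr z (C.y⁻¹ ^ b * C.y ^ b') = if b = b' then C.cst C.r else 0 := by
  have h1 : ∀ l, C.tau (z ^ l) (C.y⁻¹ ^ b * C.y ^ b') =
      C.cst ((z.val⁻¹ ^ b * z.val ^ b') ^ l) * (C.y⁻¹ ^ b * C.y ^ b') := by
    intro l
    have := (map_ne_zero C.cst).2 z.val_ne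
    simp only [map_mul, map_pow, map_inv₀, tau_y, Mu.val_pow, mul_pow, inv_pow, mul_inv]
    rw [← pow_mul, ← pow_mul, ← pow_mul, ← pow_mul, mul_comm l, mul_comm l]
    ring
  rw [tr, sum_congr rfl fun l _ => h1 l, ← sum_mul, ← map_sum]
  split_ifs with h
  · subst h
    have h2 := z.val_ne
    have h3 := C.y_ne
    rw [← mul_pow, ← mul_pow, inv_mul_cancel₀ h2, inv_mul_cancel₀ h3]
    simp
  · have h2 : (z.val⁻¹ ^ b * z.val ^ b') ≠ 1 := fun e => h (hz.pow_inj hb hb' (by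
      rw [inv_pow, inv_mul_eq_one₀ (pow_ne_zero _ z.val_ne)] at e
      exact e))
    have h3 : (z.val⁻¹ ^ b * z.val ^ b') ^ C.r = 1 := by
      rw [mul_pow, pow_right_comm, pow_right_comm z.val, inv_pow, z.val_pow_r]
      simp
    have h4 := mul_neg_geom_sum (z.val⁻¹ ^ b * z.val ^ b') C.r
    rw [h3, sub_self, mul_eq_zero, sub_eq_zero] at h4
    rw [h4.resolve_left h2.symm]
    simp

theorem exists_rat_tr {z : C.Mu} (hz : IsPrimitiveRoot z.val C.r) (s : C.K) :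
    ∃ q, C.tr z s = C.rat q := by
  refine ind_y (p := fun s => ∃ q, C.tr z s = C.rat q) ⟨0, by simp [tr]⟩ ?_ ?_ s
  · rintro s t ⟨q, hq⟩ ⟨q', hq'⟩
    exact ⟨q + q', by rw [tr_add, hq, hq', map_add]⟩
  · intro q b hb
    have h := tr_y_div hz C.r_pos hb
    rw [pow_zero, one_mul] at h
    rw [tr_rat, h]
    split_ifs
    · exact ⟨q * C.r, by simp⟩
    · exact ⟨0, by simp⟩

/-- the dual element of a linear form -/
theorem exists_beta {z : C.Mu} (hz : IsPrimitiveRoot z.val C.r)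
    (φ : C.K →ₗ[RatFunc k] RatFunc k) : ∃ β : C.K, ∀ s, C.tr z (β * s) = C.rat (φ s) := by
  have hr : C.cst C.r ≠ 0 := (map_ne_zero C.cst).2 C.hrk
  refine ⟨∑ b ∈ range C.r, C.rat (φ (C.y ^ b) / C.r) * C.y⁻¹ ^ b, ind_y (by simp [tr]) ?_ ?_⟩
  · intro s t hs ht
    rw [mul_add, tr_add, hs, ht, map_add, map_add]
  · intro q b hb
    have h1 : ∀ (S : Finset ℕ) (f : ℕ → C.K), C.tr z (∑ i ∈ S, f i) = ∑ i ∈ S, C.tr z (f i) := by
      intro S f
      simp only [tr, map_sum]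
      exact sum_comm
    rw [mul_left_comm, tr_rat, ← Algebra.smul_def q (C.y ^ b), map_smul, smul_eq_mul, map_mul,
      sum_mul, h1]
    rw [sum_congr rfl fun b' hb' => by rw [mul_assoc, tr_rat, tr_y_div hz (mem_range.1 hb') hb]]
    rw [sum_eq_single b]
    · rw [if_pos rfl, map_div₀, map_natCast]
      rw [map_natCast] at hr ⊢
      field_simp
    · intro b' _ h
      simp [h]
    · intro h
      exact (h (mem_range.2 hb)).elim

theorem Top_eq_zero {z : C.Mu} (hz : IsPrimitiveRoot z.val C.r) {η : ℕ → C.K}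
    (h : ∀ s, Top z η s = 0) {l : ℕ} (hl : l < C.r) : η l = 0 := by
  have h1 := Matrix.eq_zero_of_forall_pow_sum_mul_pow_eq_zero
    (f := fun j : Fin C.r => C.cst (z.val ^ (j : ℕ))) (v := fun j : Fin C.r => η j)
    (fun i j e => Fin.ext (hz.pow_inj i.2 j.2 (C.cst.injective e))) (fun b => by
      have h2 := h (C.y ^ (b : ℕ))
      rw [Top_apply, sum_congr rfl fun l _ => by rw [tau_pow_y, ← mul_assoc], ← sum_mul,
        mul_eq_zero] at h2
      rw [← h2.resolve_right (pow_ne_zero _ C.y_ne), ← Fin.sum_univ_eq_sum_range]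
      exact sum_congr rfl fun j _ => by rw [Mu.val_pow, map_pow C.cst (z.val ^ (j : ℕ))])
  exact congrFun h1 ⟨l, hl⟩

theorem nm_mul (z : C.Mu) (g h : C.K) : C.nm z (g * h) = C.nm z g * C.nm z h := by
  simp only [nm, pp, map_mul, prod_mul_distrib]

theorem pp_ne (z : C.Mu) {g : C.K} (hg : g ≠ 0) (l : ℕ) : C.pp z g l ≠ 0 :=
  prod_ne_zero_iff.2 fun _ _ => (_root_.map_ne_zero _).2 hg

theorem nm_tau (z : C.Mu) {g : C.K} (hg : g ≠ 0) : C.nm z (C.tau z g) = C.nm z g := by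
  have h1 : C.pp z g (C.r + 1) = C.nm z g * g := by
    have : z ^ C.r = 1 := Mu.val_injective (by rw [Mu.val_pow, z.val_pow_r]; rfl)
    rw [pp, prod_range_succ, this, tau_one]
    rfl
  have h2 : C.pp z g (C.r + 1) = C.nm z (C.tau z g) * g := by
    rw [pp, prod_range_succ', pow_zero, tau_one, nm, pp]
    simp only [tau_tau, pow_succ]
  exact mul_right_cancel₀ hg (h2.symm.trans h1)

variable [IsAlgClosed k]

theorem tau_mem_V (z : C.Mu) (P : C.Pt) (m : ℤ) (s : C.K) :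
    C.tau z s ∈ P.V m ↔ s ∈ (z • P).V m := tau_mem_iff z P

theorem rat_V {P : C.Pt} (hP : P.IsRam) {q : RatFunc k} (h : C.rat q ∈ P.V (-((C.r : ℤ) - 1))) :
    C.rat q ∈ P.V 0 := Pt.rat_mem_zero_of_ram hP h (by omega)

theorem V_mul {P : C.Pt} {m m' : ℤ} {s t : C.K} (hs : s ∈ P.V m) (ht : t ∈ P.V m') :
    s * t ∈ P.V (m + m') := by
  change Ge _ _
  rw [map_mul]
  exact Ge.mul hs ht

theorem V_mono {P : C.Pt} {m m' : ℤ} {s : C.K} (hs : s ∈ P.V m) (h : m' ≤ m) : s ∈ P.V m' :=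
  Ge.mono hs h

theorem V_mul' {P : C.Pt} {m m' M : ℤ} {s t : C.K} (hs : s ∈ P.V m) (ht : t ∈ P.V m')
    (h : M ≤ m + m') : s * t ∈ P.V M := V_mono (V_mul hs ht) h

theorem V_pow {P : C.Pt} {m : ℤ} {s : C.K} (hs : s ∈ P.V m) (j : ℕ) : s ^ j ∈ P.V (j * m) := by
  change Ge _ _
  rw [map_pow]
  exact (Ge.pow hs j).1

theorem mem_V_ord (P : C.Pt) (s : C.K) : s ∈ P.V (P.ord s) := ge_order _

theorem mem_V_iff {P : C.Pt} {m : ℤ} {s : C.K} (hs : s ≠ 0) : s ∈ P.V m ↔ m ≤ P.ord s :=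
  ge_iff_order ((_root_.map_ne_zero _).2 hs)

theorem ord_mul (P : C.Pt) {s t : C.K} (hs : s ≠ 0) (ht : t ≠ 0) :
    P.ord (s * t) = P.ord s + P.ord t := by
  unfold Pt.ord
  rw [map_mul, HahnSeries.order_mul ((_root_.map_ne_zero _).2 hs) ((_root_.map_ne_zero _).2 ht)]

theorem ord_pow (P : C.Pt) (s : C.K) (j : ℕ) : P.ord (s ^ j) = j * P.ord s := by
  unfold Pt.ord
  rw [map_pow, HahnSeries.order_pow, nsmul_eq_mul]

theorem ord_inv (P : C.Pt) {s : C.K} (hs : s ≠ 0) : P.ord s⁻¹ = -P.ord s := by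
  have h := ord_mul P hs (inv_ne_zero hs)
  rw [mul_inv_cancel₀ hs, ← pow_zero s, ord_pow] at h
  simp only [Nat.cast_zero, zero_mul] at h
  omega

theorem mul_mem_V_iff {P : C.Pt} {m : ℤ} {w s : C.K} (hw : w ≠ 0) :
    w * s ∈ P.V m ↔ s ∈ P.V (m - P.ord w) := by
  by_cases hs : s = 0
  · simp [hs]
  · rw [mem_V_iff (mul_ne_zero hw hs), mem_V_iff hs, ord_mul P hw hs]
    omega

theorem ord_eq {P : C.Pt} {m : ℤ} {s : C.K} (h : s ∈ P.V m) (h' : P.lc m s ≠ 0) : P.ord s = m :=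
  order_eq_of_ge h h'

theorem cst_mem (P : C.Pt) (c : k) : C.cst c ∈ P.V 0 := by
  change Ge _ _
  rw [Pt.iota_cst]
  exact ge_C c

theorem of_r_mul {P : C.Pt} {m : ℤ} {s : C.K} (h : C.cst C.r * s ∈ P.V m) : s ∈ P.V m := by
  rw [← Algebra.smul_def] at h
  exact (Submodule.smul_mem_iff _ C.hrk).1 h

theorem ord_y (P : C.Pt) : P.ord C.y = C.R P - C.nu * C.H P := by
  have h := P.exists_ys.choose_spec
  have h1 : P.ord C.y = P.oy := by
    unfold Pt.ord
    rw [Pt.iota_y]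
    exact order_eq_of_ge h.2.1 h.2.2.1
  rw [h1, R_apply, H_apply]
  cases P with
  | aff x0 y0 e => by_cases hy : y0 = 0 <;> simp [Pt.oy, Pt.IsRam, Pt.IsInf, hy]
  | inf w e => simp [Pt.oy, Pt.IsRam, Pt.IsInf]

theorem ord_pol_aff {x0 y0 : k} (e : y0 ^ C.r = C.F.eval x0) {u : k[X]} (hu : u ≠ 0) :
    (Pt.aff x0 y0 e : C.Pt).ord (C.pol u) = u.rootMultiplicity x0 * (Pt.aff x0 y0 e : C.Pt).e := by
  obtain ⟨h1, h2, h3⟩ := eval₂_aff x0 (Pt.aff x0 y0 e : C.Pt).e_pos hu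
  unfold Pt.ord
  rw [Pt.iota_pol]
  exact order_eq_of_ge h1 (by rw [← h2] at h3; exact h3)

theorem ord_pol_ram {a : k} (ha : C.F.eval a = 0) {u : k[X]} (hu : u ≠ 0) :
    (ram a ha).ord (C.pol u) = 0 ↔ u.eval a ≠ 0 := by
  have h := (ram a ha).e_pos
  rw [ram] at h ⊢
  rw [ord_pol_aff _ hu, mul_eq_zero, Nat.cast_eq_zero, Nat.cast_eq_zero,
    rootMultiplicity_eq_zero_iff, IsRoot.def]
  constructor
  · rintro (h1 | h1)
    · exact fun e => hu (h1 e)
    · omega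
  · exact fun h1 => Or.inl fun e => (h1 e).elim

theorem ord_lin {a : k} (ha : C.F.eval a = 0) {P : C.Pt} (hP : P ≠ ram a ha) :
    P.ord (C.pol (X - Polynomial.C a)) = -C.H P := by
  rw [H_apply]
  cases P with
  | aff x0 y0 e =>
    have hx : x0 ≠ a := by
      rintro rfl
      have : y0 = 0 := pow_eq_zero_iff C.hr.ne_zero |>.1 (e.trans ha)
      subst this
      exact hP rfl
    rw [ord_pol_aff _ (X_sub_C_ne_zero a), rootMultiplicity_eq_zero (by simpa [sub_eq_zero])]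
    simp [Pt.IsInf]
  | inf w e =>
    obtain ⟨h1, h2⟩ := eval₂_inf (X - Polynomial.C a)
    unfold Pt.ord
    rw [Pt.iota_pol]
    refine (order_eq_of_ge h1 (by rw [h2]; simp)).trans ?_
    simp [Pt.IsInf]

theorem tr_mem {z : C.Mu} {P : C.Pt} (hP : P.IsRam) {m : ℤ} {s : C.K} (hs : s ∈ P.V m) :
    C.tr z s ∈ P.V m :=
  Submodule.sum_mem _ fun l _ => (tau_mem_V _ _ _ _).2 (by rwa [smul_of_ram _ hP])

theorem tr_mem_zero {z : C.Mu} (hz : IsPrimitiveRoot z.val C.r) {P : C.Pt} (hP : P.IsRam)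
    {s : C.K} (hs : s ∈ P.V (-((C.r : ℤ) - 1))) : C.tr z s ∈ P.V 0 := by
  have h := tr_mem (z := z) hP hs
  obtain ⟨q, hq⟩ := exists_rat_tr hz s
  rw [hq] at h ⊢
  exact rat_V hP h

theorem ord_y_ram {P : C.Pt} (hP : P.IsRam) : P.ord C.y = 1 := by
  obtain ⟨a, ha, rfl⟩ := exists_ram hP
  rw [ord_y, R_apply, H_apply, if_pos hP, if_neg (by exact fun h => h)]
  simp

/-- the order of the dual element at the special point -/
theorem beta_at {z : C.Mu} (hz : IsPrimitiveRoot z.val C.r) {P : C.Pt}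
    {β b1 : C.K} (hb : b1 ≠ 0) (h : ∀ m, ∀ s ∈ P.V m, C.tr z (β * s) * b1 ∈ P.V m) :
    β ∈ P.V (-P.ord b1) := by
  refine of_r_mul ?_
  rw [← sumid z hz C.y_ne (fun l => by rw [tau_y, Mu.val_pow]) β]
  refine Submodule.sum_mem _ fun b _ => ?_
  have h1 := h _ _ (mem_V_ord P (C.y ^ b))
  rw [mul_comm, mul_mem_V_iff hb] at h1
  refine V_mul' h1 (mem_V_ord P _) ?_
  rw [ord_pow, ord_pow, ord_inv _ C.y_ne]
  linarith

/-- the order of the dual element at the other points -/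
theorem beta_off {z : C.Mu} (hz : IsPrimitiveRoot z.val C.r) {a : k} (ha : C.F.eval a = 0)
    {X0 : C.Div} {β : C.K} (h : ∀ s ∈ C.Moff (ram a ha) X0, C.tr z (β * s) ∈ C.Moff (ram a ha) 0)
    {P : C.Pt} (hP : P ≠ ram a ha) : β ∈ P.V (-X0 P - ((C.r : ℤ) - 1) * C.R P) := by
  obtain ⟨s, hs, hs'⟩ := approx (P := ram a ha) rfl X0 hP
  have hs0 : s ≠ 0 := by rintro rfl; exact hs' (map_zero _)
  have ho := ord_eq ((mem_Moff C).1 hs P hP) hs'
  have hl : C.pol (X - Polynomial.C a) ≠ 0 := C.pol_ne (X_sub_C_ne_zero a)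
  set w := C.y * (C.pol (X - Polynomial.C a))⁻¹ ^ C.nu with hw
  have hw0 : w ≠ 0 := mul_ne_zero C.y_ne (pow_ne_zero _ (inv_ne_zero hl))
  have hwo : ∀ P', P' ≠ ram a ha → P'.ord w = C.R P' := fun P' hP' => by
    rw [hw, ord_mul _ C.y_ne (pow_ne_zero _ (inv_ne_zero hl)), ord_pow, ord_inv _ hl,
      ord_lin ha hP', ord_y]
    ring
  have hR : ∀ P', 0 ≤ C.R P' := fun P' => by
    rw [R_apply]
    split_ifs <;> norm_num
  have h1 : s * β ∈ P.V (-(((C.r : ℤ) - 1) * C.R P)) := by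
    refine of_r_mul ?_
    rw [← sumid z hz hw0 (fun l => by
      rw [hw, map_mul, map_pow, map_inv₀, tau_pol, tau_y, Mu.val_pow, mul_assoc]) (s * β)]
    refine Submodule.sum_mem _ fun b hb => ?_
    have h2 : s * w ^ b ∈ C.Moff (ram a ha) X0 := (mem_Moff C).2 fun P' hP' => by
      refine V_mul' ((mem_Moff C).1 hs P' hP') (mem_V_ord P' _) ?_
      rw [ord_pow, hwo P' hP']
      nlinarith [hR P', Int.natCast_nonneg b]
    have h3 := (mem_Moff C).1 (h _ h2) P hP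
    rw [show β * (s * w ^ b) = s * β * w ^ b by ring] at h3
    refine V_mul' h3 (mem_V_ord P _) ?_
    rw [ord_pow, ord_inv _ hw0, hwo P hP]
    have : (b : ℤ) < C.r := by exact_mod_cast mem_range.1 hb
    simp only [Finsupp.coe_zero, Pi.zero_apply]
    nlinarith [hR P]
  rw [mul_mem_V_iff hs0, ho] at h1
  exact V_mono h1 (by linarith)

theorem pp_near (z : C.Mu) {P : C.Pt} (hP : P.IsRam) {g : C.K} {u : k[X]} {m : ℤ} (hm : 0 ≤ m)
    (hu : C.pol u ∈ P.V 0) (hg : g - C.pol u ∈ P.V m) (l : ℕ) :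
    C.pp z g l - C.pol u ^ l ∈ P.V m := by
  induction l with
  | zero => simp [pp]
  | succ l ih =>
    have h1 : C.tau (z ^ l) g - C.pol u ∈ P.V m := by
      have := (tau_mem_V (z ^ l) P m (g - C.pol u)).2 (by rwa [smul_of_ram _ hP])
      rwa [map_sub, tau_pol] at this
    have h2 : C.tau (z ^ l) g ∈ P.V 0 := by
      have := Submodule.add_mem _ (V_mono h1 hm) hu
      rwa [sub_add_cancel] at this
    have h3 : C.pp z g (l + 1) - C.pol u ^ (l + 1) = (C.pp z g l - C.pol u ^ l) * C.tau (z ^ l) g +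
        C.pol u ^ l * (C.tau (z ^ l) g - C.pol u) := by
      rw [pp, prod_range_succ, pp]
      ring
    rw [h3]
    exact Submodule.add_mem _ (V_mul' ih h2 (by omega)) (V_mul' (V_pow hu l) h1 (by omega))

/-- the condition at a ramified point in terms of the operator -/
theorem solR_iff (z : C.Mu) {P : C.Pt} (hP : P.IsRam) {g : C.K} {u : k[X]} (hu0 : u ≠ 0)
    (hu : P.ord (C.pol u) = 0) (hg : g - C.pol u ∈ P.V C.r) {η : ℕ → C.K}
    (hη : ∀ l < C.r, η l ∈ P.V (-((C.r : ℤ) - 1))) (b : ℕ) :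
    (∑ l ∈ range C.r, C.y ^ (C.r - 1) * C.pp z g l * η l * C.pol u ^ (C.r - 1 - l) *
      C.cst (z.val ^ (l * b))) * C.y ^ (b + 1) ∈ P.V C.r ↔ Top z η (C.y ^ b) ∈ P.V 0 := by
  have hu1 : C.pol u ∈ P.V 0 := hu ▸ mem_V_ord P _
  have hy := ord_y_ram hP
  have h1 : (∑ l ∈ range C.r, C.y ^ (C.r - 1) * C.pp z g l * η l * C.pol u ^ (C.r - 1 - l) *
      C.cst (z.val ^ (l * b))) * C.y ^ (b + 1) = C.y ^ C.r * ((∑ l ∈ range C.r,
        (C.pp z g l - C.pol u ^ l) * C.pol u ^ (C.r - 1 - l) * η l * C.cst (z.val ^ (l * b)) *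
          C.y ^ b) + C.pol u ^ (C.r - 1) * Top z η (C.y ^ b)) := by
    rw [Top_apply, mul_sum, ← sum_add_distrib, mul_sum, sum_mul]
    refine sum_congr rfl fun l hl => ?_
    have hl' := mem_range.1 hl
    have e1 : C.y ^ C.r = C.y ^ (C.r - 1) * C.y := by
      rw [← pow_succ, Nat.sub_add_cancel C.r_pos]
    have e2 : C.pol u ^ (C.r - 1) = C.pol u ^ l * C.pol u ^ (C.r - 1 - l) := by
      rw [← pow_add]
      congr 1
      omega
    rw [tau_pow_y, e1, e2, Mu.val_pow, ← pow_mul]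
    ring
  have h2 : (∑ l ∈ range C.r, (C.pp z g l - C.pol u ^ l) * C.pol u ^ (C.r - 1 - l) * η l *
      C.cst (z.val ^ (l * b)) * C.y ^ b) ∈ P.V 0 := by
    refine Submodule.sum_mem _ fun l hl => ?_
    have h3 := V_mul (V_mul (V_mul (V_mul (pp_near z hP (Int.natCast_nonneg _) hu1 hg l)
      (V_pow hu1 (C.r - 1 - l))) (hη l (mem_range.1 hl))) (cst_mem P (z.val ^ (l * b))))
      (mem_V_ord P (C.y ^ b))
    refine V_mono h3 ?_
    rw [ord_pow, hy]
    omega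
  rw [h1, mul_mem_V_iff (pow_ne_zero _ C.y_ne), ord_pow, hy, mul_one, sub_self,
    Submodule.add_mem_iff_right _ h2, mul_mem_V_iff (pow_ne_zero _ (C.pol_ne hu0)), ord_pow, hu,
    mul_zero, sub_zero]

/-- an operator which keeps the powers of `y` regular keeps all regular functions regular -/
theorem Top_reg {z : C.Mu} (hz : IsPrimitiveRoot z.val C.r) {P : C.Pt} (hP : P.IsRam)
    {η : ℕ → C.K} (h : ∀ b < C.r, Top z η (C.y ^ b) ∈ P.V 0) {s : C.K} (hs : s ∈ P.V 0) :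
    Top z η s ∈ P.V 0 := by
  refine of_r_mul ?_
  have h1 := sumid z hz.inv (inv_ne_zero C.y_ne) (fun l => by
    rw [map_inv₀, tau_y, Mu.val_pow, mul_inv, inv_pow, map_inv₀]) s
  have h2 : C.cst C.r * Top z η s = Top z η (C.cst C.r * s) := by
    rw [map_natCast, ← map_natCast C.rat, Top_rat]
  rw [h2, ← h1, map_sum]
  refine Submodule.sum_mem _ fun b hb => ?_
  have hb' := mem_range.1 hb
  have h3 : C.tr z (s * C.y⁻¹ ^ b) ∈ P.V 0 := by
    refine tr_mem_zero hz hP (V_mul' hs (mem_V_ord P _) ?_)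
    rw [ord_pow, ord_inv _ C.y_ne, ord_y_ram hP]
    omega
  obtain ⟨q, hq⟩ := exists_rat_tr hz (s * C.y⁻¹ ^ b)
  rw [hq] at h3
  rw [hq, inv_inv, Top_rat]
  exact V_mul' h3 (h b hb') le_rfl

end SA

end Cv

end Vale.Agent.P319
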